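import Vale.Agent.P004Z.Lf.Defs
import Vale.Agent.P004.H26.R.Unf
import Vale.Agent.P004.H26.R.Grp

/-!
# P004Z, block G4: iterated integrals and unfolding
-/

set_option autoImplicit false
set_option linter.all false

open UpperHalfPlane hiding I
open Complex MeasureTheory Filter Set
open scoped MatrixGroups Modular Real ComplexConjugate Topology ENNReal

noncomputable section

namespace Vale.Agent.P004Z.Lf

open Vale.Agent.P004.H26.H86

theorem pt_coe (u : ℝ) {v : ℝ} (h : 0 < v) : (pt u v : ℂ) = u + v * I := by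
  rw [pt, ofComplex_apply_of_im_pos (z := ⟨u, v⟩) h]
  exact Complex.ext (by simp) (by simp)

theorem pt_re (u : ℝ) {v : ℝ} (h : 0 < v) : (pt u v).re = u := by
  rw [← coe_re, pt_coe u h]; simp

theorem pt_im (u : ℝ) {v : ℝ} (h : 0 < v) : (pt u v).im = v := by
  rw [← coe_im, pt_coe u h]; simp

theorem pt_self (τ : ℍ) : pt τ.re τ.im = τ :=
  UpperHalfPlane.ext ((pt_coe _ τ.im_pos).trans (Complex.re_add_im _))

theorem pt_T (u : ℝ) {v : ℝ} (h : 0 < v) : pt (u + 1) v = ModularGroup.T • pt u v := by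
  rw [modular_T_smul]
  exact UpperHalfPlane.ext (by rw [coe_vadd, pt_coe _ h, pt_coe _ h]; push_cast; ring)

theorem cont_pt {v : ℝ} (h : 0 < v) : Continuous fun u => pt u v :=
  isEmbedding_coe.continuous_iff.2 (by
    simp only [Function.comp_def, pt_coe _ h]; fun_prop)

/-- `dy / y ^ 2` -/
def nu : Measure ℝ := (volume.restrict (Ioi 0)).withDensity fun y => ENNReal.ofReal (1 / y ^ 2)

instance : SFinite nu := by unfold nu; infer_instance

theorem meas_pt : Measurable fun p : ℝ × ℝ => pt p.2 p.1 :=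
  meas_ofC.comp (Complex.measurableEquivRealProd.symm.measurable.comp measurable_swap)

theorem meas_den : Measurable fun y : ℝ => ENNReal.ofReal (1 / y ^ 2) := by fun_prop

theorem mp_pt : MeasurePreserving (fun p : ℝ × ℝ => pt p.2 p.1) (nu.prod volume) volume := by
  refine ⟨meas_pt, Measure.ext fun s hs => ?_⟩
  rw [Measure.map_apply meas_pt hs, Measure.prod_apply (meas_pt hs), ← lintegral_indicator_one hs,
    lint_H (measurable_one.indicator hs), nu,
    lintegral_withDensity_eq_lintegral_mul _ meas_den (measurable_measure_prodMk_left (meas_pt hs))]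
  refine lintegral_congr fun y => ?_
  rw [lintegral_mul_const' _ _ ENNReal.ofReal_ne_top, Pi.mul_apply, mul_comm,
    ← lintegral_indicator_one (measurable_prodMk_left (meas_pt hs))]
  rfl

/-- a rectangle -/
def Bx (I J : Set ℝ) : Set ℍ := {τ | τ.re ∈ I ∧ τ.im ∈ J}

theorem meas_Bx {I J : Set ℝ} (hI : MeasurableSet I) (hJ : MeasurableSet J) :
    MeasurableSet (Bx I J) :=
  (UpperHalfPlane.continuous_re.measurable hI).inter (UpperHalfPlane.continuous_im.measurable hJ)

variable {I J : Set ℝ} (hI : MeasurableSet I) (hJ : MeasurableSet J) (h0 : J ⊆ Ioi 0)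

section
include hI hJ h0

theorem mp_Bx : MeasurePreserving (fun p : ℝ × ℝ => pt p.2 p.1)
    (((volume.restrict J).withDensity fun y => ENNReal.ofReal (1 / y ^ 2)).prod (volume.restrict I))
    (volume.restrict (Bx I J)) := by
  have h := mp_pt.restrict_preimage (meas_Bx hI hJ)
  have a : ∀ᵐ p ∂nu.prod (volume : Measure ℝ), p.1 ∈ Ioi (0 : ℝ) :=
    Measure.quasiMeasurePreserving_fst.ae
      ((withDensity_absolutelyContinuous _ _).ae_le (ae_restrict_mem measurableSet_Ioi))
  rwa [Measure.restrict_congr_set (t := J ×ˢ I) (by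
    filter_upwards [a] with p hp
    refine propext ?_
    show (pt p.2 p.1).re ∈ I ∧ (pt p.2 p.1).im ∈ J ↔ p.1 ∈ J ∧ p.2 ∈ I
    rw [pt_re _ hp, pt_im _ hp, and_comm]), ← Measure.prod_restrict, nu, restrict_withDensity hJ,
    Measure.restrict_restrict hJ, inter_eq_left.2 h0] at h

variable {E : Type} [NormedAddCommGroup E] [NormedSpace ℝ E]

theorem int_den (g : ℝ → E) : ∫ y, g y ∂((volume.restrict J).withDensity
    fun y => ENNReal.ofReal (1 / y ^ 2)) = ∫ y in J, (1 / y ^ 2) • g y := by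
  rw [integral_withDensity_eq_integral_toReal_smul meas_den (by simp)]
  exact integral_congr_ae (Eventually.of_forall fun y => by
    simp only [ENNReal.toReal_ofReal (one_div_nonneg.2 (sq_nonneg y))])

theorem int_box {f : ℍ → E} (h : IntegrableOn f (Bx I J)) :
    ∫ τ in Bx I J, f τ = ∫ y in J, (1 / y ^ 2) • ∫ x in I, f (pt x y) := by
  have m := mp_Bx hI hJ h0
  rw [← m.map_eq, integral_map meas_pt.aemeasurable (m.map_eq.symm ▸ h.1),
    integral_prod (fun p : ℝ × ℝ => f (pt p.2 p.1)) (m.integrable_comp_of_integrable h), int_den hI hJ h0]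

theorem int_box' {f : ℍ → E} (h : IntegrableOn f (Bx I J)) :
    ∫ τ in Bx I J, f τ = ∫ x in I, ∫ y in J, (1 / y ^ 2) • f (pt x y) := by
  have m := mp_Bx hI hJ h0
  rw [← m.map_eq, integral_map meas_pt.aemeasurable (m.map_eq.symm ▸ h.1),
    integral_prod_symm (fun p : ℝ × ℝ => f (pt p.2 p.1)) (m.integrable_comp_of_integrable h)]
  simp only [int_den hI hJ h0]

theorem im_box (hv : volume I ≠ ∞) {g : ℝ → ℝ} (hg : Measurable g)
    (hi : IntegrableOn (fun y => g y / y ^ 2) J) : IntegrableOn (fun τ : ℍ => g τ.im) (Bx I J) := by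
  have : IsFiniteMeasure (volume.restrict I) := isFiniteMeasure_restrict.2 hv
  have m := mp_Bx hI hJ h0
  have h1 : Integrable g ((volume.restrict J).withDensity fun y => ENNReal.ofReal (1 / y ^ 2)) := by
    rw [integrable_withDensity_iff_integrable_smul' meas_den (by simp)]
    refine hi.congr (Eventually.of_forall fun y => ?_)
    simp only [ENNReal.toReal_ofReal (one_div_nonneg.2 (sq_nonneg y)), smul_eq_mul]
    ring
  refine (m.integrable_comp (hg.comp UpperHalfPlane.continuous_im.measurable).aestronglyMeasurable).1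
    ((h1.comp_fst (volume.restrict I)).congr ?_)
  filter_upwards [Measure.quasiMeasurePreserving_fst.ae
    ((withDensity_absolutelyContinuous _ _).ae_le (ae_restrict_mem hJ))] with p hp
  simp only [Function.comp, pt_im _ (h0 hp)]

theorem im_int (hv : volume.real I = 1) {g : ℝ → ℝ} (hg : Measurable g)
    (hi : IntegrableOn (fun y => g y / y ^ 2) J) : ∫ τ in Bx I J, g τ.im = ∫ y in J, g y / y ^ 2 := by
  rw [int_box hI hJ h0 (im_box hI hJ h0 (fun e => by simp [Measure.real, e] at hv) hg hi)]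
  refine setIntegral_congr_fun hJ fun y hy => ?_
  simp only [pt_im _ (h0 hy), integral_const, smul_eq_mul, measureReal_restrict_apply_univ, hv]
  ring

end

theorem fd_im {τ : ℍ} (h : τ ∈ 𝒟) : 1 / 2 < τ.im := by
  nlinarith [ModularGroup.three_le_four_mul_im_sq_of_mem_fd h, τ.im_pos]

theorem fd_sub : (𝒟 : Set ℍ) ⊆ Bx (Icc (-(1 / 2)) (1 / 2)) (Ioi (1 / 2)) :=
  fun _ h => ⟨abs_le.1 h.2, fd_im h⟩

theorem meas_fd : MeasurableSet (𝒟 : Set ℍ) := ModularGroup.isClosed_fd.measurableSet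

theorem meas_DT (T : ℝ) : MeasurableSet (DT T) :=
  meas_fd.inter (UpperHalfPlane.continuous_im.measurable measurableSet_Iic)

theorem DT_sub (T : ℝ) : DT T ⊆ Bx (Icc (-(1 / 2)) (1 / 2)) (Icc (1 / 2) T) :=
  fun _ h => ⟨abs_le.1 h.1.2, (fd_im h.1).le, h.2⟩

theorem cpt_Bx (a b T : ℝ) {c : ℝ} (hc : 0 < c) : IsCompact (Bx (Icc a b) (Icc c T)) := by
  rw [isEmbedding_coe.isCompact_iff]
  convert isCompact_Icc.reProdIm isCompact_Icc (s := Icc a b) (t := Icc c T)
  ext z
  exact ⟨by rintro ⟨τ, h, rfl⟩; exact h, fun h => ⟨⟨z, hc.trans_le h.2.1⟩, h, rfl⟩⟩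

theorem int_DT {E : Type} [NormedAddCommGroup E] {f : ℍ → E} (h : Continuous f) (T : ℝ) :
    IntegrableOn f (DT T) :=
  (h.continuousOn.integrableOn_compact (cpt_Bx _ _ T one_half_pos)).mono_set (DT_sub T)

/-! ### unfolding -/

theorem meas_sl (γ : SL(2, ℤ)) : Measurable fun z : ℍ => γ • z :=
  (MeasurableEquiv.smul ((γ : SL(2, ℤ)) : GL (Fin 2) ℝ)).measurable

theorem sum_map : (Measure.sum fun γ : SL(2, ℤ) =>
    ((volume : Measure ℍ).restrict 𝒟).map (γ • ·)) = (2 : ℝ≥0∞) • volume := by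
  refine Measure.ext fun s hs => ?_
  rw [Measure.sum_apply _ hs, Measure.smul_apply, smul_eq_mul, ← lintegral_indicator_one hs,
    ← unfold (measurable_one.indicator hs)]
  refine tsum_congr fun γ => ?_
  rw [Measure.map_apply (meas_sl γ) hs, ← lintegral_indicator_one (meas_sl γ hs)]
  rfl

theorem unf0 {E : Type} [NormedAddCommGroup E] [NormedSpace ℝ E] {K : ℍ → E} (h : Integrable K) :
    (∀ γ : SL(2, ℤ), IntegrableOn (fun τ => K (γ • τ)) 𝒟) ∧
      HasSum (fun γ : SL(2, ℤ) => ∫ τ in 𝒟, K (γ • τ)) ((2 : ℝ) • ∫ τ, K τ) := by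
  have h1 : Integrable K (Measure.sum fun γ : SL(2, ℤ) =>
      ((volume : Measure ℍ).restrict 𝒟).map (γ • ·)) := sum_map ▸ h.smul_measure (by simp)
  have h2 := fun γ => h1.mono_measure (Measure.le_sum _ γ)
  refine ⟨fun γ => (h2 γ).comp_measurable (meas_sl γ), ?_⟩
  have h3 := hasSum_integral_measure h1
  rw [sum_map, integral_smul_measure] at h3
  simpa only [integral_map (meas_sl _).aemeasurable (h2 _).1, ENNReal.toReal_ofNat] using h3

/-- the strip -/
def St : Set ℍ := Bx (Ico 0 1) (Ioi 0)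

theorem meas_St : MeasurableSet St := meas_Bx measurableSet_Ico measurableSet_Ioi

/-- **unfolding** -/
theorem unf {H : ℤ × ℤ → ℍ → ℂ} (hH : ∀ (γ : SL(2, ℤ)) v τ, H v (γ • τ) = H (vm v γ) τ)
    (h0 : ∀ τ, H 0 τ = 0) (hi : ∀ n : ℕ, IntegrableOn (H (0, n + 1)) St)
    (hs : Summable fun n : ℕ => ∫ τ in St, ‖H (0, n + 1) τ‖) :
    HasSum (fun n : ℕ => 2 * ∫ τ in St, H (0, n + 1) τ) (∫ τ in 𝒟, ∑' v, H v τ) := by
  have := sl_countable
  have k := fun n => (integrable_indicator_iff meas_St).2 (hi n)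
  have h1 := hasSum_integral_of_summable_integral_norm (μ := volume.restrict 𝒟)
    (F := fun (p : ℕ × SL(2, ℤ)) τ => St.indicator (H (0, p.1 + 1)) (p.2 • τ))
    (fun p => (unf0 (k p.1)).1 p.2) ((summable_prod_of_nonneg fun p =>
      integral_nonneg fun _ => norm_nonneg _).2 ⟨fun n => (unf0 (k n).norm).2.summable, by
        simp only [(unf0 (k _).norm).2.tsum_eq]
        simp only [norm_indicator_eq_indicator_norm, integral_indicator meas_St]
        exact hs.const_smul (2 : ℝ)⟩)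
  have h2 := h1.prod_fiberwise fun n => (unf0 (k n)).2
  simp only [integral_indicator meas_St, real_smul, ofReal_ofNat] at h2
  refine (integral_congr_ae (Eventually.of_forall fun τ => ?_) : ∫ τ in 𝒟, _ = ∫ τ in 𝒟, ∑' v, H v τ) ▸ h2
  symm
  have e : ∀ (p : CP) (j : ℤ), Psi (p, j) • τ ∈ St ↔ j = -⌊(gp p • τ).re⌋ := fun p j => by
    rw [Psi, mul_smul, eq_neg_iff_add_eq_zero, add_comm, ← Int.floor_add_intCast, Int.floor_eq_zero_iff,
      ← ModularGroup.re_T_zpow_smul]
    exact and_iff_left (im_pos _)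
  have i : Function.Injective fun x : ℕ × CP => (x.1, Psi (x.2, -⌊(gp x.2 • τ).re⌋)) := by
    rintro ⟨n, p⟩ ⟨m, q⟩ h
    exact Prod.ext (Prod.mk.inj h).1 (Prod.mk.inj (Psi_bij.1 (Prod.mk.inj h).2)).1
  simp only []
  rw [← i.tsum_eq, ← Subtype.val_injective.tsum_eq (g := (Subtype.val : NV → ℤ × ℤ)),
    ← (Equiv.ofBijective _ Phi_bij).tsum_eq]
  · refine tsum_congr fun x => ?_
    rw [indicator_of_mem ((e _ _).2 rfl), hH]
    simp only [vm, Psi, T_row, gp0, gp1]
    simp [P004.H26.H86.Phi]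
  · intro v hv
    exact ⟨⟨v, by rintro rfl; exact hv (h0 τ)⟩, rfl⟩
  · rintro ⟨n, γ⟩ hv
    obtain ⟨⟨p, j⟩, rfl⟩ := Psi_bij.2 γ
    exact ⟨(n, p), by rw [(e p j).1 (mem_of_indicator_ne_zero hv)]⟩

/-! ### integrals over subsets of the plane -/

theorem vol_coe {A : Set ℍ} (hA : MeasurableSet A) : (volume.restrict A).map ((↑) : ℍ → ℂ) =
    (volume.restrict ((↑) '' A)).withDensity fun z : ℂ => ((1 / ‖z.im‖₊) ^ 2 : NNReal) := by
  refine Measure.ext fun s hs => ?_
  have e := measurableEmbedding_coe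
  rw [Measure.map_apply e.measurable hs, Measure.restrict_apply (e.measurable hs),
    volume_eq_lintegral, withDensity_apply _ hs, Measure.restrict_restrict hs, image_preimage_inter]

section
variable {A : Set ℍ} (hA : MeasurableSet A) (f : ℂ → ℂ)
include hA

theorem int_coe : ∫ z in (↑) '' A, f z / z.im ^ 2 = ∫ τ in A, f τ := by
  rw [← measurableEmbedding_coe.integral_map, vol_coe hA,
    integral_withDensity_eq_integral_smul (by fun_prop)]
  refine integral_congr_ae (Eventually.of_forall fun z => ?_)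
  simp [NNReal.smul_def, div_eq_inv_mul, ← ofReal_pow]

theorem intg_coe : IntegrableOn (fun z => f z / z.im ^ 2) ((↑) '' A) ↔
    IntegrableOn (fun τ : ℍ => f τ) A := by
  refine Iff.trans ?_ measurableEmbedding_coe.integrable_map_iff
  rw [vol_coe hA, integrable_withDensity_iff_integrable_smul (by fun_prop)]
  refine integrable_congr (Eventually.of_forall fun z => ?_)
  simp [NNReal.smul_def, div_eq_inv_mul, ← ofReal_pow]

end

theorem FD_eq : FD = (↑) '' (𝒟 : Set ℍ) := by
  ext z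
  refine ⟨fun h => ⟨⟨z, h.2.2⟩, ⟨one_le_normSq_iff.2 h.2.1, h.1⟩, rfl⟩, ?_⟩
  rintro ⟨τ, h, rfl⟩
  exact ⟨h.2, one_le_normSq_iff.1 h.1, τ.im_pos⟩

theorem FT_eq (T : ℝ) : FT T = (↑) '' DT T := by
  rw [FT, FD_eq, inter_comm]
  exact (image_preimage_inter _ _ _).symm.trans (by rw [inter_comm]; rfl)

theorem int_FD (f : ℂ → ℂ) : ∫ z in FD, f z / z.im ^ 2 = ∫ τ in 𝒟, f τ :=
  FD_eq ▸ int_coe meas_fd f

theorem int_FT (f : ℂ → ℂ) (T : ℝ) : ∫ z in FT T, f z / z.im ^ 2 = ∫ τ in DT T, f τ :=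
  FT_eq T ▸ int_coe (meas_DT T) f

theorem intg_FD (f : ℂ → ℂ) : IntegrableOn (fun z => f z / z.im ^ 2) FD ↔
    IntegrableOn (fun τ : ℍ => f τ) 𝒟 := FD_eq ▸ intg_coe meas_fd f

end Vale.Agent.P004Z.Lf
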