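import Vale.Agent.P004Z.Lf.Defs
import Vale.Agent.P004Z.W.Bas
import Vale.Agent.P004Z.Hd.Bas

/-!
# P004Z, block G4: majorants, Gaussian integrals
-/

set_option autoImplicit false
set_option linter.all false

open UpperHalfPlane hiding I
open Complex MeasureTheory Filter Set
open scoped MatrixGroups Modular Real ComplexConjugate Topology

noncomputable section

namespace Vale.Agent.P004Z.Lf

theorem ee_add (x y : ℂ) : ee (x + y) = ee x * ee y := W.ee_add x y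
theorem ee_zero : ee 0 = 1 := W.ee_zero
theorem ee_int (n : ℤ) : ee n = 1 := W.ee_int n
theorem ee_congr {x y : ℂ} (n : ℤ) (h : x = y + n) : ee x = ee y := W.ee_congr n h
theorem ee_pow (n : ℕ) (x : ℂ) : ee (n * x) = ee x ^ n := W.ee_pow n x
theorem conj_ee (x : ℂ) : conj (ee x) = ee (-conj x) := W.conj_ee x
theorem norm_ee (x : ℂ) : ‖ee x‖ = Real.exp (-(2 * π * x.im)) := W.norm_ee x
theorem ee_div_eq_one {a : ℤ} {M : ℕ} (hM : M ≠ 0) : ee (a / M) = 1 ↔ (M : ℤ) ∣ a :=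
  W.ee_div_eq_one hM
theorem norm_ee_real (x : ℝ) : ‖ee x‖ = 1 := by simp [norm_ee]
@[fun_prop] theorem cont_ee : Continuous ee := by unfold ee; fun_prop

/-! ### the majorant -/

/-- the majorant -/
def mj (l : Fm) (z : ℍ) : ℝ := disc l + 2 * pz l z ^ 2

/-- the standard form -/
def nq (l : Fm) : ℝ := (l.1 : ℝ) ^ 2 + (l.2.1 : ℝ) ^ 2 + (l.2.2 : ℝ) ^ 2

/-- the comparison factor -/
def wt (z : ℍ) : ℝ := 4 * (1 + z.re ^ 2) ^ 2 * (1 + z.im ^ 2 + (z.im ^ 2)⁻¹)

/-- a summable weight -/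
def iq (l : Fm) : ℝ := (1 + (l.1 : ℝ) ^ 2)⁻¹ * ((1 + (l.2.1 : ℝ) ^ 2)⁻¹ * (1 + (l.2.2 : ℝ) ^ 2)⁻¹)

variable (l : Fm) (z : ℍ)

theorem pz_sq : pz l z ^ 2 + disc l = normSq (evq l z) / z.im ^ 2 := by
  have := z.im_ne_zero
  simp only [pz, disc, evq, normSq_apply, sq, add_re, add_im, mul_re, mul_im, intCast_re,
    intCast_im, coe_re, coe_im]
  push_cast
  field_simp
  ring

theorem mj_eq : mj l z = 2 * (l.1 * z.im) ^ 2 + (l.2.1 + 2 * l.1 * z.re) ^ 2 +
    2 * ((l.1 * z.re ^ 2 + l.2.1 * z.re + l.2.2) / z.im) ^ 2 := by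
  have := z.im_ne_zero
  simp only [mj, pz, disc, normSq_apply, coe_re, coe_im]
  push_cast
  field_simp
  ring

theorem mj_nonneg : 0 ≤ mj l z := by rw [mj_eq]; positivity

theorem nq_nonneg : 0 ≤ nq l := by unfold nq; positivity

theorem wt_pos : 0 < wt z := by unfold wt; positivity

theorem cont_wt : Continuous wt := by
  unfold wt
  have := UpperHalfPlane.continuous_re
  have := UpperHalfPlane.continuous_im
  fun_prop (disch := exact fun z => pow_ne_zero 2 (im_ne_zero z))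

theorem nq_le : nq l ≤ wt z * mj l z := by
  have hy := z.im_ne_zero
  rw [mj_eq, nq, wt]
  generalize (l.1 : ℝ) = a, (l.2.1 : ℝ) = b, (l.2.2 : ℝ) = c, z.re = x, z.im = y at *
  obtain ⟨B, rfl⟩ : ∃ B, b = B - 2 * x * a := ⟨b + 2 * x * a, by ring⟩
  obtain ⟨C, rfl⟩ : ∃ C, c = C - x * B + x ^ 2 * a := ⟨c + x * B - x ^ 2 * a, by ring⟩
  have h1 : a ^ 2 + (B - 2 * x * a) ^ 2 + (C - x * B + x ^ 2 * a) ^ 2 ≤
      4 * (1 + x ^ 2) ^ 2 * (a ^ 2 + B ^ 2 + C ^ 2) := by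
    nlinarith [sq_nonneg (2 * x * B + a), sq_nonneg (x * C + B), sq_nonneg (x ^ 2 * C - a),
      sq_nonneg (x ^ 2 * B + x * a), sq_nonneg a, sq_nonneg B, sq_nonneg C, sq_nonneg (x * a),
      sq_nonneg (x * B), sq_nonneg (x * C), sq_nonneg (x ^ 2 * a), sq_nonneg (x ^ 2 * B),
      sq_nonneg (x ^ 2 * C)]
  refine h1.trans ?_
  rw [mul_assoc _ (1 + y ^ 2 + _)]
  refine mul_le_mul_of_nonneg_left ?_ (by positivity)
  rw [show B - 2 * x * a + 2 * a * x = B by ring, show a * x ^ 2 + (B - 2 * x * a) * x +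
    (C - x * B + x ^ 2 * a) = C by ring, ← sub_nonneg]
  have : (1 + y ^ 2 + (y ^ 2)⁻¹) * (2 * (a * y) ^ 2 + B ^ 2 + 2 * (C / y) ^ 2) -
      (a ^ 2 + B ^ 2 + C ^ 2) = a ^ 2 + C ^ 2 + 2 * (1 + y ^ 2) * (a * y) ^ 2 +
        (y ^ 2 + (y ^ 2)⁻¹) * B ^ 2 + 2 * (1 + (y ^ 2)⁻¹) * (C / y) ^ 2 := by
    field_simp
    ring
  rw [this]
  positivity

theorem norm_gau (M : ℕ) (τ : ℂ) :
    ‖gau M l τ z‖ = Real.exp (-(π * τ.im * mj l z / (2 * M))) := by
  rw [gau, norm_mul, norm_ee, norm_real, Real.norm_of_nonneg (Real.exp_pos _).le, ← Real.exp_add,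
    mj, show (4 * M : ℂ) = ((4 * M : ℝ) : ℂ) by simp, div_ofReal_im]
  simp
  ring

theorem one_le_nq {l : Fm} (h : l ≠ 0) : 1 ≤ nq l := by
  have : 0 < l.1 ^ 2 + l.2.1 ^ 2 + l.2.2 ^ 2 := by
    by_contra e
    exact h (Prod.ext (by simp; nlinarith [sq_nonneg l.1, sq_nonneg l.2.1, sq_nonneg l.2.2])
      (Prod.ext (by simp; nlinarith [sq_nonneg l.1, sq_nonneg l.2.1, sq_nonneg l.2.2])
        (by simp; nlinarith [sq_nonneg l.1, sq_nonneg l.2.1, sq_nonneg l.2.2])))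
  unfold nq
  exact_mod_cast this

theorem sum_inv : Summable fun n : ℤ => (1 + (n : ℝ) ^ 2)⁻¹ := by
  refine (Real.summable_one_div_int_pow.2 one_lt_two).of_norm_bounded_eventually ?_
  filter_upwards [eventually_cofinite_ne 0] with n hn
  have : (0 : ℝ) < (n : ℝ) ^ 2 := by positivity
  rw [Real.norm_of_nonneg (by positivity), one_div]
  gcongr
  linarith

theorem sum_iq : Summable iq :=
  sum_inv.mul_of_nonneg (sum_inv.mul_of_nonneg sum_inv (fun _ => by positivity)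
    fun _ => by positivity) (fun _ => by positivity) fun _ => by positivity

theorem pow_exp (m : ℕ) {t s : ℝ} (ht : 0 < t) (hs : 0 ≤ s) :
    (1 + s) ^ m * Real.exp (-(t * s)) ≤ Real.exp t * m.factorial / t ^ m := by
  have := Real.pow_div_factorial_le_exp (t * (1 + s)) (by positivity) m
  rw [div_le_iff₀ (by positivity), mul_pow, mul_add, mul_one, Real.exp_add] at this
  rw [Real.exp_neg, ← div_eq_mul_inv, div_le_div_iff₀ (by positivity) (by positivity)]
  linarith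

/-- the basic bound -/
theorem nq_bd (k : ℕ) {t : ℝ} (ht : 0 < t) :
    (1 + nq l) ^ k * Real.exp (-(t * nq l)) ≤ Real.exp t * (k + 3).factorial / t ^ (k + 3) * iq l := by
  refine le_trans ?_ (mul_le_mul_of_nonneg_right (pow_exp (k + 3) ht (nq_nonneg l))
    (by unfold iq; positivity))
  have := nq_nonneg l
  rw [pow_add, mul_right_comm (_ ^ k), mul_assoc (_ * _)]
  refine le_mul_of_one_le_right (by positivity) ?_
  rw [iq, ← mul_inv, ← mul_inv, ← div_eq_mul_inv, one_le_div (by positivity), pow_three, nq]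
  gcongr <;> nlinarith [sq_nonneg (l.1 : ℝ), sq_nonneg (l.2.1 : ℝ), sq_nonneg (l.2.2 : ℝ)]

theorem sum_nq (k : ℕ) {t : ℝ} (ht : 0 < t) :
    Summable fun l => (1 + nq l) ^ k * Real.exp (-(t * nq l)) :=
  (sum_iq.mul_left _).of_nonneg_of_le (fun l => by have := nq_nonneg l; positivity)
    fun l => nq_bd l k ht

theorem sum_nq_le (k : ℕ) : ∃ C : ℝ, 0 ≤ C ∧ ∀ t : ℝ, 0 < t → t ≤ 1 →
    ∑' l, (1 + nq l) ^ k * Real.exp (-(t * nq l)) ≤ C / t ^ (k + 3) :=
  have h : 0 ≤ ∑' l, iq l := tsum_nonneg fun l => by unfold iq; positivity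
  ⟨Real.exp 1 * (k + 3).factorial * ∑' l, iq l, by positivity, fun t ht h1 => by
    refine ((sum_nq k ht).tsum_le_tsum (fun l => nq_bd l k ht) (sum_iq.mul_left _)).trans ?_
    rw [tsum_mul_left, div_mul_eq_mul_div]
    gcongr⟩

theorem gau_le (M : ℕ) {τ : ℂ} (h : 0 ≤ τ.im) :
    ‖gau M l τ z‖ ≤ Real.exp (-(π * τ.im / (2 * M * wt z) * nq l)) := by
  have := wt_pos z
  rw [norm_gau, Real.exp_le_exp, neg_le_neg_iff, div_mul_eq_mul_div, ← div_div,
    div_le_iff₀ this, div_mul_eq_mul_div, mul_assoc _ (mj l z), mul_comm (mj l z)]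
  gcongr
  exact nq_le l z

/-- periodic functions take finitely many values -/
theorem per_red (M : ℕ) [NeZero M] :
    ∃ s : Finset Fm, ∀ l, ∃ m ∈ s, ∀ φ, Per M φ → φ l = φ m := by
  have h : (0 : ℤ) < M := by exact_mod_cast NeZero.pos M
  refine ⟨Finset.Ico (0 : ℤ) M ×ˢ Finset.Ico (0 : ℤ) (2 * M) ×ˢ Finset.Ico (0 : ℤ) M, fun l =>
    ⟨(l.1 % M, l.2.1 % (2 * M), l.2.2 % M), ?_, fun φ e => ?_⟩⟩
  · simp only [Finset.mem_product, Finset.mem_Ico]
    exact ⟨⟨Int.emod_nonneg _ h.ne', Int.emod_lt_of_pos _ h⟩,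
      ⟨Int.emod_nonneg _ (by omega), Int.emod_lt_of_pos _ (by omega)⟩,
      Int.emod_nonneg _ h.ne', Int.emod_lt_of_pos _ h⟩
  · rw [← e (l.1 % M, l.2.1 % (2 * M), l.2.2 % M) (l.1 / M, l.2.1 / (2 * M), l.2.2 / M)]
    simp only [Int.emod_add_mul_ediv]

theorem per_bdd {M : ℕ} [NeZero M] {φ : Fm → ℂ} (h : Per M φ) :
    ∃ C : ℝ, 0 ≤ C ∧ ∀ l, ‖φ l‖ ≤ C := by
  obtain ⟨s, hs⟩ := per_red M
  refine ⟨∑ m ∈ s, ‖φ m‖, by positivity, fun l => ?_⟩
  obtain ⟨m, hm, e⟩ := hs l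
  exact e φ h ▸ Finset.single_le_sum (fun _ _ => norm_nonneg _) hm

/-! ### two integrals -/

theorem cs {a c : ℝ} (ha : 0 < a) (hc : 0 ≤ c) :
    ∫ t in Ioi (0 : ℝ), Real.exp (-(a * t - c / t) ^ 2) = √π / (2 * a) := by
  rcases hc.eq_or_lt with rfl | hc
  · simp only [zero_div, sub_zero, mul_pow, ← neg_mul, integral_gaussian_Ioi]
    rw [Real.sqrt_div' _ (sq_nonneg a), Real.sqrt_sq ha.le]
    ring
  have d1 : ∀ t ∈ Ioi (0 : ℝ), HasDerivWithinAt (fun t => a * t - c / t) (a + c / t ^ 2) (Ioi 0) t :=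
    fun t ht => by
      simpa [div_eq_mul_inv] using (((hasDerivAt_id' t).const_mul a).fun_sub
        ((hasDerivAt_inv (ne_of_gt ht)).const_mul c)).hasDerivWithinAt
  have d2 : ∀ t ∈ Ioi (0 : ℝ), HasDerivWithinAt (fun t => c / a * t⁻¹) (c / a * -(t ^ 2)⁻¹)
      (Ioi 0) t := fun t ht => ((hasDerivAt_inv (ne_of_gt ht)).const_mul _).hasDerivWithinAt
  have i1 : InjOn (fun t => a * t - c / t) (Ioi 0) :=
    StrictMonoOn.injOn fun s hs t ht h => sub_lt_sub (by gcongr) (div_lt_div_of_pos_left hc hs h)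
  have i2 : InjOn (fun t : ℝ => c / a * t⁻¹) (Ioi 0) := fun s _ t _ h =>
    inv_injective (mul_left_cancel₀ (by positivity) h)
  have s1 : (fun t => a * t - c / t) '' Ioi 0 = univ := eq_univ_of_forall fun s => by
    have e := Real.sq_sqrt (show 0 ≤ s ^ 2 + 4 * a * c by positivity)
    have p : 0 < s + √(s ^ 2 + 4 * a * c) := by
      have := Real.lt_sqrt_of_sq_lt (show (-s) ^ 2 < s ^ 2 + 4 * a * c by nlinarith [mul_pos ha hc])
      linarith
    generalize √(s ^ 2 + 4 * a * c) = r at e p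
    refine ⟨(s + r) / (2 * a), by simp only [mem_Ioi]; positivity, ?_⟩
    have := p.ne'
    simp only []
    field_simp
    linear_combination e
  have s2 : (fun t : ℝ => c / a * t⁻¹) '' Ioi 0 = Ioi 0 := by
    refine Subset.antisymm ?_ fun s (hs : 0 < s) => ⟨c / a * s⁻¹, ?_, by field_simp⟩
    · rintro _ ⟨t, ht : 0 < t, rfl⟩
      simp only [mem_Ioi]; positivity
    · simp only [mem_Ioi]; positivity
  have e1 := integral_image_eq_integral_abs_deriv_smul measurableSet_Ioi d1 i1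
    fun s => Real.exp (-1 * s ^ 2)
  have e2 := integral_image_eq_integral_abs_deriv_smul measurableSet_Ioi d2 i2
    fun t => Real.exp (-(a * t - c / t) ^ 2)
  have e3 := integrableOn_image_iff_integrableOn_abs_deriv_smul measurableSet_Ioi d2 i2
    fun t => Real.exp (-(a * t - c / t) ^ 2)
  have g : IntegrableOn (fun t => Real.exp (-(a * t - c / t) ^ 2)) (Ioi 0) := by
    refine ((integrable_exp_neg_mul_sq (sq_pos_of_pos ha)).const_mul
      (Real.exp (2 * a * c))).integrableOn.mono' (by fun_prop) ?_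
    filter_upwards [ae_restrict_mem measurableSet_Ioi] with t (ht : 0 < t)
    rw [Real.norm_of_nonneg (Real.exp_pos _).le, ← Real.exp_add, Real.exp_le_exp]
    have : a * t * (c / t) = a * c := by field_simp
    nlinarith [sq_nonneg (c / t)]
  rw [s1, setIntegral_univ, integral_gaussian, div_one] at e1
  rw [s2] at e2 e3
  rw [e1, eq_div_iff (by positivity), two_mul, mul_add, mul_comm _ a]
  conv_lhs => enter [2]; rw [e2]
  rw [← integral_const_mul, ← integral_const_mul, ← integral_add (g.const_mul _)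
    ((e3.1 g).const_mul _)]
  refine setIntegral_congr_fun measurableSet_Ioi fun t (ht : 0 < t) => ?_
  simp only [smul_eq_mul]
  rw [mul_neg, abs_neg, abs_of_pos (by positivity), abs_of_pos (by positivity),
    show -(a * (c / a * t⁻¹) - c / (c / a * t⁻¹)) ^ 2 = -(a * t - c / t) ^ 2 by field_simp; ring,
    neg_one_mul]
  field_simp

theorem cs' {A B : ℝ} (hA : 0 < A) (hB : 0 ≤ B) : ∫ t in Ioi (0 : ℝ),
    Real.exp (-(A * t ^ 2) - B / t ^ 2) = √(π / A) * Real.exp (-(2 * √(A * B))) / 2 := by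
  have := cs (Real.sqrt_pos.2 hA) (Real.sqrt_nonneg B)
  rw [Real.sqrt_div' _ hA.le, mul_div_right_comm, div_div, mul_comm _ 2, ← this,
    ← integral_mul_const]
  refine setIntegral_congr_fun measurableSet_Ioi fun t (ht : 0 < t) => ?_
  simp only [← Real.exp_add]
  rw [sub_sq, mul_pow, div_pow, Real.sq_sqrt hA.le, Real.sq_sqrt hB, Real.sqrt_mul hA.le]
  congr 1
  field_simp
  ring

theorem int3 {A B : ℝ} (hA : 0 < A) (hB : 0 ≤ B) : ∫ v in Ioi (0 : ℝ),
    √v / v ^ 2 * Real.exp (-(A / v) - B * v) = √(π / A) * Real.exp (-(2 * √(A * B))) := by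
  have := (integral_comp_rpow_Ioi _ (p := -(1 / 2)) (by norm_num)).trans (cs' hA hB)
  rw [eq_div_iff two_ne_zero] at this
  rw [← this, ← integral_mul_const]
  refine setIntegral_congr_fun measurableSet_Ioi fun v (hv : 0 < v) => ?_
  have e : (v ^ (-(1 / 2) : ℝ)) ^ 2 = v⁻¹ := by
    rw [← Real.rpow_natCast, ← Real.rpow_mul hv.le, ← Real.rpow_neg_one]; norm_num
  simp only [smul_eq_mul, e]
  rw [Real.sqrt_eq_rpow, ← Real.rpow_natCast, ← Real.rpow_sub hv, div_inv_eq_mul, ← div_eq_mul_inv]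
  norm_num
  ring

theorem int1 {A B : ℝ} (hA : 0 ≤ A) (hB : 0 < B) : ∫ v in Ioi (0 : ℝ),
    √v / v * Real.exp (-(A / v) - B * v) = √(π / B) * Real.exp (-(2 * √(A * B))) := by
  have := (integral_comp_rpow_Ioi _ (p := 1 / 2) (by norm_num)).trans (cs' hB hA)
  rw [eq_div_iff two_ne_zero] at this
  rw [mul_comm A, ← this, ← integral_mul_const]
  refine setIntegral_congr_fun measurableSet_Ioi fun v (hv : 0 < v) => ?_
  have e : (v ^ (1 / 2 : ℝ)) ^ 2 = v := by rw [← Real.sqrt_eq_rpow, Real.sq_sqrt hv.le]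
  simp only [smul_eq_mul, e]
  rw [Real.sqrt_eq_rpow, Real.rpow_sub_one hv.ne', neg_sub_comm]
  norm_num
  ring

theorem intg3 {A B : ℝ} (hA : 0 < A) (hB : 0 ≤ B) :
    IntegrableOn (fun v => √v / v ^ 2 * Real.exp (-(A / v) - B * v)) (Ioi 0) :=
  .of_integral_ne_zero (by rw [int3 hA hB]; positivity)

theorem intg1 {A B : ℝ} (hA : 0 ≤ A) (hB : 0 < B) :
    IntegrableOn (fun v => √v / v * Real.exp (-(A / v) - B * v)) (Ioi 0) :=
  .of_integral_ne_zero (by rw [int1 hA hB]; positivity)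

end Vale.Agent.P004Z.Lf
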