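import Vale.Agent.P004Z.Lf.Sha
import Vale.Agent.P004Z.Du.Pets
import Vale.Agent.P004Z.Th.Gs

/-!
# P004Z, block G4: the Shimura lift is a cusp form
-/

set_option autoImplicit false
set_option linter.all false

open UpperHalfPlane hiding I
open Complex MeasureTheory Filter Finset CongruenceSubgroup
open scoped MatrixGroups Modular Real ComplexConjugate Topology NumberTheorySymbols Manifold
  ModularForm

noncomputable section

namespace Vale.Agent.P004Z.Lf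

namespace Sb

theorem cusp (hA : SHA) {M : ℕ} [NeZero M] {F : ℍ → Fm → ℂ} {cp : Fm → ℂ} (h : Cs M F cp) :
    MDiff (Sh M F) ∧ IsZeroAtImInfty (Sh M F) := by
  have e : ∀ (p : ℕ × ℕ) (τ : ℂ), ((4 * (p.1 + 1) * (p.2 + 1) : ℤ) * τ / (4 * M) : ℂ) =
      (p.1 + 1) * (p.2 + 1) * τ / M := fun p τ => by
    have := M_ne (M := M)
    push_cast
    field_simp
  have d := Du.Pe.qs_dec (N := M) (k := fun p : ℕ × ℕ => 4 * (p.1 + 1) * (p.2 + 1))
    (a := fun p => 4 * I * ch M cp (-(p.2 + 1)) (p.1 + 1))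
    (fun τ p => by simpa only [e] using (hA M F cp h ⟨τ, p⟩).summable.norm)
    fun p _ => by nlinarith [Int.natCast_nonneg p.1, Int.natCast_nonneg p.2]
  simp only [e] at d
  refine ⟨mdifferentiable_iff.2 (d.diff.congr fun z hz => ?_), ?_⟩
  · rw [Function.comp, ofComplex_apply_of_im_pos hz]
    exact (hA M F cp h ⟨z, hz⟩).tsum_eq.symm
  · obtain ⟨C, -, hC⟩ := d.bd 1 one_pos
    refine squeeze_zero_norm' (a := fun z : ℍ => C * Real.exp (-(π / (2 * M)) * z.im))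
      (((eventually_ge_atTop 1).comap UpperHalfPlane.im).mono fun z hz => ?_) ?_
    · exact (hA M F cp h z).tsum_eq ▸ hC z hz
    · simpa [atImInfty] using (Real.tendsto_exp_atBot.comp ((tendsto_comap (f := UpperHalfPlane.im)
        (x := atTop)).const_mul_atTop_of_neg (neg_neg_of_pos d.pos))).const_mul C

theorem ct {a : ℕ → ℂ} (k : ℕ → ℤ) (h : Summable fun i => ‖a i‖) :
    HasSum (fun i => if k i = 0 then a i else 0)
      (∫ u in (0 : ℝ)..1, ∑' i, a i * ee (k i * u)) := by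
  rw [intervalIntegral.integral_of_le zero_le_one]
  refine hs_congr (hasSum_integral_of_summable_integral_norm
    (F := fun i (u : ℝ) => a i * ee (k i * u))
    (fun i => Continuous.integrableOn_Ioc (by fun_prop)) ?_) (fun i => ?_) rfl
  · norm_num [norm_ee, h]
  · rw [← intervalIntegral.integral_of_le zero_le_one, intervalIntegral.integral_const_mul]
    split_ifs with e
    · norm_num [e, ee_zero]
    · simp only [ee, ← mul_assoc]
      rw [integral_exp_mul_complex (by simp [e]), mul_assoc _ (k i : ℂ), ← ee]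
      simp [ee_int]

variable {N : ℕ} [NeZero N] {δ δ₁ : ℕ} {ρ : ZMod (2 * N)} {x : Cf N}

theorem co_fn (o : Ok N δ) (hx : IsS δ x) {r : ZMod (2 * N)} {k : ℤ} (hk : In N δ k r) {v : ℝ}
    (hv : 0 < v) : ∫ u in (0 : ℝ)..1, fn x r (pt u v) * ee (-(k * (pt u v : ℂ) / (4 * N))) =
      x k.toNat r := by
  have hN := M_ne (M := N)
  have h0 : (4 * N : ℤ) ≠ 0 := by have := NeZero.pos N; positivity
  have c := ct (a := fun n => x n r * ee (n * (v * I) / (4 * N)) * ee (-(k * (v * I) / (4 * N))))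
    (fun n => (n - k) / (4 * N))
    (by simpa only [norm_mul _ (ee (-_))] using (hx.sum r (v * I) (by simpa)).mul_right _)
  rw [intervalIntegral.integral_congr (g := fun u => fn x r (pt u v) *
    ee (-(k * (pt u v : ℂ) / (4 * N)))) fun u _ => ?_] at c
  · rw [c.unique (hasSum_single k.toNat fun n hn => ite_eq_right_iff.2 fun e => ?_)]
    · rcases le_total k 0 with h | h
      · simp [Int.toNat_of_nonpos h, hx.zero]
      · rw [Int.toNat_of_nonneg h, sub_self, Int.zero_ediv, if_pos rfl, mul_assoc, ← ee_add,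
          ← Int.cast_natCast, Int.toNat_of_nonneg h, add_neg_cancel, ee_zero, mul_one]
    · by_cases e' : x n r = 0
      · simp [e']
      have := Int.eq_zero_of_ediv_eq_zero (Du.In.dvd o (hx.sup n r e') hk) e
      omega
  · simp only [fn, ← tsum_mul_right, pt_coe _ hv]
    refine tsum_congr fun n => ?_
    by_cases e' : x n r = 0
    · simp [e']
    simp only [mul_assoc, ← ee_add]
    rw [Int.cast_div (Du.In.dvd o (hx.sup n r e') hk) (by exact_mod_cast h0)]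
    push_cast
    ring_nf

theorem inn (h : Dual δ δ₁ ρ) {r : ZMod (2 * N)} {l : Fm} (e : ph N δ₁ (ρ * r) l ≠ 0) :
    ∃ k : ℤ, disc l = δ₁ * k ∧ In N δ k r := by
  obtain ⟨⟨a, ha⟩, hb, ⟨k, hk⟩, -⟩ := Hd.ph_ne e
  obtain ⟨c, hc⟩ := (ZMod.intCast_eq_intCast_iff_dvd_sub (ρ.val * r.val) l.2.1 (2 * N)).1
    (by simp [hb])
  obtain ⟨d, hd⟩ := h.sq
  refine ⟨k, hk, IsCoprime.dvd_of_dvd_mul_left (y := (δ₁ : ℤ))
    (by exact_mod_cast (Nat.isCoprime_iff_coprime.2 (Du.cop4 h.ok1)).symm)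
    ⟨r.val ^ 2 * d + δ * (c * ρ.val * r.val + N * c ^ 2 - a * l.2.2), ?_⟩⟩
  rw [disc, ha, sub_eq_iff_eq_add.1 hc] at hk
  push_cast at hk
  linear_combination (r.val : ℤ) ^ 2 * hd - δ * hk

variable (δ₁ ρ x) in
/-- the seed -/
def sd (γ : SL(2, ℤ)) (τ : ℍ) (l : Fm) : ℂ := ∑ r, fn x r τ * ph N δ₁ (ρ * r) (fa l γ)

variable (δ₁ ρ x) in
/-- its coefficients -/
def cq (γ : SL(2, ℤ)) (l : Fm) : ℂ := ∑ r, x (disc l / δ₁).toNat r * ph N δ₁ (ρ * r) (fa l γ)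

theorem ft_sum {ι : Type} [Fintype ι] (M : ℕ) (g : ι → ℂ) (φ : ι → Fm → ℂ) (m : Fm) :
    ft M (fun l => ∑ r, g r * φ r l) m = ∑ r, g r * ft M (φ r) m := by
  simp only [ft, sum_mul, mul_sum]
  rw [sum_comm (s := univ)]
  refine sum_congr rfl fun a _ => ?_
  rw [sum_comm (s := univ)]
  refine sum_congr rfl fun b _ => ?_
  rw [sum_comm (s := univ)]
  exact sum_congr rfl fun c _ => sum_congr rfl fun r _ => by ring

theorem th_sum {ι : Type} [Fintype ι] {M : ℕ} [NeZero M] (g : ι → ℂ) {φ : ι → Fm → ℂ}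
    (h : ∀ r, Per M (φ r)) (τ z : ℍ) :
    th1 M (fun l => ∑ r, g r * φ r l) τ z = ∑ r, g r * th1 M (φ r) τ z := by
  simp only [th1, sum_mul, mul_left_comm _ (_ ^ 2), ← mul_sum]
  simp only [← tsum_mul_left (a := g _), mul_assoc (g _)]
  rw [Summable.tsum_finsetSum fun r _ => Summable.mul_left _ ?_]
  obtain ⟨C, -, hC⟩ := per_bdd (h r)
  have := M_pos (M := M)
  have := wt_pos z
  have := τ.im_pos
  refine (sum_aff hC (t := π * τ.im / (2 * M * wt z)) (by positivity)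
    (fun l => gau_le l z M (τ := τ) τ.im_pos.le) 0 (conj (z : ℂ) ^ 2 / z.im ^ 2)
    (conj (z : ℂ) / z.im ^ 2) (1 / z.im ^ 2)).congr fun l => ?_
  rw [evq, coe_im]
  ring

theorem sm_dual (hP : PHI) (h : Dual δ δ₁ ρ) (r s : ZMod (2 * N)) :
    I * sm N δ r s = -(eps δ₁ * sm N δ₁ (ρ * s) (-(ρ * r))) := by
  have u := ZMod.coe_mul_inv_eq_one δ (Du.cop2 h.ok)
  have u1 := ZMod.coe_mul_inv_eq_one δ₁ (Du.cop2 h.ok1)
  have e : ρ ^ 2 * δ + δ₁ = 0 := by
    have := (ZMod.intCast_zmod_eq_zero_iff_dvd _ (2 * N)).2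
      (Dvd.dvd.trans ⟨2, by push_cast; ring⟩ h.sq)
    simpa using this
  rw [sm, sm, show -((δ₁ : ZMod (2 * N))⁻¹ * (ρ * s) * -(ρ * r)) = -((δ : ZMod (2 * N))⁻¹ * r * s) by
    linear_combination (δ₁ : ZMod (2 * N))⁻¹ * (δ : ZMod (2 * N))⁻¹ * r * s * e -
      (δ₁ : ZMod (2 * N))⁻¹ * ρ ^ 2 * r * s * u - (δ : ZMod (2 * N))⁻¹ * r * s * u1]
  have k : I * kap N δ = -(eps δ₁ * kap N δ₁) := by
    linear_combination eps δ₁ * I * kap N δ₁ * h.kp - eps δ₁ * I * kap N δ * (Du.kp hP h.ok1).sq -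
      I * kap N δ * Du.eps_sq h.ok1 + eps δ₁ * kap N δ₁ * I_sq
  rw [← mul_assoc, k]
  ring

theorem seed (hP : PHI) (hF : FTA) (hS : PETS) (h : Dual δ δ₁ ρ) (hx : IsS δ x) (γ : SL(2, ℤ)) :
    Cs (N * δ₁) (sd δ₁ ρ x γ) (cq δ₁ ρ x γ) := by
  have h1 : 0 < δ₁ := zero_lt_one.trans h.ok1.one
  have := NeZero.mk h1.ne'
  have d1 : (δ₁ : ℂ) ≠ 0 := M_ne
  obtain ⟨p1, p2, -, -, -, -, p7, -⟩ := hP N δ₁ h.ok1
  have f := fun r => (hF γ).2.2.2.2.2 _ _ (NeZero.pos _) (p1 r)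
  have cf : ∀ r, Continuous fun τ : ℍ => fn x r τ := fun r =>
    (Du.Pe.fn_dec hx r).diff.continuousOn.comp_continuous continuous_coe im_pos
  obtain ⟨B, hB⟩ : ∃ B : ℝ, ∀ l, ∑ r, ‖(ph N δ₁ (ρ * r) l : ℂ)‖ ≤ B := by
    choose C _ hC using fun r => per_bdd (p1 r)
    exact ⟨_, fun l => sum_le_sum fun r _ => hC _ l⟩
  have bd : ∀ (τ : ℍ) l (A : ℝ), (∀ r, ‖fn x r τ‖ ≤ A) → ‖sd δ₁ ρ x γ τ l‖ ≤ B * A := fun τ l A hA => by
    refine (norm_sum_le_of_le _ fun r _ => (norm_mul_le_of_le (hA r) le_rfl)).trans ?_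
    rw [← mul_sum, mul_comm]
    exact mul_le_mul_of_nonneg_right (hB _) ((norm_nonneg _).trans (hA 0))
  refine ⟨⟨fun τ l m => sum_congr rfl fun r _ => congrArg _ ((f _).1 l m), fun τ l => ?_,
    fun τ l => ?_, fun l => continuous_finset_sum _ fun r _ => (cf r).mul continuous_const,
    fun g τ b => ?_⟩, ?_, ?_, fun l v hv => ?_, fun l hl => ?_⟩
  · rw [sd, sd, mul_sum]
    refine sum_congr rfl fun r _ => ?_
    by_cases e : ph N δ₁ (ρ * r) (fa l γ) = 0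
    · simp [e]
    obtain ⟨k, hk, hi⟩ := inn h e
    rw [W.coe_T, Du.Pe.fn_T h.ok hx, ← (Du.tm_iff h.ok k r).2 hi, ← Hd.disc_fa l γ, hk, mul_assoc]
    push_cast
    rw [show (δ₁ * k / (4 * (N * δ₁)) : ℂ) = k / (4 * N) by field_simp]
  · have e := ft_sum (N * δ₁) (fun r => fn x r τ) (fun r l => ph N δ₁ (ρ * r) (fa l γ)) (-l)
    have hw0 := Du.hw_ne τ.im_pos
    have e2 : (τ : ℂ) ^ 2 / hw τ = τ * hw τ * I := by
      rw [div_eq_iff hw0, mul_right_comm _ I, mul_assoc (τ : ℂ), ← sq, hw_sq]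
      field_simp
    simp only [fun r => (f r).2.1, p2] at e
    rw [show ft (N * δ₁) (sd δ₁ ρ x γ τ) (-l) = _ from e, sd, W.coe_S, ← one_div, ← neg_div]
    simp only [hx.law τ τ.im_pos, e2, mul_sum, sum_mul]
    rw [sum_comm]
    refine sum_congr rfl fun s _ => ?_
    rw [← Equiv.sum_comp h.un.neg.unit.mulLeft fun t => -(τ * hw τ) * _]
    refine sum_congr rfl fun r _ => ?_
    simp only [Units.mulLeft_apply, IsUnit.unit_spec, neg_mul ρ, Hd.fa_neg, Hd.ph_neg h.ok1.sq]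
    push_cast
    linear_combination τ * hw τ * fn x s τ * ph N δ₁ (ρ * r) (fa l γ) * sm_dual hP h r s
  · simp only [sd, Hd.fa_fa]
    rw [sum_comm]
    refine sum_eq_zero fun r _ => ?_
    rw [← mul_sum, ← Int.cast_sum, p7, Int.cast_zero, mul_zero]
  · obtain ⟨C, hC⟩ := (hS N δ h.ok x hx).2.1
    refine ⟨B * C, fun τ l => ?_⟩
    have := Real.rpow_pos_of_pos τ.im_pos (3 / 4)
    rw [← le_div_iff₀ this, mul_div_assoc]
    exact bd τ l _ fun r => (le_div_iff₀ this).2 (hC r τ τ.im_pos)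
  · obtain ⟨C, -, hC⟩ := Du.Pe.fn_le hx
    refine ⟨B * C, π / (2 * N), Du.Pe.c_pos, fun τ l hτ => ?_⟩
    rw [mul_assoc, ← neg_mul]
    exact bd τ l _ fun r => hC r τ hτ
  · simp only [co, sd, cq, sum_mul]
    have := cont_pt hv
    have := continuous_coe
    rw [intervalIntegral.integral_finsetSum]
    swap
    · exact fun r _ => Continuous.intervalIntegrable
        ((((cf r).comp (cont_pt hv)).mul continuous_const).mul (by fun_prop)) _ _
    refine sum_congr rfl fun r _ => ?_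
    by_cases e : ph N δ₁ (ρ * r) (fa l γ) = 0
    · simp [e]
    obtain ⟨k, hk, hi⟩ := inn h e
    rw [Hd.disc_fa] at hk
    rw [hk, Int.mul_ediv_cancel_left _ (by positivity), ← co_fn h.ok hx hi hv,
      ← intervalIntegral.integral_mul_const]
    refine intervalIntegral.integral_congr fun u _ => ?_
    push_cast
    rw [show (δ₁ * k * pt u v / (4 * (N * δ₁)) : ℂ) = k * pt u v / (4 * N) by field_simp]
    ring
  · simp [cq, Int.toNat_of_nonpos (Int.ediv_nonpos_of_nonpos_of_neg hl (Int.natCast_pos.2 h1)),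
      hx.zero]

theorem sl_eq (hP : PHI) (hF : FTA) (h : Dual δ δ₁ ρ) (γ : SL(2, ℤ)) :
    shi δ₁ ρ x ∣[(2 : ℤ)] γ = Sh (N * δ₁) (sd δ₁ ρ x γ⁻¹) := funext fun z => by
  have := NeZero.mk (zero_lt_one.trans h.ok1.one).ne'
  have f := fun r => ((hF γ⁻¹).2.2.2.2.2 _ _ (NeZero.pos _) ((hP N δ₁ h.ok1).1 (ρ * r))).1
  have g := fun r τ => (((hF γ).2.2.2.2.2 _ _ (NeZero.pos _) (f r)).2.2 τ z).2
  simp only [Hd.fa_inv] at g
  rw [ModularForm.SL_slash_apply, ModularGroup.denom_apply, shi, int_FD fun τ => ∑ r, fn x r τ *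
    th1 (N * δ₁) (fun l => ph N δ₁ (ρ * r) l) τ (γ • z : ℍ), Sh, ← integral_mul_const]
  refine integral_congr_ae (ae_of_all _ fun τ => ?_)
  have e := th_sum (fun r => fn x r τ) f τ z
  simp only [g, mul_left_comm _ (_ ^ 2), ← mul_sum, ← e]
  rw [mul_right_comm, zpow_neg, zpow_ofNat, mul_inv_cancel₀ (pow_ne_zero 2 (Hd.den_ne γ z)), one_mul]
  rfl

theorem gauss (o : Ok N δ) (n : ℤ) :
    ∑ j ∈ range (N * δ), (J(j | δ) : ℂ) * ee (-(j * n / (N * δ : ℕ))) =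
      if (N : ℤ) ∣ n then (N * J(N | δ) * J(-n | δ) * gs δ : ℂ) else 0 := by
  have h0 := (zero_lt_one.trans o.one).ne'
  have d0 : (δ : ℂ) ≠ 0 := Nat.cast_ne_zero.2 h0
  have n0 := M_ne (M := N)
  have c := Nat.isCoprime_iff_coprime.2 o.cop
  have e := Gq.crt1 (NeZero.ne N) h0 dvd_rfl c dvd_rfl c.symm
    (f := fun j => (J(j | δ) : ℂ) * ee ((-n * j : ℤ) / (N * δ : ℕ))) fun a b d => by
      beta_reduce
      rw [Hd.J_congr ((Int.natCast_dvd_natCast.2 (dvd_mul_left δ N)).trans d),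
        Gq.ee_dvd (mul_ne_zero (NeZero.ne N) h0) (mul_sub (-n) a b ▸ d.mul_left (-n))]
  rw [sum_congr rfl fun j _ => ?_, e, sum_congr rfl fun u _ => sum_congr rfl fun v _ => ?_,
    ← sum_mul_sum _ _ (fun u : ℕ => ee (u * (-n : ℤ) / N) * J(N | δ))
      fun v : ℕ => (J(v | δ) : ℂ) * ee ((-n * v : ℤ) / δ), ← sum_mul, orth, ← Gq.gk,
    Gq.gk_eq o.odd o.sq]
  · simp only [dvd_neg]
    split_ifs <;> ring
  · rw [Hd.J_congr (b := N * v) (by simp), jacobiSym.mul_left,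
      show ((-n * (δ * u + N * v) : ℤ) : ℂ) / (N * δ : ℕ) = u * (-n : ℤ) / N + (-n * v : ℤ) / δ by
        push_cast; field_simp; ring, ee_add]
    push_cast
    ring
  · push_cast
    ring_nf

theorem ch_eq (h : Dual δ δ₁ ρ) (b n : ℤ) : ch (N * δ₁) (cq δ₁ ρ x 1) b n =
    if (δ₁ : ℤ) ∣ b ∧ (N : ℤ) ∣ n then
      x (b ^ 2 / δ₁).toNat (ρ⁻¹ * b) * (N * J(N | δ₁) * J(-n | δ₁) * gs δ₁) else 0 := by
  have u := ZMod.mul_inv_of_unit ρ h.un
  have e : ∀ j : ℤ, cq δ₁ ρ x 1 (0, b, j) =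
      (if (δ₁ : ℤ) ∣ b then x (b ^ 2 / δ₁).toNat (ρ⁻¹ * b) else 0) * J(j | δ₁) := fun j => by
    rw [cq, sum_eq_single_of_mem (ρ⁻¹ * b) (mem_univ _) fun r _ e => ?_]
    · simp [Hd.fa_one, ph, disc, gc, ← mul_assoc, u, ← Hd.J_prod h.ok1.sq,
        (Int.squarefree_natCast.2 h.ok1.sq).dvd_pow_iff_dvd two_ne_zero]
    · rw [Hd.fa_one, ph, if_neg fun k => e ?_, Int.cast_zero, mul_zero]
      rw [k.2.1, ← mul_assoc, mul_comm _ ρ, u, one_mul]
  simp only [ch, e, mul_assoc _ (J(_ | δ₁) : ℂ), ← mul_sum, gauss h.ok1, ite_and]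
  split_ifs <;> simp [mul_assoc]

theorem qe (hA : SHA) (hP : PHI) (hF : FTA) (hS : PETS) (h : Dual δ δ₁ ρ) (hx : IsS δ x) :
    P004N.QE (Sh (N * δ₁) (sd δ₁ ρ x 1))
      fun j => 4 * I * N * gs δ₁ * eps δ * eps δ₁ * shc δ₁ ρ x j := fun z => by
  have h1 : 0 < δ₁ := zero_lt_one.trans h.ok1.one
  have := NeZero.mk h1.ne'
  have i1 : Function.Injective fun p : ℕ × ℕ => (p.1 + 1, p.2 + 1) := fun p q e => by
    simpa [Prod.ext_iff] using e
  have i2 : Function.Injective fun p : ℕ × ℕ => (N * p.2, δ₁ * p.1) := fun p q e => by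
    simpa [Prod.ext_iff, NeZero.ne N, h1.ne', and_comm] using e
  have s1 := (i1.hasSum_iff (f := fun p : ℕ × ℕ => 4 * I * ch (N * δ₁) (cq δ₁ ρ x 1) (-p.2) p.1 *
      ee (p.1 * p.2 * z / (N * δ₁ : ℕ))) fun ⟨n, b⟩ hp => ?_).1
    (hs_congr (hA _ _ _ (seed hP hF hS h hx 1) z) (fun p => by simp) rfl)
  · have s2 := (i2.hasSum_iff fun ⟨n, b⟩ hp => ?_).2 s1
    · refine hs_congr (s2.tsum_fiberwise fun p => p.1 * p.2) (fun j => ?_) rfl
      have e : ∀ p : ℕ × ℕ, 4 * I * ch (N * δ₁) (cq δ₁ ρ x 1) (-(δ₁ * p.1 : ℕ)) (N * p.2 : ℕ) *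
          ee ((N * p.2 : ℕ) * (δ₁ * p.1 : ℕ) * z / (N * δ₁ : ℕ)) =
          4 * I * N * gs δ₁ * eps δ * eps δ₁ * ((J(p.2 | δ₁) : ℂ) *
            x (δ₁ * p.1 ^ 2) (ρ⁻¹ * δ₁ * p.1)) * ee ((p.1 * p.2 : ℕ) * z) := fun p => by
        have := M_ne (M := N)
        have := M_ne (M := δ₁)
        have k : (J(N | δ₁) : ℂ) ^ 2 = 1 := by
          rw [← Int.cast_pow, jacobiSym.sq_one (by simpa using h.ok1.cop), Int.cast_one]
        rw [ch_eq h, if_pos (by simp), show (-(δ₁ * p.1 : ℕ) : ℤ) ^ 2 = δ₁ * (δ₁ * p.1 ^ 2 : ℕ) by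
          push_cast; ring, Int.mul_ediv_cancel_left _ (by positivity), Int.toNat_natCast,
          Int.cast_neg, mul_neg, (hS N δ h.ok x hx).1, show (-(N * p.2 : ℕ) : ℤ) = -1 * N * p.2 by
          push_cast; ring, jacobiSym.mul_left, jacobiSym.mul_left, ← eps]
        push_cast
        rw [show (N * p.2 * (δ₁ * p.1) * z / (N * δ₁) : ℂ) = p.1 * p.2 * z by field_simp,
          ← mul_assoc ρ⁻¹]
        linear_combination 4 * I * N * gs δ₁ * eps δ * eps δ₁ * J(p.2 | δ₁) *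
          x (δ₁ * p.1 ^ 2) (ρ⁻¹ * δ₁ * p.1) * ee (p.1 * p.2 * z) * k
      simp only [Function.comp, e]
      rcases eq_or_ne j 0 with rfl | hj
      · rw [shc, Nat.divisorsAntidiagonal_zero, sum_empty, mul_zero, zero_mul, eq_comm]
        refine (tsum_congr fun ⟨p, hp⟩ => ?_).trans tsum_zero
        rcases mul_eq_zero.1 hp with e | e <;> simp [e, hx.zero, jacobiSym.zero_left h.ok1.one]
      · rw [show (fun p : ℕ × ℕ => p.1 * p.2) ⁻¹' {j} = j.divisorsAntidiagonal by ext; simp [hj],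
          Finset.tsum_subtype' j.divisorsAntidiagonal fun p => _ * ((J(p.2 | δ₁) : ℂ) *
            x (δ₁ * p.1 ^ 2) (ρ⁻¹ * δ₁ * p.1)) * ee ((p.1 * p.2 : ℕ) * z), shc, mul_sum, sum_mul]
        refine sum_congr rfl fun p hp => ?_
        rw [(Nat.mem_divisorsAntidiagonal.1 hp).1, ee, mul_assoc _ (j : ℂ)]
    · rw [ch_eq h, if_neg fun k => hp ?_, mul_zero, zero_mul]
      obtain ⟨i, rfl⟩ := Int.natCast_dvd_natCast.1 (dvd_neg.1 k.1)
      obtain ⟨j, rfl⟩ := Int.natCast_dvd_natCast.1 k.2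
      exact ⟨(i, j), rfl⟩
  · rw [ch_eq h]
    rcases n with _ | n
    · simp [jacobiSym.zero_left h.ok1.one]
    rcases b with _ | b
    · simp [hx.zero]
    exact absurd ⟨(n, b), rfl⟩ hp

end Sb

open Sb in
theorem brs : BRS := fun hA hP hF hS N _ δ δ₁ ρ h => by
  have := NeZero.mk (zero_lt_one.trans h.ok1.one).ne'
  have e : ∀ {d}, Ok N d → (eps d : ℂ) ≠ 0 := fun o => left_ne_zero_of_mul_eq_one (Du.eps_sq o)
  have g : gs δ₁ ≠ 0 := fun k => I_ne_zero (by rw [← h.kp]; simp [kap, k])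
  refine ⟨4 * I * N * gs δ₁ * eps δ * eps δ₁, by simp [e h.ok, e h.ok1, g, NeZero.ne N],
    fun x hx => ?_⟩
  have s : shi δ₁ ρ x = Sh (N * δ₁) (sd δ₁ ρ x 1) := by simpa using sl_eq (x := x) hP hF h 1
  refine ⟨⟨s ▸ (cusp hA (seed hP hF hS h hx 1)).1, fun γ hγ => ?_, fun γ => ?_⟩,
    s ▸ qe hA hP hF hS h hx⟩
  · rw [sl_eq hP hF h, s]
    congr 1
    funext τ l
    simp only [sd, Hd.ph_fa h.ok1.odd _ _ (inv_mem hγ), Hd.fa_one]
  · rw [sl_eq hP hF h]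
    exact (cusp hA (seed hP hF hS h hx _)).2

end Vale.Agent.P004Z.Lf
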