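import Vale.Agent.P004Z.Lf.Brg3
import Vale.Agent.P004Z.Lf.Brs

/-!
# P004Z, block G4, row BRG
-/

set_option autoImplicit false
set_option linter.all false

open UpperHalfPlane hiding I
open Complex MeasureTheory Filter Finset CongruenceSubgroup
open scoped MatrixGroups Modular Real ComplexConjugate Topology NumberTheorySymbols

noncomputable section

namespace Vale.Agent.P004Z.Lf

namespace Bg

variable {N : ℕ} [NeZero N] {δ : ℕ}

theorem ch_eq (o : Ok N δ) (a : ℤ → ZMod (2 * N) → ℂ) (b n : ℤ) : ch (N * δ) (sP δ a) b n =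
    if (δ : ℤ) ∣ b ∧ (N : ℤ) ∣ n then
      a (b ^ 2 / δ) b * (N * J(N | δ) * J(-n | δ) * gs δ) else 0 := by
  have e : ∀ j : ℤ, sP δ a (0, b, j) =
      (if (δ : ℤ) ∣ b then a (b ^ 2 / δ) b else 0) * J(j | δ) := fun j => by
    rw [sP, sum_eq_single_of_mem (b : ZMod (2 * N)) (mem_univ _) fun r _ e => ?_]
    · simp [ph, disc, gc, ← Hd.J_prod o.sq,
        (Int.squarefree_natCast.2 o.sq).dvd_pow_iff_dvd two_ne_zero]
    · rw [ph, if_neg fun k => e k.2.1.symm, Int.cast_zero, mul_zero]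
  simp only [ch, e, mul_assoc _ (J(_ | δ) : ℂ), ← mul_sum, Sb.gauss o, ite_and]
  split_ifs <;> simp [mul_assoc]

theorem conj_gs (o : Ok N δ) : conj (gs δ) = eps δ * gs δ := by
  rw [eps, ← Gq.gk_eq o.odd o.sq, gs, Gq.gk, map_sum]
  exact sum_congr rfl fun j _ => by simp [conj_ee, neg_div]

variable {a : ℤ → ZMod (2 * N) → ℤ} (o : Ok N δ)
  (h : ∀ n r, (a n (-r) : ℂ) = eps δ * a n r)
include o h

theorem conj_ch (b n : ℤ) : conj (ch (N * δ) (sP δ fun n r => a n r) (-b) n) =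
    ch (N * δ) (sP δ fun n r => a n r) b n := by
  simp only [ch_eq o, dvd_neg, neg_sq, Int.cast_neg, h]
  split_ifs
  · simp only [map_mul, map_intCast, map_natCast, conj_gs o]
    linear_combination (a (b ^ 2 / δ) b * (N * J(N | δ) * J(-n | δ) * gs δ) : ℂ) * Du.eps_sq o
  · simp

theorem regr {z f : ℂ} (s : HasSum (fun p : ℕ × ℕ => 2 / (p.1 + 1) *
    ch (N * δ) (sP δ fun n r => a n r) (-(p.2 + 1)) (p.1 + 1) *
      ee ((p.1 + 1) * (p.2 + 1) * z / (N * δ : ℕ))) f) :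
    HasSum (fun j : ℕ => Bo.bx δ (fun i => if i = 0 then 0 else 4 * a (δ * i ^ 2) (δ * i)) j *
      ee (j * z)) (2 * f) := by
  have h1 : 0 < δ := zero_lt_one.trans o.one
  have := NeZero.mk h1.ne'
  have i1 : Function.Injective fun p : ℕ × ℕ => (p.1 + 1, p.2 + 1) := fun p q e => by
    simpa [Prod.ext_iff] using e
  have i2 : Function.Injective fun p : ℕ × ℕ => (N * p.2, δ * p.1) := fun p q e => by
    simpa [Prod.ext_iff, NeZero.ne N, h1.ne', and_comm] using e
  have s1 := (i1.hasSum_iff (f := fun p : ℕ × ℕ => if p.2 = 0 then 0 else 2 * (2 / p.1 *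
      ch (N * δ) (sP δ fun n r => a n r) (-p.2) p.1 * ee (p.1 * p.2 * z / (N * δ : ℕ))))
      fun ⟨n, b⟩ hp => ?_).1 (hs_congr (s.mul_left 2) (fun p => by simp) rfl)
  · have s2 := (i2.hasSum_iff fun ⟨n, b⟩ hp => ?_).2 s1
    · refine hs_congr (s2.tsum_fiberwise fun p => p.1 * p.2) (fun j => ?_) rfl
      have e : ∀ p : ℕ × ℕ, (if δ * p.1 = 0 then 0 else 2 * (2 / (N * p.2 : ℕ) *
          ch (N * δ) (sP δ fun n r => a n r) (-(δ * p.1 : ℕ)) (N * p.2 : ℕ) *
          ee ((N * p.2 : ℕ) * (δ * p.1 : ℕ) * z / (N * δ : ℕ)))) = gs δ * (((J(p.2 | δ) *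
            if p.1 = 0 then 0 else 4 * a (δ * p.1 ^ 2) (δ * p.1) : ℤ) : ℂ) / p.2) *
              ee ((p.1 * p.2 : ℕ) * z) := fun p => by
        have := M_ne (M := N)
        have := M_ne (M := δ)
        have k : (J(N | δ) : ℂ) ^ 2 = 1 := by
          rw [← Int.cast_pow, jacobiSym.sq_one (by simpa using o.cop), Int.cast_one]
        by_cases q : p.1 = 0
        · simp [q]
        rw [if_neg (mul_ne_zero h1.ne' q), if_neg q, ch_eq o, if_pos (by simp),
          show (-(δ * p.1 : ℕ) : ℤ) ^ 2 = δ * (δ * p.1 ^ 2) by push_cast; ring,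
          Int.mul_ediv_cancel_left _ (by positivity), Int.cast_neg, h,
          show (-(N * p.2 : ℕ) : ℤ) = -1 * N * p.2 by push_cast; ring, jacobiSym.mul_left,
          jacobiSym.mul_left, ← eps]
        push_cast
        rw [show (N * p.2 * (δ * p.1) * z / (N * δ) : ℂ) = p.1 * p.2 * z by field_simp,
          ← div_div]
        linear_combination (4 * gs δ * J(p.2 | δ) * a (δ * p.1 ^ 2) (δ * p.1) / p.2 *
          ee (p.1 * p.2 * z) : ℂ) * (eps δ * eps δ * J(N | δ) ^ 2 * mul_inv_cancel₀ ‹(N : ℂ) ≠ 0› +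
            eps δ * eps δ * k + Du.eps_sq o)
      simp only [Function.comp, e]
      rcases eq_or_ne j 0 with rfl | hj
      · rw [Bo.bx, Nat.divisorsAntidiagonal_zero, sum_empty, mul_zero, zero_mul, eq_comm]
        refine (tsum_congr fun ⟨p, hp⟩ => ?_).trans tsum_zero
        rcases mul_eq_zero.1 hp with e | e <;> simp [e]
      · rw [show (fun p : ℕ × ℕ => p.1 * p.2) ⁻¹' {j} = j.divisorsAntidiagonal by ext; simp [hj],
          Finset.tsum_subtype' j.divisorsAntidiagonal fun p => gs δ * (((J(p.2 | δ) *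
            if p.1 = 0 then 0 else 4 * a (δ * p.1 ^ 2) (δ * p.1) : ℤ) : ℂ) / p.2) *
              ee ((p.1 * p.2 : ℕ) * z), Bo.bx, mul_sum, sum_mul]
        exact sum_congr rfl fun p hp => by rw [(Nat.mem_divisorsAntidiagonal.1 hp).1]
    · rw [ch_eq o, if_neg (c := _ ∧ _) fun k => hp ?_, mul_zero, zero_mul, mul_zero, ite_self]
      obtain ⟨i, rfl⟩ := Int.natCast_dvd_natCast.1 (dvd_neg.1 k.1)
      obtain ⟨j, rfl⟩ := Int.natCast_dvd_natCast.1 k.2
      exact ⟨(i, j), rfl⟩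
  · rcases n with _ | n
    · simp
    rcases b with _ | b
    · simp
    exact absurd ⟨(n, b), rfl⟩ hp

omit o h in
theorem exp_row (L : LOC) (E : EXPN) (P : PHI) : Bo.EXP := fun N _ δ o a c h => by
  have := nz o
  have y := Du.Pe.a_sym (Du.kp P o) h
  obtain ⟨Y, C, s, e⟩ := E _ _ _ _ _ (hm P o h)
  have s2 := s.mul_left 2
  simp only [← mul_assoc _ _ (Real.exp _)] at s2
  obtain ⟨f, hf⟩ := Hr.hol (N * δ) (a := fun p => 2 / (p.1 + 1) *
    ch (N * δ) (sP δ fun n r => a n r) (-(p.2 + 1)) (p.1 + 1)) (fun p => by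
      rw [norm_mul, norm_div, ← Nat.cast_add_one, norm_natCast, Complex.norm_ofNat]
      exact mul_le_mul (div_le_self two_pos.le (by simp)) (le_add_of_nonneg_right (norm_nonneg _))
        (norm_nonneg _) two_pos.le) s2
  refine ⟨_, gr_lift L E P o h, 1, _, C.re, Y, one_pos, fun z hz =>
    ⟨_, regr o y (hf z hz).2, ?_⟩⟩
  have k := ((hf z hz).2.add (hf z hz).2.star).unique ((e z hz).2.congr_fun fun p => ?_)
  · rw [gr_eq (e z hz).1, ← eq_sub_iff_add_eq'.1 k]
    simp [two_mul]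
  · simp only [tr, star_def, map_mul, conj_ch o y, conj_ee, map_div₀, map_add, conj_natCast,
      map_one, map_ofNat]
    ring_nf

end Bg

/-- **row BRG** -/
theorem brg : BRG := fun L0 L E P _ _ _ => ⟨Bg.lift L0 L E P, Bg.exp_row L E P⟩

end Vale.Agent.P004Z.Lf
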