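import Vale.Agent.P004Z.Lf.Stp

/-!
# P004Z, block G4: the expansion of the regularised lift at infinity
-/

set_option autoImplicit false
set_option linter.all false

open UpperHalfPlane hiding I
open Complex MeasureTheory Filter Set
open scoped MatrixGroups Modular Real ComplexConjugate Topology

noncomputable section

namespace Vale.Agent.P004Z.Lf

variable {M : ℕ} [NeZero M] {F : ℍ → Fm → ℂ} {cp : Fm → ℂ} {z : ℍ} {K W : ℝ}

/-- one term on the strip -/
def G0 (M : ℕ) (F : ℍ → Fm → ℂ) (z : ℍ) (p : ℕ × ℤ) (τ : ℍ) : ℂ :=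
  z.im * gq M z τ (0, p.1 + 1) * (fl M (F τ) 0 p.2 (p.1 + 1) * ex M z τ 0 p.2 (p.1 + 1))

/-- a summable weight -/
def om (p : ℕ × ℤ) : ℝ := (1 + ((p.1 : ℤ) : ℝ) ^ 2)⁻¹ * (1 + (p.2 : ℝ) ^ 2)⁻¹

theorem sum_nat : Summable fun n : ℕ => (1 + ((n : ℤ) : ℝ) ^ 2)⁻¹ :=
  sum_inv.comp_injective Nat.cast_injective

theorem sum_om : Summable om :=
  sum_nat.mul_of_nonneg sum_inv (fun _ => by positivity) fun _ => by positivity

theorem om_pos (p : ℕ × ℤ) : 0 < om p := by unfold om; positivity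

/-- the majorant on the strip -/
def gK (K v : ℝ) : ℝ := Real.exp (K * v) * v ^ 2

/-- the truncated strip -/
def BT (T : ℝ) : Set ℍ := Bx (Ico 0 1) (Ioc 0 T)

/-- the invariant truncation -/
def UT (T : ℝ) : Set ℍ := ⋂ γ : SL(2, ℤ), {τ | (γ • τ).im ≤ T}

theorem meas_BT (T : ℝ) : MeasurableSet (BT T) := meas_Bx measurableSet_Ico measurableSet_Ioc

theorem meas_UT (T : ℝ) : MeasurableSet (UT T) :=
  have := P004.H26.H86.sl_countable
  MeasurableSet.iInter fun γ =>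
    (UpperHalfPlane.continuous_im.measurable.comp (meas_sl γ)) measurableSet_Iic

theorem UT_inv (T : ℝ) (γ : SL(2, ℤ)) (τ : ℍ) : γ • τ ∈ UT T ↔ τ ∈ UT T := by
  simp only [UT, mem_iInter, mem_setOf_eq]
  exact ⟨fun h g => by simpa [mul_smul] using h (g * γ⁻¹), fun h g => mul_smul g γ τ ▸ h _⟩

theorem UT_im {T : ℝ} {τ : ℍ} (h : τ ∈ UT T) : τ.im ≤ T := by simpa using mem_iInter.1 h 1

theorem mem_UT {T : ℝ} {τ : ℍ} (h : τ.im ≤ T) (h' : τ.im⁻¹ ≤ T) : τ ∈ UT T :=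
  mem_iInter.2 fun γ => (im_le γ τ).trans (max_le h h')

theorem UT_fd {T : ℝ} (h : 2 ≤ T) : 𝒟 ∩ UT T = DT T := Set.ext fun τ =>
  ⟨fun e => ⟨e.1, UT_im e.2⟩, fun e => ⟨e.1, mem_UT e.2 (le_trans (by
    rw [inv_le_comm₀ τ.im_pos two_pos, ← one_div]; exact (fd_im e.1).le) h)⟩⟩

theorem UT_St (T : ℝ) : St ∩ UT T = BT T ∩ UT T := Set.ext fun τ =>
  ⟨fun e => ⟨⟨e.1.1, e.1.2, UT_im e.2⟩, e.2⟩, fun e => ⟨⟨e.1.1, e.1.2.1⟩, e.2⟩⟩

theorem UT_diff {T : ℝ} (h : 0 < T) : BT T \ UT T ⊆ BT T⁻¹ := fun τ e =>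
  ⟨e.1.1, τ.im_pos, by
    by_contra c
    exact e.2 (mem_UT e.1.2.2 ((inv_le_comm₀ τ.im_pos h).2 (not_le.1 c).le))⟩

theorem gK_int (K T : ℝ) : IntegrableOn (fun y => gK K y / y ^ 2) (Ioc 0 T) :=
  ((by fun_prop : Continuous fun y => Real.exp (K * y)).integrableOn_Ioc).congr_fun
    (fun y hy => by rw [gK, mul_div_cancel_right₀ _ (pow_pos hy.1 2).ne']) measurableSet_Ioc

theorem int_gK (K T : ℝ) : IntegrableOn (fun τ : ℍ => gK K τ.im) (BT T) :=
  im_box measurableSet_Ico measurableSet_Ioc Ioc_subset_Ioi_self (by simp)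
    (by unfold gK; fun_prop) (gK_int K T)

theorem gK_le (hK : 0 ≤ K) {T : ℝ} (h : 0 ≤ T) :
    ∫ τ in BT T, gK K τ.im ≤ Real.exp (K * T) * T := by
  rw [BT, im_int measurableSet_Ico measurableSet_Ioc Ioc_subset_Ioi_self (by simp)
    (by unfold gK; fun_prop) (gK_int K T)]
  refine (Real.le_norm_self _).trans (((norm_setIntegral_le_of_norm_le_const
    (C := Real.exp (K * T)) measure_Ioc_lt_top fun y hy => ?_)).trans ?_)
  swap
  · simp [h]
  rw [gK, mul_div_cancel_right₀ _ (pow_pos hy.1 2).ne', Real.norm_of_nonneg (Real.exp_pos _).le]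
  gcongr
  exact hy.2

theorem gK_nonneg (K v : ℝ) : 0 ≤ gK K v := by unfold gK; positivity

/-- the domination on the strip -/
structure Dm (M : ℕ) (F : ℍ → Fm → ℂ) (z : ℍ) (K W : ℝ) : Prop where
  sd : Sd M F hw
  K0 : 0 ≤ K
  W0 : 0 ≤ W
  bd : ∀ p τ, ‖G0 M F z p τ‖ ≤ W * om p * gK K τ.im

theorem ex_dm (h : Sd M F hw) {C : ℝ} (hC : 0 ≤ C)
    (hb : ∀ τ l, ‖F τ l‖ ≤ C * Real.exp (C * (τ.im + τ.im⁻¹))) (hy : C + 2 ≤ π * z.im ^ 2 / M) :
    Dm M F z (C + 1 + π / (2 * M)) (z.im * √M * C * (2 * M / π) * 2) := by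
  have hM := M_pos (M := M)
  have := z.im_pos
  refine ⟨h, by positivity, by positivity, fun p τ => ?_⟩
  have hv := τ.im_pos
  have h1 : √τ.im ≤ Real.exp τ.im := le_trans
    (by nlinarith [Real.sq_sqrt hv.le, sq_nonneg (√τ.im - 1)]) (Real.add_one_le_exp _)
  have h2 : Real.exp (-(π * τ.im * (p.2 : ℝ) ^ 2 / (2 * M))) ≤ Real.exp (π / (2 * M) * τ.im) *
      (2 * M / π * Real.exp τ.im⁻¹) * (1 + (p.2 : ℝ) ^ 2)⁻¹ := by
    have := pow_exp 1 (t := π / (2 * M) * τ.im) (by positivity) (sq_nonneg (p.2 : ℝ))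
    rw [pow_one, pow_one, Nat.factorial_one, Nat.cast_one, mul_one, ← le_inv_mul_iff₀ (by positivity),
      mul_comm (_ ⁻¹), div_eq_mul_inv (Real.exp _), mul_inv, inv_div] at this
    refine le_trans (le_of_eq (by congr 1; ring)) (this.trans ?_)
    gcongr
    linarith [Real.add_one_le_exp τ.im⁻¹]
  have h3 : Real.exp (-(π * z.im ^ 2 * ((p.1 + 1 : ℤ) : ℝ) ^ 2 / M / τ.im)) *
      Real.exp (C * τ.im⁻¹) * Real.exp τ.im⁻¹ ≤ 2 * τ.im ^ 2 * (1 + ((p.1 : ℤ) : ℝ) ^ 2)⁻¹ := by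
    push_cast
    have n0 : (0 : ℝ) ≤ p.1 := Nat.cast_nonneg _
    generalize (p.1 : ℝ) = n at *
    have e := Real.pow_div_factorial_le_exp ((n + 1) ^ 2 / τ.im) (by positivity) 2
    rw [← Real.exp_add, ← Real.exp_add]
    refine le_trans (b := Real.exp (-((n + 1) ^ 2 / τ.im))) (Real.exp_le_exp.2 ?_) ?_
    · rw [mul_div_right_comm, div_eq_mul_inv _ τ.im, div_eq_mul_inv _ τ.im]
      have : (n + 1) ^ 2 + C + 1 ≤ π * z.im ^ 2 / M * (n + 1) ^ 2 := by
        nlinarith [mul_le_mul_of_nonneg_right hy (sq_nonneg (n + 1)), sq_nonneg n, mul_nonneg hC n0,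
          mul_nonneg hC (sq_nonneg n)]
      nlinarith [mul_le_mul_of_nonneg_right this (inv_pos.2 hv).le]
    · rw [Real.exp_neg]
      refine (inv_anti₀ (by positivity) e).trans ?_
      rw [inv_div, div_pow, div_div_eq_mul_div, div_eq_mul_inv]
      simp only [Nat.factorial_two, Nat.cast_ofNat]
      gcongr
      nlinarith [sq_nonneg n, pow_nonneg n0 3, pow_nonneg n0 4]
  rw [G0, norm_mul, norm_mul, norm_mul, norm_ex, gq_zero, norm_real, norm_real,
    Real.norm_of_nonneg this.le, Real.norm_of_nonneg (by positivity)]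
  simp only [Int.cast_zero, mul_zero, zero_mul, add_zero]
  have hE := (Real.exp_pos (-(π * z.im ^ 2 * ((p.1 + 1 : ℤ) : ℝ) ^ 2 / M / τ.im))).le
  generalize Real.exp (-(π * z.im ^ 2 * ((p.1 + 1 : ℤ) : ℝ) ^ 2 / M / τ.im)) = E at h3 hE ⊢
  calc _ ≤ z.im * (√M * Real.exp τ.im * E) * (C * Real.exp (C * (τ.im + τ.im⁻¹)) *
        (Real.exp (π / (2 * M) * τ.im) * (2 * M / π * Real.exp τ.im⁻¹) * (1 + (p.2 : ℝ) ^ 2)⁻¹)) := by
        gcongr
        exact norm_fl (hb τ) _ _ _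
    _ = z.im * √M * C * (2 * M / π) * (1 + (p.2 : ℝ) ^ 2)⁻¹ *
        Real.exp ((C + 1 + π / (2 * M)) * τ.im) * (E * Real.exp (C * τ.im⁻¹) * Real.exp τ.im⁻¹) := by
        simp only [mul_add, add_mul, Real.exp_add, one_mul]
        ring
    _ ≤ _ := (mul_le_mul_of_nonneg_left h3 (by positivity)).trans_eq (by rw [om, gK]; ring)

theorem cont_G0 (h : ∀ l, Continuous fun τ => F τ l) (p : ℕ × ℤ) : Continuous (G0 M F z p) := by
  have := cont_fl (M := M) h
  have := cont_ex (M := M) z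
  have := cont_gq (M := M) z
  unfold G0
  fun_prop

theorem H0_G0 (n : ℕ) (τ : ℍ) : H0 M F z (0, n + 1) τ = ∑' b, G0 M F z (n, b) τ := by
  simp only [H0, G0, tsum_mul_left]

namespace Dm
variable (h : Dm M F z K W) {T : ℝ} {A : Set ℍ} (hA : A ⊆ BT T)
include h

section
include hA

theorem intg (p : ℕ × ℤ) : IntegrableOn (G0 M F z p) A :=
  (((int_gK K T).mono_set hA).const_mul _).mono' (cont_G0 h.sd.cont p).aestronglyMeasurable
    (.of_forall (h.bd p))

theorem gle (c : ℝ) (hc : 0 ≤ c) {f : ℍ → ℝ} (h0 : ∀ τ, 0 ≤ f τ)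
    (hf : ∀ τ, f τ ≤ c * gK K τ.im) : ∫ τ in A, f τ ≤ c * ∫ τ in BT T, gK K τ.im := by
  refine (integral_mono_of_nonneg (.of_forall h0) (((int_gK K T).mono_set hA).const_mul _)
    (.of_forall hf)).trans ?_
  rw [integral_const_mul]
  exact mul_le_mul_of_nonneg_left (setIntegral_mono_set (int_gK K T)
    (.of_forall fun _ => gK_nonneg _ _) hA.eventuallyLE) hc

theorem nle (p : ℕ × ℤ) : ∫ τ in A, ‖G0 M F z p τ‖ ≤ W * om p * ∫ τ in BT T, gK K τ.im :=
  h.gle hA _ (mul_nonneg h.W0 (om_pos p).le) (fun _ => norm_nonneg _) (h.bd p)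

theorem sm : Summable fun p => ∫ τ in A, ‖G0 M F z p τ‖ :=
  ((sum_om.mul_left W).mul_right _).of_nonneg_of_le
    (fun _ => integral_nonneg fun _ => norm_nonneg _) (h.nle hA)

theorem sm' : Summable fun p => ∫ τ in A, G0 M F z p τ :=
  (h.sm hA).of_norm_bounded fun _ => norm_integral_le_integral_norm _

end

theorem H0_le (n : ℕ) (τ : ℍ) : ‖H0 M F z (0, n + 1) τ‖ ≤
    W * ((1 + ((n : ℤ) : ℝ) ^ 2)⁻¹ * ∑' b : ℤ, (1 + (b : ℝ) ^ 2)⁻¹) * gK K τ.im :=
  H0_G0 (M := M) n τ ▸ tsum_of_norm_bounded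
    (((sum_inv.hasSum.mul_left _).mul_left W).mul_right _) fun b => h.bd (n, b) τ

theorem unfold (hT : 2 ≤ T) :
    ∫ τ in DT T, KK M F z τ = 2 * ∑' p, ∫ τ in BT T ∩ UT T, G0 M F z p τ := by
  obtain ⟨h1, h2, h3⟩ := mix0 M F h.sd z
  have hA : BT T ∩ UT T ⊆ BT T := inter_subset_left
  have k := unf (H := fun v => (UT T).indicator (H0 M F z v)) (fun γ v τ => by
    by_cases e : τ ∈ UT T
    · rw [indicator_of_mem e, indicator_of_mem ((UT_inv T γ τ).2 e), h3]
    · rw [indicator_of_notMem e, indicator_of_notMem (mt (UT_inv T γ τ).1 e)])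
    (fun τ => by simp [indicator, h2]) (fun n => by
      rw [IntegrableOn, integrable_indicator_iff (meas_UT T), IntegrableOn,
        Measure.restrict_restrict (meas_UT T), inter_comm, UT_St]
      refine (((int_gK K T).mono_set hA).const_mul _).mono' ?_ (.of_forall (h.H0_le n))
      rw [funext (H0_G0 n)]
      exact .tsum fun b => (cont_G0 h.sd.cont _).aestronglyMeasurable) (by
      simp only [norm_indicator_eq_indicator_norm, setIntegral_indicator (meas_UT T), UT_St]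
      exact (((sum_nat.mul_right _).mul_left W).mul_right _).of_nonneg_of_le
        (fun _ => integral_nonneg fun _ => norm_nonneg _) fun n => h.gle hA _
          (mul_nonneg h.W0 (by positivity)) (fun _ => norm_nonneg _) (h.H0_le n))
  simp only [setIntegral_indicator (meas_UT T), UT_St] at k
  rw [← UT_fd hT, ← setIntegral_indicator (meas_UT T), (h.sm' hA).tsum_prod, ← tsum_mul_left]
  refine (integral_congr_ae (.of_forall fun τ => ?_)).trans (k.tsum_eq.symm.trans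
    (tsum_congr fun n => ?_))
  · by_cases e : τ ∈ UT T <;> simp [e, (h1 τ).tsum_eq]
  · simp only [H0_G0]
    rw [integral_tsum_of_summable_integral_norm (fun b => h.intg hA (n, b))
      ((h.sm hA).prod_factor n)]

theorem err : Tendsto (fun T => ∑' p, ∫ τ in BT T \ UT T, G0 M F z p τ) atTop (𝓝 0) := by
  have : Tendsto (fun T : ℝ => W * (∑' p, om p) * (Real.exp (K * T⁻¹) * T⁻¹)) atTop (𝓝 _) :=
    ((by fun_prop : Continuous fun s : ℝ => W * (∑' p, om p) * (Real.exp (K * s) * s)).tendsto 0).comp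
      tendsto_inv_atTop_zero
  simp only [mul_zero] at this
  refine squeeze_zero_norm' ?_ this
  filter_upwards [eventually_gt_atTop 0] with T hT
  refine tsum_of_norm_bounded ((sum_om.hasSum.mul_left W).mul_right _) fun p =>
    (norm_integral_le_integral_norm _).trans ((h.nle (UT_diff hT) p).trans ?_)
  exact mul_le_mul_of_nonneg_left (gK_le h.K0 (inv_pos.2 hT).le) (mul_nonneg h.W0 (om_pos p).le)

theorem split (hT : 2 ≤ T) : 2 * ∑' p, ∫ τ in BT T, G0 M F z p τ =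
    (∫ τ in DT T, KK M F z τ) + 2 * ∑' p, ∫ τ in BT T \ UT T, G0 M F z p τ := by
  rw [h.unfold hT, ← mul_add, ← (h.sm' inter_subset_left).tsum_add (h.sm' diff_subset)]
  simp only [integral_inter_add_diff (meas_UT T) (h.intg subset_rfl _)]

theorem box (hT : 0 ≤ T) (hc : ∀ b j : ℤ, ∀ v, 0 < v → co M F (0, b, j) v = cp (0, b, j))
    (p : ℕ × ℤ) : ∫ τ in BT T, G0 M F z p τ = z.im * √M * (ch M cp p.2 (p.1 + 1) / M *
      ee (-((p.1 + 1) * z.re * p.2 / M))) * (∫ v in (0 : ℝ)..T, √v / v ^ 2 *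
        Real.exp (-(π * z.im ^ 2 * (p.1 + 1) ^ 2 / M / v) - π * p.2 ^ 2 / M * v) : ℝ) := by
  rw [BT, int_box measurableSet_Ico measurableSet_Ioc Ioc_subset_Ioi_self (h.intg subset_rfl p),
    intervalIntegral.integral_of_le hT, ← integral_complex_ofReal, ← integral_const_mul]
  refine setIntegral_congr_fun measurableSet_Ioc fun v hv => ?_
  simp only [G0, gq_zero, pt_im _ hv.1, integral_const_mul]
  rw [strip_u h.sd.cont z _ _ hv.1 fun j => hc _ j v hv.1, sub_eq_add_neg, Real.exp_add, real_smul]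
  push_cast
  ring

end Dm

/-- the truncated integral -/
def Jt (A B T : ℝ) : ℝ := ∫ v in (0 : ℝ)..T, √v / v ^ 2 * Real.exp (-(A / v) - B * v)

theorem Jt_lim {A B : ℝ} (hA : 0 < A) (hB : 0 ≤ B) :
    Tendsto (Jt A B) atTop (𝓝 (√(π / A) * Real.exp (-(2 * √(A * B))))) :=
  int3 hA hB ▸ intervalIntegral_tendsto_integral_Ioi 0 (intg3 hA hB) tendsto_id

theorem Jt_le {A B T : ℝ} (hA : 0 < A) (hB : 0 ≤ B) (hT : 0 ≤ T) :
    ‖Jt A B T‖ ≤ √(π / A) * Real.exp (-(2 * √(A * B))) := by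
  rw [← int3 hA hB, Jt, Real.norm_of_nonneg (intervalIntegral.integral_nonneg hT
    fun _ _ => by positivity), intervalIntegral.integral_of_le hT]
  exact setIntegral_mono_set (intg3 hA hB) (.of_forall fun _ => by positivity)
    Ioc_subset_Ioi_self.eventuallyLE

theorem Jt_scale (A T : ℝ) {y : ℝ} (hy : 0 < y) : y * Jt (y ^ 2 * A) 0 (y ^ 2 * T) = Jt A 0 T := by
  have := intervalIntegral.integral_comp_mul_left (a := 0) (b := T) (c := y ^ 2)
    (fun v => √v / v ^ 2 * Real.exp (-(y ^ 2 * A / v) - 0 * v)) (by positivity)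
  rw [mul_zero, eq_inv_smul_iff₀ (by positivity)] at this
  rw [Jt, ← this, smul_eq_mul, ← mul_assoc, ← intervalIntegral.integral_const_mul, Jt]
  refine intervalIntegral.integral_congr fun v _ => ?_
  simp only [zero_mul, sub_zero]
  rw [mul_div_mul_left _ _ (by positivity), Real.sqrt_mul (sq_nonneg y), Real.sqrt_sq hy.le]
  field_simp

theorem val_J {y n b : ℝ} (hy : 0 < y) (hn : 0 < n) : y * √M * (√(π / (π * y ^ 2 * n ^ 2 / M)) *
    Real.exp (-(2 * √(π * y ^ 2 * n ^ 2 / M * (π * b ^ 2 / M))))) =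
      M / n * Real.exp (-(2 * π * (n * |b| * y / M))) := by
  have hM := M_pos (M := M)
  rw [show π / (π * y ^ 2 * n ^ 2 / M) = M / (y * n) ^ 2 by field_simp,
    show π * y ^ 2 * n ^ 2 / M * (π * b ^ 2 / M) = (π * (n * |b| * y / M)) ^ 2 by
      rw [← sq_abs b]; field_simp, Real.sqrt_sq (by positivity), Real.sqrt_div' _ (by positivity),
    Real.sqrt_sq (by positivity), ← mul_assoc, ← mul_assoc]
  congr 1
  field_simp
  exact Real.sq_sqrt hM.le

theorem ch_le {C : ℝ} (hC : 0 ≤ C) (hb : ∀ τ l, ‖F τ l‖ ≤ C * Real.exp (C * (τ.im + τ.im⁻¹)))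
    (hc : ∀ b j : ℤ, ∀ v, 0 < v → co M F (0, b, j) v = cp (0, b, j)) {b : ℤ} (h0 : b ≠ 0) (n : ℤ) :
    ‖ch M cp b n‖ ≤ M * (C * Real.exp ((2 * C + π / (2 * M)) * |(b : ℝ)|)) := by
  have hM := M_pos (M := M)
  have h1 : (1 : ℝ) ≤ |(b : ℝ)| := by exact_mod_cast Int.one_le_abs h0
  have h2 : 0 < |(b : ℝ)|⁻¹ := by positivity
  refine (norm_sum_le_of_le (n := fun _ => _) _ fun j _ => ?_).trans_eq
    (by rw [Finset.sum_const, Finset.card_range, nsmul_eq_mul])
  rw [norm_mul, show -((j : ℂ) * n / M) = ((-(j * n / M) : ℝ) : ℂ) by simp, norm_ee_real, mul_one,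
    ← hc b j _ h2, co]
  refine (intervalIntegral.norm_integral_le_of_norm_le_const
    (C := C * Real.exp ((2 * C + π / (2 * M)) * |(b : ℝ)|)) fun u _ => ?_).trans_eq (by simp)
  rw [norm_mul, norm_ee, show (4 * M : ℂ) = ((4 * M : ℝ) : ℂ) by simp, neg_im, div_ofReal_im]
  refine (mul_le_mul_of_nonneg_right (hb _ _) (Real.exp_pos _).le).trans ?_
  simp only [disc, mul_zero, zero_mul, sub_zero, mul_im, intCast_re, intCast_im, coe_im, add_zero,
    pt_im _ h2, inv_inv]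
  rw [mul_assoc, ← Real.exp_add]
  gcongr
  push_cast
  rw [← sq_abs (b : ℝ), show -(2 * π * -(|(b : ℝ)| ^ 2 * |(b : ℝ)|⁻¹ / (4 * M))) =
    π / (2 * M) * |(b : ℝ)| by field_simp; ring]
  nlinarith [mul_le_mul_of_nonneg_left ((inv_le_one_of_one_le₀ h1).trans h1) hC]

/-- the constant term -/
def I0 (M : ℕ) (cp : Fm → ℂ) (s : ℝ) : ℂ :=
  2 * ∑' n : ℕ, √M * (ch M cp 0 (n + 1) / M) * Jt (π * (n + 1) ^ 2 / M) 0 s

theorem expn (L : LOC0) : EXPN := fun M _ F S c cp h => by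
  have hM := M_pos (M := M)
  have hM' := M_ne (M := M)
  obtain ⟨C', hb'⟩ := h.gr
  have hb : ∀ τ l, ‖F τ l‖ ≤ |C'| * Real.exp (|C'| * (τ.im + τ.im⁻¹)) := fun τ l =>
    (hb' τ l).trans (by have := τ.im_pos; gcongr <;> exact le_abs_self _)
  have hC := abs_nonneg C'
  generalize |C'| = C at hb hC
  have hc : ∀ b j : ℤ, ∀ v, 0 < v → co M F (0, b, j) v = cp (0, b, j) := fun b j =>
    h.co _ (by simp [disc, sq_nonneg])
  have hS : 0 ≤ ∑ D ∈ S, |(D : ℝ)| := by positivity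
  obtain ⟨y, y1, y2, y3⟩ : ∃ y : ℝ, 1 + ∑ D ∈ S, |(D : ℝ)| ≤ y ∧ (C + 2) * M ≤ y ∧
      (2 * C + π / (2 * M) + 1) * M ≤ y := ⟨_, le_max_left _ _,
    (le_max_left _ _).trans (le_max_right _ _), (le_max_right _ _).trans (le_max_right _ _)⟩
  have sm : Summable fun p : ℕ × ℕ => (‖ch M cp (-(p.2 + 1)) (p.1 + 1)‖ +
      ‖ch M cp (p.2 + 1) (p.1 + 1)‖) * Real.exp (-(2 * π * ((p.1 + 1) * (p.2 + 1) * y / M))) := by
    refine ((Real.summable_exp_neg_nat.mul_of_nonneg Real.summable_exp_neg_nat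
      (fun _ => by positivity) fun _ => by positivity).mul_left (2 * (M * C))).of_nonneg_of_le
      (fun _ => by positivity) fun p => ?_
    have e1 := ch_le hC hb hc (b := -(p.2 + 1)) (by omega) (p.1 + 1)
    have e2 := ch_le hC hb hc (b := p.2 + 1) (by omega) (p.1 + 1)
    push_cast at e1 e2
    rw [abs_neg] at e1
    rw [abs_of_pos (by positivity)] at e1 e2
    refine (mul_le_mul_of_nonneg_right (add_le_add e1 e2) (Real.exp_pos _).le).trans ?_
    rw [← two_mul, ← mul_assoc (M : ℝ), ← mul_assoc 2, mul_assoc, ← Real.exp_add, ← Real.exp_add]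
    refine mul_le_mul_of_nonneg_left (Real.exp_le_exp.2 ?_) (by positivity)
    rw [← le_div_iff₀ hM] at y3
    have k0 : 0 ≤ 2 * C + π / (2 * M) := by positivity
    have n0 : (0 : ℝ) ≤ p.1 := Nat.cast_nonneg _
    have b0 : (0 : ℝ) ≤ p.2 := Nat.cast_nonneg _
    rw [mul_div_assoc]
    generalize 2 * C + π / (2 * M) = k, y / M = t, (p.1 : ℝ) = n, (p.2 : ℝ) = b at *
    have : (n + 1) * (b + 1) * (k + 1) ≤ (n + 1) * (b + 1) * t := by gcongr
    nlinarith [Real.pi_gt_three, mul_nonneg n0 b0, mul_nonneg k0 n0, mul_nonneg (mul_nonneg k0 n0) b0,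
      mul_nonneg k0 b0]
  refine ⟨y, limUnder atTop (I0 M cp), sm, fun z hz => ?_⟩
  have hy := z.im_pos
  have nr : Nr S z := fun l hl e => by
    have d := h.neg _ hl
    have a : l.1 ≠ 0 := fun a => by simp [Hd.root_zero e a, disc] at d
    have : (1 : ℝ) ≤ (l.1 : ℝ) ^ 2 := by exact_mod_cast (one_le_sq_iff_one_le_abs _).2 (Int.one_le_abs a)
    have h1 := (neg_le_abs _).trans (Finset.single_le_sum (f := fun D : ℤ => |(D : ℝ)|)
      (fun _ _ => abs_nonneg _) hl)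
    rw [Hd.root_d e] at h1
    nlinarith [mul_le_mul_of_nonneg_right this (sq_nonneg z.im)]
  have d := ex_dm (z := z) h.sd hC hb (by
    rw [le_div_iff₀ hM]
    nlinarith [Real.pi_gt_three, sq_nonneg z.im])
  have bd : ∀ (n : ℕ) (b : ℤ) (T : ℝ), 0 ≤ T → ‖∫ τ in BT T, G0 M F z (n, b) τ‖ ≤
      ‖ch M cp b (n + 1)‖ * Real.exp (-(2 * π * ((n + 1) * |(b : ℝ)| * y / M))) := fun n b T hT => by
    rw [d.box hT hc, mul_right_comm, ← ofReal_mul, ← ofReal_mul, norm_mul, norm_mul, norm_real,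
      show -(((n : ℂ) + 1) * z.re * b / M) = ((-((n + 1) * z.re * b / M) : ℝ) : ℂ) by simp,
      norm_ee_real, mul_one, norm_mul, Real.norm_of_nonneg (by positivity), norm_div,
      Complex.norm_natCast]
    refine (mul_le_mul_of_nonneg_right ((mul_le_mul_of_nonneg_left (Jt_le (by positivity)
      (by positivity) hT) (by positivity)).trans_eq (val_J hy (by positivity))) (by positivity)).trans ?_
    rw [mul_comm, ← mul_assoc, div_mul_div_cancel₀ hM.ne']
    gcongr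
    exact div_le_self (norm_nonneg _) (by linarith)
  have lm : ∀ (n : ℕ) (b : ℤ), Tendsto (fun T => ∫ τ in BT T, G0 M F z (n, b) τ) atTop
      (𝓝 (ch M cp b (n + 1) / (n + 1) * (ee (-((n + 1) * z.re * b / M)) *
        Real.exp (-(2 * π * ((n + 1) * |(b : ℝ)| * z.im / M)))))) := fun n b => by
    have e := ((continuous_ofReal.tendsto _).comp ((Jt_lim (A := π * z.im ^ 2 * (n + 1) ^ 2 / M)
      (B := π * b ^ 2 / M) (by positivity) (by positivity)).const_mul (z.im * √M))).mul_const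
      (ch M cp b (n + 1) / M * ee (-((n + 1) * z.re * b / M)))
    rw [val_J hy (by positivity)] at e
    refine (e.congr' ?_).mono_right (le_of_eq (congrArg _ ?_))
    · filter_upwards [eventually_ge_atTop 0] with T hT
      rw [d.box hT hc, Function.comp, Jt]
      push_cast
      ring
    · rw [ofReal_mul]
      push_cast
      field_simp
  have l1 : Tendsto (fun T => ∑' p : ℕ × ℕ, 2 * ((∫ τ in BT T, G0 M F z (p.1, -(p.2 + 1)) τ) +
      ∫ τ in BT T, G0 M F z (p.1, p.2 + 1) τ)) atTop (𝓝 (∑' p : ℕ × ℕ, tr M cp z p.1 p.2)) ∧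
      Summable fun p : ℕ × ℕ => tr M cp z p.1 p.2 := by
    have t1 : ∀ p : ℕ × ℕ, Tendsto (fun T => 2 * ((∫ τ in BT T, G0 M F z (p.1, -(p.2 + 1)) τ) +
        ∫ τ in BT T, G0 M F z (p.1, p.2 + 1) τ)) atTop (𝓝 (tr M cp z p.1 p.2)) := fun p => by
      refine (((lm p.1 (-(p.2 + 1))).add (lm p.1 (p.2 + 1))).const_mul 2).mono_right
        (le_of_eq (congrArg _ ?_))
      have c0 : (z : ℂ) = z.re + z.im * I := (UpperHalfPlane.re_add_im _).symm
      have c1 : conj (z : ℂ) = z.re - z.im * I := Complex.ext (by simp) (by simp)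
      push_cast
      rw [abs_neg, abs_of_pos (by positivity), tr, c1, ee, ee, ee, ee, ← exp_add, ← exp_add]
      conv_rhs => rw [c0]
      push_cast
      rw [show 2 * π * I * ((p.1 + 1) * (p.2 + 1) * (z.re + z.im * I) / M) = 2 * π * I *
          -((p.1 + 1) * z.re * -(p.2 + 1) / M) + -(2 * π * ((p.1 + 1) * (p.2 + 1) * z.im / M)) by
            linear_combination (2 * π * ((p.1 + 1) * (p.2 + 1) * z.im / M)) * I_sq,
        show 2 * π * I * -((p.1 + 1) * (p.2 + 1) * (z.re - z.im * I) / M) = 2 * π * I *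
          -((p.1 + 1) * z.re * (p.2 + 1) / M) + -(2 * π * ((p.1 + 1) * (p.2 + 1) * z.im / M)) by
            linear_combination (2 * π * ((p.1 + 1) * (p.2 + 1) * z.im / M)) * I_sq]
      ring
    have t2 : ∀ᶠ T : ℝ in atTop, ∀ p : ℕ × ℕ, ‖2 * ((∫ τ in BT T, G0 M F z (p.1, -(p.2 + 1)) τ) +
        ∫ τ in BT T, G0 M F z (p.1, p.2 + 1) τ)‖ ≤ 2 * ((‖ch M cp (-(p.2 + 1)) (p.1 + 1)‖ +
          ‖ch M cp (p.2 + 1) (p.1 + 1)‖) *
            Real.exp (-(2 * π * ((p.1 + 1) * (p.2 + 1) * y / M)))) := by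
      filter_upwards [eventually_ge_atTop 0] with T hT p
      have e1 := bd p.1 (-(p.2 + 1)) T hT
      have e2 := bd p.1 (p.2 + 1) T hT
      push_cast at e1 e2
      rw [abs_neg] at e1
      rw [abs_of_pos (by positivity)] at e1 e2
      rw [norm_mul, Complex.norm_ofNat, add_mul]
      gcongr
      exact norm_add_le_of_le e1 e2
    exact ⟨tendsto_tsum_of_dominated_convergence (sm.mul_left 2) t1 t2, (sm.mul_left 2).of_norm_bounded
      fun p => le_of_tendsto (t1 p).norm (t2.mono fun T e => e p)⟩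
  have l2 : Tendsto (I0 M cp) atTop (𝓝 (Phi M F z - ∑' p : ℕ × ℕ, tr M cp z p.1 p.2)) := by
    have t := Tendsto.const_mul_atTop (sq_pos_of_pos hy) tendsto_id
    have e := (((((L M F S c cp h).1 z nr).add (d.err.const_mul 2)).sub l1.1).comp t)
    rw [mul_zero, add_zero] at e
    refine e.congr' ?_
    filter_upwards [t.eventually_ge_atTop 2] with T hT
    simp only [Function.comp, id] at hT ⊢
    rw [← d.split hT, split3 (d.sm' subset_rfl), tsum_mul_left, mul_add, add_sub_cancel_right, I0]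
    refine congrArg _ (tsum_congr fun n => ?_)
    rw [d.box (by linarith) hc, ← Jt_scale _ T hy, Jt, show z.im ^ 2 * (π * (n + 1) ^ 2 / M) =
      π * z.im ^ 2 * (n + 1) ^ 2 / M by ring]
    simp [ee_zero]
    ring
  rw [l2.limUnder_eq, sub_sub_cancel]
  exact ⟨nr, l1.2.hasSum⟩

end Vale.Agent.P004Z.Lf
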