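import Vale.Agent.P004Z.Lf.St
import Vale.Agent.P004Z.Lf.Po

/-!
# P004Z, block G4, row HAR
-/

set_option autoImplicit false
set_option linter.all false

open UpperHalfPlane hiding I
open Complex MeasureTheory Filter Set InnerProductSpace Laplacian
open scoped MatrixGroups Modular Real ComplexConjugate Topology

noncomputable section

namespace Vale.Agent.P004Z.Lf.Hr

theorem an_lap {f : ℂ → ℂ} {x : ℂ} (h : AnalyticAt ℝ f x) : AnalyticAt ℝ (Δ f) x := by
  have a := AnalyticOnNhd.iteratedFDeriv (s := {y | AnalyticAt ℝ f y}) (fun _ h => h) 2 x h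
  have b := fun v : Fin 2 → ℂ =>
    ((ContinuousMultilinearMap.apply ℝ (fun _ : Fin 2 => ℂ) ℂ v).analyticAt _).comp a
  rw [laplacian_eq_iteratedFDeriv_complexPlane]
  exact (b _).add (b _)

theorem har_log (m : ℂ) {w z : ℂ} (h : z ≠ w) :
    HarmonicAt (fun y => m * (Real.log (normSq (y - w)) : ℝ)) z := by
  have := ((analyticAt_id.sub analyticAt_const : AnalyticAt ℂ (fun y => y - w) z).harmonicAt_log_norm
    (sub_ne_zero.2 h)).comp_CLM (ContinuousLinearMap.toSpanSingleton ℝ (2 * m))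
  convert this using 2 with y
  simp [normSq_eq_norm_sq]
  ring

section
variable {Φ : ℂ → ℂ} {R : ℂ → ℂ → ℂ} {m : ℂ → ℂ} (ha : ∀ w : ℂ, 0 < w.im → AnalyticAt ℝ (R w) w)
  (he : ∀ w : ℂ, 0 < w.im → ∀ᶠ z in 𝓝[≠] w, Φ z = R w z - m w * (Real.log (normSq (z - w)) : ℝ))
include ha he

theorem c1 {w : ℂ} (hw : 0 < w.im) : ∀ᶠ z in 𝓝[≠] w, Δ Φ z = Δ (R w) z := by
  filter_upwards [eventually_nhdsNE_eventually_nhds_iff.2 (he w hw), self_mem_nhdsWithin,
    (ha w hw).eventually_analyticAt.filter_mono nhdsWithin_le_nhds] with z a b c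
  have l := har_log (m w) b
  rw [(laplacian_congr_nhds (f₂ := R w - fun y => m w * (Real.log (normSq (y - w)) : ℝ))
    a).self_of_nhds, c.contDiffAt.laplacian_sub l.1, l.2.self_of_nhds, Pi.zero_apply, sub_zero]

theorem c2 {w : ℂ} (hw : 0 < w.im) : (fun z => Δ (R z) z) =ᶠ[𝓝 w] Δ (R w) := by
  have u : ∀ᶠ z in 𝓝 w, 0 < z.im := Complex.continuous_im.continuousAt.eventually_const_lt hw
  refine eventuallyEq_nhds_of_eventuallyEq_nhdsNE ?_ rfl
  filter_upwards [eventually_nhdsNE_eventually_nhds_iff.2 (c1 ha he hw),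
    u.filter_mono nhdsWithin_le_nhds,
    (ha w hw).eventually_analyticAt.filter_mono nhdsWithin_le_nhds] with z a b c
  refine tendsto_nhds_unique_of_eventuallyEq (l := 𝓝[≠] z)
    ((an_lap (ha z b)).continuousAt.mono_left nhdsWithin_le_nhds)
    ((an_lap c).continuousAt.mono_left nhdsWithin_le_nhds) ?_
  filter_upwards [c1 ha he b, a.filter_mono nhdsWithin_le_nhds] with y p q using p.symm.trans q

theorem c3 {x : ℂ} (hx : 0 < x.im) (h : HarmonicAt Φ x) {w : ℂ} (hw : 0 < w.im) :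
    HarmonicAt (R w) w := by
  have u : ∀ {w : ℂ}, 0 < w.im → ∀ᶠ z in 𝓝 w, 0 < z.im := fun hw =>
    Complex.continuous_im.continuousAt.eventually_const_lt hw
  have a : AnalyticOnNhd ℝ (fun z => Δ (R z) z) {z | 0 < z.im} := fun z hz =>
    (an_lap (ha z hz)).congr (c2 ha he hz).symm
  have b : ∀ᶠ z in 𝓝[≠] x, Δ (R z) z = 0 := by
    filter_upwards [c1 ha he hx, (c2 ha he hx).filter_mono nhdsWithin_le_nhds,
      h.2.filter_mono nhdsWithin_le_nhds] with z p q r using q.trans (p.symm.trans r)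
  obtain ⟨y, p, q⟩ := ((eventually_nhdsNE_eventually_nhds_iff.2 b).and
    ((u hx).filter_mono nhdsWithin_le_nhds)).exists
  have c := a.eqOn_zero_of_preconnected_of_eventuallyEq_zero
    (convex_halfSpace_im_gt 0).isPreconnected q p
  refine ⟨(ha w hw).contDiffAt, ?_⟩
  filter_upwards [c2 ha he hw, u hw] with z p q using p.symm.trans (c q)

end

theorem split {R : ℂ → ℂ} {w : ℂ} (h : HarmonicAt R w) : ∃ a b : ℂ → ℂ, AnalyticAt ℂ a w ∧
    AnalyticAt ℂ b w ∧ ∀ᶠ z in 𝓝 w, R z = a z + conj (b z) := by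
  obtain ⟨r, hr, e⟩ := Metric.eventually_nhds_iff_ball.1 h.eventually
  obtain ⟨f, f1, f2⟩ := (HarmonicOnNhd.comp_CLM e reCLM).exists_analyticOnNhd_ball_re_eq
  obtain ⟨g, g1, g2⟩ := (HarmonicOnNhd.comp_CLM e imCLM).exists_analyticOnNhd_ball_re_eq
  have f3 := f1 w (Metric.mem_ball_self hr)
  have g3 := g1 w (Metric.mem_ball_self hr)
  refine ⟨fun z => (f z + I * g z) / 2, fun z => (f z - I * g z) / 2, by fun_prop, by fun_prop, ?_⟩
  filter_upwards [Metric.ball_mem_nhds w hr] with z hz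
  have p : (f z).re = (R z).re := f2 hz
  have q : (g z).re = (R z).im := g2 hz
  refine Complex.ext ?_ ?_ <;> simp [← p, ← q, -map_div₀] <;> ring

theorem hol (M : ℕ) {a : ℕ × ℕ → ℂ} {u : ℕ × ℕ → ℝ} {y : ℝ} (h : ∀ p, ‖a p‖ ≤ u p)
    (hs : Summable fun p : ℕ × ℕ => u p * Real.exp (-(2 * π * ((p.1 + 1) * (p.2 + 1) * y / M)))) :
    ∃ f : ℂ → ℂ, ∀ z : ℂ, y < z.im → AnalyticAt ℂ f z ∧
      HasSum (fun p : ℕ × ℕ => a p * ee ((p.1 + 1) * (p.2 + 1) * z / M)) (f z) := by
  have o : IsOpen {z : ℂ | y < z.im} := isOpen_lt continuous_const Complex.continuous_im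
  have b : ∀ (p : ℕ × ℕ) (z : ℂ), y < z.im → ‖a p * ee ((p.1 + 1) * (p.2 + 1) * z / M)‖ ≤
      u p * Real.exp (-(2 * π * ((p.1 + 1) * (p.2 + 1) * y / M))) := fun p z hz => by
    rw [norm_mul, norm_ee, div_natCast_im, show ((p.1 + 1) * (p.2 + 1) : ℂ) =
      (((p.1 + 1) * (p.2 + 1) : ℝ) : ℂ) by simp, im_ofReal_mul]
    have := (norm_nonneg _).trans (h p)
    gcongr
    exact h p
  refine ⟨_, fun z hz => ⟨?_, (hs.of_norm_bounded fun p => b p z hz).hasSum⟩⟩
  refine (differentiableOn_tsum_of_summable_norm hs (fun p => ?_) o b).analyticAt (o.mem_nhds hz)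
  unfold ee
  fun_prop

theorem map_ne (w : ℍ) : map (↑) (𝓝[≠] w) = 𝓝[≠] (w : ℂ) := by
  rw [← isOpenEmbedding_coe.map_nhdsWithin_preimage_eq]
  congr 2
  ext z
  simp

end Hr

open Hr

/-- **row HAR** -/
theorem har : HAR := by
  intro L E M _ F S c cp H
  choose R h1 h2 h3 using (L M F S c cp H).2
  obtain ⟨y, C, s, e⟩ := E M F S c cp H
  have n : ∀ (k : ℕ) (x : ℂ), ‖2 / (k + 1) * x‖ ≤ 2 * ‖x‖ := fun k x => by
    rw [norm_mul, norm_div, ← Nat.cast_add_one, norm_natCast, Complex.norm_ofNat]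
    exact mul_le_mul_of_nonneg_right (div_le_self two_pos.le (by simp)) (norm_nonneg _)
  have s2 := s.mul_left 2
  simp only [← mul_assoc _ _ (Real.exp _)] at s2
  obtain ⟨f, hf⟩ := hol M (a := fun p => 2 / (p.1 + 1) * ch M cp (-(p.2 + 1)) (p.1 + 1))
    (fun p => (n _ _).trans (by gcongr; exact le_add_of_nonneg_right (norm_nonneg _))) s2
  obtain ⟨g, hg⟩ := hol M (a := fun p => conj (2 / (p.1 + 1) * ch M cp (p.2 + 1) (p.1 + 1)))
    (fun p => (norm_conj _).le.trans ((n _ _).trans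
      (by gcongr; exact le_add_of_nonneg_left (norm_nonneg _)))) s2
  have x0 : 0 < ((|y| + 1 : ℝ) * I).im := by simp; positivity
  have x1 : y < ((|y| + 1 : ℝ) * I).im := by simp; linarith [le_abs_self y]
  generalize ((|y| + 1 : ℝ) * I) = x at x0 x1
  have k : HarmonicAt (fun z => Phi M F (ofComplex z)) x := by
    refine (harmonicAt_congr_nhds ?_).1 (((harmonicAt_const C).add (hf x x1).1.harmonicAt).add
      (hg x x1).1.harmonicAt_conj)
    filter_upwards [Complex.continuous_im.continuousAt.eventually_const_lt x0,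
      Complex.continuous_im.continuousAt.eventually_const_lt x1] with z p q
    lift z to ℍ using p
    have := ((hf z q).2.add (hg z q).2.star).unique ((e z q).2.congr_fun ?_)
    · rw [ofComplex_apply]
      exact (add_assoc _ _ _).trans (eq_sub_iff_add_eq'.1 this)
    · intro p
      simp only [tr, star_def, map_mul, conj_conj, conj_ee, map_div₀, map_add, conj_natCast,
        map_one]
      ring
  intro w
  obtain ⟨a, b, ha, hb, d⟩ := split (c3 (Φ := fun z => Phi M F (ofComplex z))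
    (R := fun w => R (ofComplex w)) (m := fun w => mu S c (ofComplex w)) (fun w hw => by
      lift w to ℍ using hw
      simpa only [ofComplex_apply] using h1 w) (fun w hw => by
      lift w to ℍ using hw
      rw [← map_ne, eventually_map]
      simpa only [ofComplex_apply] using (h3 w).mono fun _ h => h.2) x0 k w.im_pos)
  simp only [ofComplex_apply] at d
  refine ⟨a, b, ha, hb, fun p => (h2 w p).trans d.self_of_nhds, ?_⟩
  filter_upwards [h3 w, (UpperHalfPlane.continuous_coe.continuousAt.eventually d).filter_mono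
    nhdsWithin_le_nhds] with z p q
  exact ⟨p.1, by rw [p.2, q]; ring⟩

end Vale.Agent.P004Z.Lf
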