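import Vale.Agent.P004Z.Lf.Loc2

/-!
# P004Z, block G4, row LOC0
-/

set_option autoImplicit false
set_option linter.all false

open UpperHalfPlane hiding I
open Complex MeasureTheory Filter Set
open scoped MatrixGroups Modular Real ComplexConjugate Topology

noncomputable section

namespace Vale.Agent.P004Z.Lf.Lc

theorem fin_nq (B : ℝ) : {l : Fm | nq l ≤ B}.Finite := by
  have := (sum_nq 0 one_pos).tendsto_cofinite_zero.eventually_lt_const (Real.exp_pos (-B))
  refine (eventually_cofinite.1 this).subset fun l (h : nq l ≤ B) => ?_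
  simpa using h

theorem ex_A {S : Finset ℤ} (w : ℍ) : ∃ A : Finset Fm, (∀ l ∈ A, disc l ∈ S) ∧
    ∀ l ∉ A, disc l ∈ S → nq l ≤ 4 * wt w * (pz l w ^ 2 + disc l) := by
  have hw := wt_pos w
  refine ⟨((fin_nq (2 * wt w * ∑ D ∈ S, |(D : ℝ)|)).inter_of_left {l | disc l ∈ S}).toFinset,
    fun l h => by simp at h; exact h.2, fun l h e => ?_⟩
  have h1 : ¬ nq l ≤ 2 * wt w * ∑ D ∈ S, |(D : ℝ)| := fun p => h (by simpa using ⟨p, e⟩)
  have h2 := Finset.single_le_sum (f := fun D : ℤ => |(D : ℝ)|) (fun _ _ => abs_nonneg _) e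
  have h3 := nq_le l w
  rw [mj] at h3
  nlinarith [mul_le_mul_of_nonneg_left ((neg_le_abs _).trans h2) hw.le]

theorem an_nsq {f : ℂ → ℂ} {w : ℂ} (h : AnalyticAt ℝ f w) :
    AnalyticAt ℝ (fun z => normSq (f z)) w := by
  have a := (reCLM.analyticAt _).comp h
  have b := (imCLM.analyticAt _).comp h
  exact (a.mul a).add (b.mul b)

theorem an_X (M : ℕ) (l : Fm) (w : ℍ) : AnalyticAt ℝ (Xl M l) w := by
  have a : AnalyticAt ℝ Complex.re (w : ℂ) := reCLM.analyticAt _
  have b : AnalyticAt ℝ Complex.im (w : ℂ) := imCLM.analyticAt _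
  have c := an_nsq (analyticAt_id (z := (w : ℂ)))
  have d : AnalyticAt ℝ (pz l) w := (((analyticAt_const.mul c).add (analyticAt_const.mul a)).add
    analyticAt_const).div b w.im_ne_zero
  exact (analyticAt_const.mul ((d.pow 2).add analyticAt_const)).mul analyticAt_const

theorem X_pos (M : ℕ) [NeZero M] {l : Fm} {z : ℍ} (h : evq l z ≠ 0) : 0 < Xl M l z := by
  have hM : (0 : ℝ) < M := by exact_mod_cast NeZero.pos M
  have := normSq_pos.2 h
  have := z.im_pos
  rw [Xl, pz_sq]
  positivity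

/-- the exponent without its zero -/
def Yl (M : ℕ) (w : ℍ) (l : Fm) (z : ℂ) : ℝ :=
  if evq l w = 0 then π * l.1 ^ 2 / M * (normSq (z - conj (w : ℂ)) / z.im ^ 2) else Xl M l z

theorem an_Y (M : ℕ) (w : ℍ) (l : Fm) : AnalyticAt ℝ (Yl M w l) w := by
  unfold Yl
  split_ifs
  · exact analyticAt_const.mul ((an_nsq (analyticAt_id.sub analyticAt_const)).div
      ((imCLM.analyticAt _).pow 2) (pow_ne_zero 2 w.im_ne_zero))
  · exact an_X M l w

theorem Y_pos (M : ℕ) [NeZero M] {w z : ℍ} {l : Fm} (h : disc l < 0)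
    (e : evq l w = 0 ∨ evq l z ≠ 0) : 0 < Yl M w l z := by
  unfold Yl
  split_ifs with p
  · have hM : (0 : ℝ) < M := by exact_mod_cast NeZero.pos M
    have a : (l.1 : ℝ) ≠ 0 := Int.cast_ne_zero.2 fun a => by
      rw [Hd.root_zero p a] at h
      simp [disc] at h
    have b : 0 < normSq ((z : ℂ) - conj (w : ℂ)) := normSq_pos.2 fun e => by
      have := congrArg Complex.im e
      simp at this
      linarith [z.im_pos, w.im_pos]
    have : 0 < (z : ℂ).im := z.im_pos
    positivity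
  · exact X_pos M (e.resolve_left p)

theorem X_eq (M : ℕ) {w : ℍ} {l : Fm} (h : evq l w = 0) (z : ℍ) :
    Xl M l z = Yl M w l z * normSq ((z : ℂ) - w) := by
  have e : evq l z = (l.1 : ℝ) * (((z : ℂ) - conj (w : ℂ)) * (z - w)) := by
    have b := congrArg ofReal (Hd.root_b h)
    have c := congrArg ofReal (Hd.root_c h)
    have p := add_conj (w : ℂ)
    have q := mul_conj (w : ℂ)
    rw [normSq_apply] at q
    simp only [coe_re, coe_im] at p q
    push_cast at b c p q ⊢
    rw [evq, b, c]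
    linear_combination (l.1 * z : ℂ) * p - l.1 * q
  rw [Xl, pz_sq, Yl, if_pos h, e, map_mul, map_mul, normSq_ofReal, coe_im]
  ring

theorem mu_eq {S : Finset ℤ} (c : ℤ → Fm → ℂ) {w : ℍ} {A : Finset Fm}
    (h : ∀ l ∉ A, disc l ∈ S → evq l w ≠ 0) :
    mu S c w = ∑ l ∈ A, if evq l w = 0 then cf S c l else 0 := by
  simp only [mu, finsum_eq_if]
  refine finsum_eq_sum_of_support_subset _ fun l hl => by_contra fun e => hl ?_
  simp only []
  split_ifs with p
  · exact if_neg fun q => h l e q p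
  · rfl

theorem far {S : Finset ℤ} (hS : ∀ D ∈ S, D < 0) {w : ℍ} {A : Finset Fm}
    (hA : ∀ l ∉ A, disc l ∈ S → nq l ≤ 4 * wt w * (pz l w ^ 2 + disc l)) :
    ∀ᶠ z : ℍ in 𝓝 w, ∀ l ∉ A, disc l ∈ S → evq l z ≠ 0 := by
  have hw := wt_pos w
  have k : Continuous fun z : ℍ => ((z : ℂ), conj (z : ℂ)) := by
    have := UpperHalfPlane.continuous_coe
    fun_prop
  filter_upwards [k.continuousAt.eventually (pert w (ε := 1 / (8 * wt w)) (by positivity))]
    with z hz l hl e p
  have h1 := hz.2 l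
  have h2 := pz_sq l z
  have h3 := one_le_nq (l := l) fun q => by simpa [q, disc] using hS _ e
  rw [pc_eq, ← ofReal_pow, ofReal_re, one_div_mul_eq_div, sub_le_comm,
    le_div_iff₀ (by positivity)] at h1
  rw [p, map_zero, zero_div] at h2
  have h4 := hA l hl e
  rw [show (disc l : ℝ) = -pz l z ^ 2 by linarith] at h4
  linarith

theorem close {l : Fm} (h : disc l < 0) (w : ℍ) : ∀ᶠ z : ℍ in 𝓝[≠] w, evq l z ≠ 0 := by
  by_cases p : evq l w = 0
  · filter_upwards [self_mem_nhdsWithin] with z hz e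
    exact hz (Hd.root_one e p fun a => by simpa [Hd.root_zero p a, disc] using h)
  · have k : Continuous fun z : ℍ => evq l z := by
      have := UpperHalfPlane.continuous_coe
      unfold evq
      fun_prop
    exact (k.continuousAt.eventually_ne p).filter_mono nhdsWithin_le_nhds

end Lc

open Lc

/-- **row LOC0** -/
theorem loc0 : LOC0 := by
  intro M _ F S c cp H
  obtain ⟨G, aG, hG⟩ := ex_E
  have hM : (0 : ℝ) < M := by exact_mod_cast NeZero.pos M
  have ht : ∀ w : ℍ, 0 < π / (4 * M * wt w) := fun w => by have := wt_pos w; positivity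
  refine ⟨fun z hz => ?_, fun w => ?_⟩
  · obtain ⟨A, h1, h2⟩ := ex_A (S := S) z
    obtain ⟨C, d⟩ := dm_hh A H h2
    exact tendsto_nhds_limUnder ⟨_, main A H hG (ht z) d fun l hl => hz l (h1 l hl)⟩
  obtain ⟨A, h1, h2⟩ := ex_A (S := S) w
  obtain ⟨C, d⟩ := dm_hh A H h2
  have f := far H.neg h2
  refine ⟨fun z => Q 𝒟 (fc M (hh M F S c A) (z, conj z)) +
    ∑ l ∈ A, cf S c l * (G (Xl M l z) - (Real.log (Yl M w l z) : ℝ)), ?_, fun hw => ?_, ?_⟩
  · refine (an_Q (meas_hh A H) d (ht w)).add (Finset.analyticAt_fun_sum _ fun l hl =>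
      analyticAt_const.mul (AnalyticAt.sub ?_ ?_))
    · exact ((aG _).restrictScalars (𝕜 := ℝ)).comp ((ofRealCLM.analyticAt _).comp (an_X M l w))
    · exact (ofRealCLM.analyticAt _).comp ((analyticAt_log (Y_pos M (w := w) (z := w)
        (H.neg _ (h1 l hl)) (em _))).comp (an_Y M w l))
  · rw [Phi, (main A H hG (ht w) d fun l hl => hw l (h1 l hl)).limUnder_eq]
    refine congrArg _ (Finset.sum_congr rfl fun l hl => ?_)
    rw [Yl, if_neg (hw l (h1 l hl))]
  · have k : Continuous fun z : ℍ => ((z : ℂ), conj (z : ℂ)) := by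
      have := UpperHalfPlane.continuous_coe
      fun_prop
    filter_upwards [f.filter_mono nhdsWithin_le_nhds, (k.continuousAt.eventually
      (dm_near (meas_hh A H) d (ht w))).filter_mono nhdsWithin_le_nhds, self_mem_nhdsWithin,
      (eventually_all_finset A).2 fun l hl => close (H.neg _ (h1 l hl)) w] with z a b e g
    refine ⟨fun l hl => (em (l ∈ A)).elim (g l) fun p => a l p hl, ?_⟩
    rw [Phi, (main A H hG (half_pos (ht w)) b.2 g).limUnder_eq, mu_eq c f.self_of_nhds,
      Finset.sum_mul, add_sub_assoc, ← Finset.sum_sub_distrib]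
    refine congrArg _ (Finset.sum_congr rfl fun l hl => ?_)
    split_ifs with p
    · rw [X_eq M p, Real.log_mul (Y_pos M (H.neg _ (h1 l hl)) (Or.inl p)).ne'
        (normSq_pos.2 (sub_ne_zero.2 fun q => e (UpperHalfPlane.ext q))).ne']
      push_cast
      ring
    · rw [Yl, if_neg p, zero_mul, sub_zero]

end Vale.Agent.P004Z.Lf
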