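import Vale.Agent.P004Z.Lf.Mix
import Vale.Agent.P004Z.Lf.Ms

/-!
# P004Z, block G4: the expansion of the Shimura lift
-/

set_option autoImplicit false
set_option linter.all false

open UpperHalfPlane hiding I
open Complex MeasureTheory Filter Set
open scoped MatrixGroups Modular Real ComplexConjugate Topology

noncomputable section

namespace Vale.Agent.P004Z.Lf

namespace Sa

/-- unfolding, term by term -/
theorem unf2 {H : ℤ × ℤ → ℍ → ℂ} (hH : ∀ (γ : SL(2, ℤ)) v τ, H v (γ • τ) = H (vm v γ) τ)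
    (h0 : ∀ τ, H 0 τ = 0) {T : ℕ × ℤ → ℍ → ℂ}
    (hT : ∀ (n : ℕ) τ, H (0, n + 1) τ = ∑' b, T (n, b) τ) (hm : ∀ p, Measurable (T p))
    {w : ℕ × ℤ → ℝ} (hw : Summable w) {g : ℍ → ℝ} (hg : IntegrableOn g St)
    (hb : ∀ p τ, ‖T p τ‖ ≤ w p * g τ) : (∀ p, IntegrableOn (T p) St) ∧
      HasSum (fun p => 2 * ∫ τ in St, T p τ) (∫ τ in 𝒟, ∑' v, H v τ) := by
  have iT : ∀ p, IntegrableOn (T p) St := fun p =>
    (hg.const_mul (w p)).mono' (hm p).aestronglyMeasurable (ae_of_all _ (hb p))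
  have sT : Summable fun p => ∫ τ in St, ‖T p τ‖ :=
    (hw.mul_right (∫ τ in St, g τ)).of_nonneg_of_le (fun _ => integral_nonneg fun _ => norm_nonneg _)
      fun p => by
        rw [← integral_const_mul]
        exact integral_mono (iT p).norm (hg.const_mul _) (hb p)
  have bH : ∀ (n : ℕ) τ, ‖H (0, n + 1) τ‖ ≤ (∑' b, w (n, b)) * g τ := fun n τ => by
    rw [hT]
    exact tsum_of_norm_bounded ((hw.prod_factor n).hasSum.mul_right _) fun b => hb _ _
  have iH : ∀ n : ℕ, IntegrableOn (H (0, n + 1)) St := fun n =>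
    (hg.const_mul _).mono' (by
      rw [funext (hT n)]
      exact (Measurable.tsum fun b => hm _).aestronglyMeasurable) (ae_of_all _ (bH n))
  have u := unf hH h0 iH ((hw.prod.mul_right (∫ τ in St, g τ)).of_nonneg_of_le
    (fun _ => integral_nonneg fun _ => norm_nonneg _) fun n => by
      rw [← integral_const_mul]
      exact integral_mono (iH n).norm (hg.const_mul _) (bH n))
  have S : Summable fun p => 2 * ∫ τ in St, T p τ := (sT.of_norm_bounded
    (f := fun p => ∫ τ in St, T p τ) fun _ => norm_integral_le_integral_norm _).mul_left 2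
  have e : ∀ n : ℕ, HasSum (fun b => 2 * ∫ τ in St, T (n, b) τ)
      (2 * ∫ τ in St, H (0, n + 1) τ) := fun n => by
    simp only [hT]
    exact (hasSum_integral_of_summable_integral_norm (F := fun b => T (n, b)) (fun b => iT _)
      (sT.prod_factor n)).mul_left 2
  exact ⟨iT, u.unique (S.hasSum.prod_fiberwise e) ▸ S.hasSum⟩

theorem sum_exp {m : ℝ} (hm : 0 < m) :
    Summable fun p : ℕ × ℤ => Real.exp (-(m * p.1)) * Real.exp (-(m * |(p.2 : ℝ)|)) := by
  have h : Summable fun n : ℕ => Real.exp (-(m * n)) := by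
    simpa only [mul_neg, mul_comm m] using Real.summable_exp_nat_mul_iff.2 (neg_neg_of_pos hm)
  exact h.mul_of_nonneg (g := fun b : ℤ => Real.exp (-(m * |(b : ℝ)|)))
    (Summable.of_nat_of_neg (by simpa using h) (by simpa using h)) (fun _ => (Real.exp_pos _).le)
    fun _ => (Real.exp_pos _).le

variable {M : ℕ} [NeZero M] {F : ℍ → Fm → ℂ} {cp : Fm → ℂ}

theorem cs_exp (h : Cs M F cp) : ∃ κ : ℝ, 0 < κ ∧ ∀ m : ℝ, 0 < m → ∃ C : ℝ, 0 ≤ C ∧
    ∀ τ l, ‖F τ l‖ ≤ C * Real.exp (m / τ.im - κ * τ.im) := by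
  obtain ⟨C, hC⟩ := h.bd
  obtain ⟨D, κ, hκ, hD⟩ := h.dec
  refine ⟨κ, hκ, fun m hm => ⟨|D| + |C| / m * Real.exp κ, by positivity, fun τ l => ?_⟩⟩
  have hv := τ.im_pos
  rw [add_mul]
  rcases le_total (1 / 2) τ.im with h1 | h1
  · refine (hD τ l h1).trans (le_add_of_le_of_nonneg ?_ (by positivity))
    gcongr
    · exact le_abs_self D
    · linarith [div_pos hm hv]
  · refine le_add_of_nonneg_of_le (by positivity) ?_
    have e1 : ‖F τ l‖ * τ.im ≤ |C| := by
      refine le_trans ?_ ((hC τ l).trans (le_abs_self C))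
      gcongr
      exact Real.self_le_rpow_of_le_one hv.le (by linarith) (by norm_num)
    have e2 : m / τ.im ≤ Real.exp (κ + (m / τ.im - κ * τ.im)) :=
      le_trans (by nlinarith) (Real.add_one_le_exp _)
    rw [mul_assoc, ← Real.exp_add]
    refine le_trans ?_ (mul_le_mul_of_nonneg_left e2 (by positivity))
    rw [div_mul_div_cancel₀ hm.ne', le_div_iff₀ hv]
    exact e1

variable (M F) in
/-- the terms on the strip -/
def T1 (z : ℍ) (p : ℕ × ℤ) (τ : ℍ) : ℂ :=
  I * gq M z τ (0, p.1 + 1) * (fl M (F τ) 0 p.2 (p.1 + 1) *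
    (z.im * (p.1 + 1) - τ.im * p.2 : ℝ) * ex M z τ 0 p.2 (p.1 + 1))

theorem H1_T (z : ℍ) (n : ℕ) (τ : ℍ) : H1 M F z (0, n + 1) τ = ∑' b, T1 M F z (n, b) τ := by
  simp [H1, T1, tsum_mul_left]

theorem gq_eq (z τ : ℍ) (d : ℤ) :
    gq M z τ (0, d) = √M * √τ.im * Real.exp (-(π * z.im ^ 2 * d ^ 2 / M / τ.im)) := by
  simp [gq, div_div, sq]

theorem ex_eq (z τ : ℍ) (b d : ℤ) : ex M z τ 0 b d = ee (-(d * b * z.re / M)) *
    (Real.exp (-(π * b ^ 2 / M * τ.im)) : ℝ) * ee (-((b ^ 2 : ℤ) * (τ : ℂ) / (4 * M))) := by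
  have : (M : ℂ) ≠ 0 := Nat.cast_ne_zero.2 (NeZero.ne M)
  have e : conj (τ : ℂ) = τ - 2 * I * τ.im := Complex.ext (by simp) (by simp; ring)
  simp only [ex, ee, ofReal_exp, ← Complex.exp_add, e]
  congr 1
  push_cast
  field_simp
  linear_combination (4 * b ^ 2 * τ.im : ℂ) * I_sq

theorem ex_le {a κ c m k v t : ℝ} (hm : 0 < m) (m1 : 4 * m ≤ a) (m2 : 2 * m ≤ κ) (m3 : 2 * m ≤ c)
    (hk : 0 ≤ k) (hv : 0 < v) (ht : 0 ≤ t) : -(a * (k + 1) ^ 2 / v) + (m / v - κ * v) +
      (m * (k + 1) + m * ((1 + t ^ 2) * v)) + -(c * t ^ 2 * v) ≤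
      -(m * k) + -(m * t) + (-(m / v) - 0 * v) := by
  have a1 : 2 * (k + 1) ≤ (k + 1) ^ 2 / v + v := by
    rw [div_add' _ _ _ hv.ne', le_div_iff₀ hv]; nlinarith [sq_nonneg (k + 1 - v)]
  have a2 : 2 * t ≤ 1 / v + t ^ 2 * v := by
    rw [div_add' _ _ _ hv.ne', le_div_iff₀ hv]; nlinarith [sq_nonneg (1 - t * v)]
  have a3 : 1 / v ≤ (k + 1) ^ 2 / v := by gcongr; nlinarith
  have a4 := mul_le_mul_of_nonneg_right m1 (show 0 ≤ (k + 1) ^ 2 / v by positivity)
  have a5 := mul_le_mul_of_nonneg_right m2 hv.le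
  have a6 := mul_le_mul_of_nonneg_right m3 (show 0 ≤ t ^ 2 * v by positivity)
  rw [mul_div_assoc, div_eq_mul_one_div m]
  nlinarith [mul_le_mul_of_nonneg_left a1 hm.le, mul_le_mul_of_nonneg_left a2 hm.le,
    mul_le_mul_of_nonneg_left a3 hm.le, mul_nonneg hm.le ht]

theorem T1_bd (h : Cs M F cp) (z : ℍ) : ∃ C m : ℝ, 0 < m ∧ ∀ p τ, ‖T1 M F z p τ‖ ≤
    C * (Real.exp (-(m * p.1)) * Real.exp (-(m * |(p.2 : ℝ)|))) *
      (√τ.im * Real.exp (-(m / τ.im) - 0 * τ.im)) := by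
  obtain ⟨κ, hκ, hF⟩ := cs_exp h
  have hM : (0 : ℝ) < M := Nat.cast_pos.2 (NeZero.pos M)
  have hy := z.im_pos
  obtain ⟨m, hm, m1, m2, m3⟩ : ∃ m : ℝ, 0 < m ∧ 4 * m ≤ π * z.im ^ 2 / M ∧ 2 * m ≤ κ ∧
      2 * m ≤ π / (2 * M) := ⟨min (π * z.im ^ 2 / M / 4) (min (κ / 2) (π / (2 * M) / 2)),
    by positivity, by linarith [min_le_left (π * z.im ^ 2 / M / 4) (min (κ / 2) (π / (2 * M) / 2))],
    by linarith [min_le_right (π * z.im ^ 2 / M / 4) (min (κ / 2) (π / (2 * M) / 2)),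
      min_le_left (κ / 2) (π / (2 * M) / 2)],
    by linarith [min_le_right (π * z.im ^ 2 / M / 4) (min (κ / 2) (π / (2 * M) / 2)),
      min_le_right (κ / 2) (π / (2 * M) / 2)]⟩
  obtain ⟨C, hC, hF⟩ := hF m hm
  refine ⟨√M * C * ((z.im + 1) / m), m, hm, fun ⟨n, b⟩ τ => ?_⟩
  have hv := τ.im_pos
  have e1 : ‖ex M z τ 0 b (n + 1)‖ = Real.exp (-(π / (2 * M) * b ^ 2 * τ.im)) := by
    rw [ex, norm_ee]
    congr 1
    rw [show (4 * M : ℂ) = (4 * M : ℝ) by simp, Complex.neg_im, div_ofReal_im]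
    simp [sq]
    field_simp
    ring
  have e2 : |z.im * (n + 1) - τ.im * b| ≤
      (z.im + 1) / m * Real.exp (m * (n + 1) + m * ((1 + b ^ 2) * τ.im)) := by
    have a1 := Real.add_one_le_exp (m * (n + 1) + m * ((1 + b ^ 2) * τ.im))
    have a2 : |(b : ℝ)| ≤ 1 + b ^ 2 := by nlinarith [sq_abs (b : ℝ), abs_nonneg (b : ℝ)]
    have a3 : τ.im * |(b : ℝ)| ≤ (1 + b ^ 2) * τ.im := by nlinarith
    refine (abs_sub _ _).trans (le_trans ?_ (mul_le_mul_of_nonneg_left
      ((le_add_of_nonneg_right zero_le_one).trans a1) (by positivity)))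
    rw [← mul_add, div_mul_eq_mul_div, mul_left_comm, mul_div_cancel_left₀ _ hm.ne', abs_mul,
      abs_mul, abs_of_pos hy, abs_of_pos hv, abs_of_pos (by positivity)]
    nlinarith [mul_pos hy (show 0 < (1 + (b : ℝ) ^ 2) * τ.im by positivity), Nat.cast_nonneg (α := ℝ) n]
  simp only [T1, norm_mul, norm_I, one_mul, norm_real, e1, gq_eq, Real.norm_eq_abs,
    abs_of_nonneg (Real.sqrt_nonneg _), Real.abs_exp]
  refine (mul_le_mul_of_nonneg_left (mul_le_mul_of_nonneg_right (mul_le_mul (norm_fl (hF τ) _ _ _)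
    e2 (abs_nonneg _) (by positivity)) (by positivity)) (by positivity)).trans ?_
  have e3 := Real.exp_le_exp.2 (ex_le hm m1 m2 m3 (Nat.cast_nonneg n) hv (abs_nonneg (b : ℝ)))
  simp only [Real.exp_add, sq_abs] at e3
  push_cast
  rw [Real.exp_add, mul_div_right_comm _ _ (M : ℝ)]
  linarith [mul_le_mul_of_nonneg_left e3
    (show 0 ≤ √M * C * ((z.im + 1) / m) * √τ.im by positivity)]

/-- the integral over a period -/
theorem int_fl (hc : ∀ l, Continuous fun τ => F τ l) (b d : ℤ) {v : ℝ} (hv : 0 < v) :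
    ∫ u in Ico (0 : ℝ) 1, fl M (F (pt u v)) 0 b d * ee (-((b ^ 2 : ℤ) * (pt u v : ℂ) / (4 * M))) =
      (M : ℂ)⁻¹ * ∑ j ∈ Finset.range M, co M F (0, b, (j : ℤ)) v * ee (-(j * d / M)) := by
  simp only [fl, mul_assoc, Finset.sum_mul]
  rw [integral_const_mul, integral_Ico_eq_integral_Ioc,
    ← intervalIntegral.integral_of_le zero_le_one, intervalIntegral.integral_finsetSum]
  · simp only [co, ← intervalIntegral.integral_mul_const, disc]
    congr 1
    refine Finset.sum_congr rfl fun j _ => intervalIntegral.integral_congr fun u _ => ?_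
    simp
    ring
  · intro j _
    have := hc (0, b, j)
    have := cont_pt hv
    have := continuous_coe
    exact Continuous.intervalIntegrable (by fun_prop) _ _

theorem int_v {y d : ℝ} (hy : 0 < y) (hd : 0 < d) {b : ℤ} (hb : b ≠ 0) :
    ∫ v in Ioi (0 : ℝ), √v / v ^ 2 * Real.exp (-(π * y ^ 2 * d ^ 2 / M / v) - π * b ^ 2 / M * v) *
      (y * d - v * b) = if b < 0 then 2 * √M * Real.exp (2 * π * (d * b * y / M)) else 0 := by
  have hM : (0 : ℝ) < M := Nat.cast_pos.2 (NeZero.pos M)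
  have hb' : (b : ℝ) ≠ 0 := Int.cast_ne_zero.2 hb
  have hA : 0 < π * y ^ 2 * d ^ 2 / M := by positivity
  have hB : 0 < π * b ^ 2 / M := by positivity
  rw [setIntegral_congr_fun measurableSet_Ioi (g := fun v => y * d * (√v / v ^ 2 *
      Real.exp (-(π * y ^ 2 * d ^ 2 / M / v) - π * b ^ 2 / M * v)) - b * (√v / v *
      Real.exp (-(π * y ^ 2 * d ^ 2 / M / v) - π * b ^ 2 / M * v))) fun v (hv : 0 < v) => by
        field_simp, integral_sub ((intg3 hA hB.le).const_mul _) ((intg1 hA.le hB).const_mul _),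
    integral_const_mul, integral_const_mul, int3 hA hB.le, int1 hA.le hB,
    show π / (π * y ^ 2 * d ^ 2 / M) = M / (y * d) ^ 2 by field_simp,
    show π / (π * b ^ 2 / M) = M / b ^ 2 by field_simp,
    show π * y ^ 2 * d ^ 2 / M * (π * b ^ 2 / M) = (π * y * d / M * b) ^ 2 by ring,
    Real.sqrt_div' _ (sq_nonneg _), Real.sqrt_div' _ (sq_nonneg _), Real.sqrt_sq (by positivity),
    Real.sqrt_sq_eq_abs, Real.sqrt_sq_eq_abs, abs_mul, abs_of_pos (by positivity : 0 < π * y * d / M)]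
  split_ifs with h
  · rw [abs_of_neg (by exact_mod_cast h),
      show -(2 * (π * y * d / M * -b)) = 2 * π * (d * b * y / M) by ring]
    field_simp
    ring
  · rw [abs_of_nonneg (by exact_mod_cast not_lt.1 h)]
    field_simp
    ring

theorem re_im (z : ℍ) : (z.re + z.im * I : ℂ) = z := Complex.re_add_im _

theorem int_T1 (h : Cs M F cp) (z : ℍ) (n : ℕ) (b : ℤ) (hi : IntegrableOn (T1 M F z (n, b)) St) :
    ∫ τ in St, T1 M F z (n, b) τ =
      if b < 0 then 2 * I * ch M cp b (n + 1) * ee (-((n + 1) * b * z / M)) else 0 := by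
  have hM : (0 : ℝ) < M := Nat.cast_pos.2 (NeZero.pos M)
  rw [St, int_box measurableSet_Ico measurableSet_Ioi subset_rfl hi,
    setIntegral_congr_fun measurableSet_Ioi (g := fun v => I * √M * ee (-((n + 1) * b * z.re / M)) *
      ((M : ℂ)⁻¹ * ch M cp b (n + 1)) * (√v / v ^ 2 * Real.exp (-(π * z.im ^ 2 * (n + 1) ^ 2 / M / v)
        - π * b ^ 2 / M * v) * (z.im * (n + 1) - v * b) : ℝ)) fun v (hv : 0 < v) => ?_,
    integral_const_mul, integral_complex_ofReal]
  · rcases eq_or_ne b 0 with rfl | hb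
    · simp [ch, h.zero (0, 0, _) (by simp [disc])]
    rw [int_v z.im_pos (by positivity) hb]
    split_ifs with h
    · have e : (√M : ℝ) * (√M : ℝ) = (M : ℂ) := by rw [← ofReal_mul, Real.mul_self_sqrt hM.le]; rfl
      have : (M : ℂ) ≠ 0 := Nat.cast_ne_zero.2 (NeZero.ne M)
      rw [show -((n + 1) * b * (z : ℂ) / M) = -((n + 1) * b * z.re / M) +
        -((n + 1) * b * (z.im * I) / M) by rw [← neg_add, ← add_div, ← mul_add, re_im], ee_add,
        ee.eq_1 (-(_ * (_ * I) / _)), show 2 * π * I * -((n + 1) * b * (z.im * I) / M) =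
          (2 * π * ((n + 1) * b * z.im / M) : ℝ) by
            push_cast; linear_combination (-(2 * π * ((n + 1) * b * z.im / M)) : ℂ) * I_sq]
      push_cast
      field_simp
      rw [sq, e]
    · simp
  · have e := int_fl (M := M) h.sd.cont b (n + 1) hv
    simp only [h.co _ _ hv] at e
    simp only [T1, gq_eq, ex_eq, pt_im _ hv, ch]
    rw [← e, real_smul, sub_eq_add_neg (-_), Real.exp_add]
    simp only [← integral_const_mul, ← integral_mul_const]
    refine integral_congr_ae (ae_of_all _ fun u => ?_)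
    push_cast
    ring

end Sa

open Sa in
theorem sha : SHA := fun M _ F cp h z => by
  obtain ⟨m1, m2, m3⟩ := mix1 M F h.sd z
  obtain ⟨C, m, hm, hb⟩ := T1_bd h z
  obtain ⟨i, s⟩ := unf2 m3 m2 (H1_T z) (fun p => Continuous.measurable (by
      have := h.sd.cont
      have := UpperHalfPlane.continuous_im
      have := continuous_coe
      unfold T1 gq fl ex
      fun_prop (disch := exact fun τ => by have := NeZero.pos M; have := τ.im_pos; positivity)))
    ((sum_exp hm).mul_left C) (im_box measurableSet_Ico measurableSet_Ioi subset_rfl (by simp)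
      (g := fun v => √v * Real.exp (-(m / v) - 0 * v)) (by fun_prop)
      (by simpa only [mul_div_right_comm] using intg3 hm le_rfl)) hb
  simp only [fun τ => (m1 τ).tsum_eq] at s
  have j : Function.Injective fun p : ℕ × ℕ => (p.1, -((p.2 : ℤ) + 1)) := fun p q e =>
    Prod.ext (Prod.mk.inj e).1 (by have := (Prod.mk.inj e).2; omega)
  have t := (j.hasSum_iff fun ⟨n, b⟩ hp => by
    rw [int_T1 h z _ _ (i _), if_neg fun hb => hp ⟨(n, (-b - 1).toNat), by simp; omega⟩,
      mul_zero]).2 s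
  convert t using 2 with p
  swap
  · rfl
  simp only [Function.comp]
  rw [int_T1 h z _ _ (i _), if_pos (by omega)]
  push_cast
  rw [show -((p.1 + 1) * -(p.2 + 1) * (z : ℂ) / M) = (p.1 + 1) * (p.2 + 1) * z / M by ring]
  ring

end Vale.Agent.P004Z.Lf
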