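import Vale.Agent.P004Z.Lf.Defs
import Vale.Agent.P004Z.St
import Vale.Agent.P004Z.Bo.St

/-! # P004Z, block G4: the internal rows -/

set_option autoImplicit false
set_option linter.all false

open UpperHalfPlane hiding I
open Complex MeasureTheory Filter Finset CongruenceSubgroup
open scoped MatrixGroups Modular Real ComplexConjugate Topology NumberTheorySymbols

noncomputable section

namespace Vale.Agent.P004Z.Lf

open P004N (S2 QE RN)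

/-- the mixed model in weight `0` -/
def MIX0 : Prop := ∀ (M : ℕ) [NeZero M] (F : ℍ → Fm → ℂ), Sd M F hw → ∀ z : ℍ,
  (∀ τ, HasSum (fun v => H0 M F z v τ) (KK M F z τ)) ∧ (∀ τ, H0 M F z 0 τ = 0) ∧
    ∀ (γ : SL(2, ℤ)) v τ, H0 M F z v (γ • τ) = H0 M F z (vm v γ) τ

/-- the mixed model in weight `2` -/
def MIX1 : Prop := ∀ (M : ℕ) [NeZero M] (F : ℍ → Fm → ℂ), (Sd M F fun τ => -(τ * hw τ)) →
  ∀ z : ℍ, (∀ τ, HasSum (fun v => H1 M F z v τ) (K1 M F z τ)) ∧ (∀ τ, H1 M F z 0 τ = 0) ∧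
    ∀ (γ : SL(2, ℤ)) v τ, H1 M F z v (γ • τ) = H1 M F z (vm v γ) τ

/-- convergence, and the real analytic regular part -/
def LOC0 : Prop := ∀ (M : ℕ) [NeZero M] F S c cp, Hm M F S c cp →
  (∀ z, Nr S z → Tendsto (fun T => ∫ τ in DT T, KK M F z τ) atTop (𝓝 (Phi M F z))) ∧
  ∀ w : ℍ, ∃ R : ℂ → ℂ, AnalyticAt ℝ R w ∧ (Nr S w → Phi M F w = R w) ∧ ∀ᶠ z : ℍ in 𝓝[≠] w,
    Nr S z ∧ Phi M F z = R z - mu S c w * (Real.log (normSq ((z : ℂ) - w)) : ℝ)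

/-- the expansion at infinity -/
def EXPN : Prop := ∀ (M : ℕ) [NeZero M] F S c cp, Hm M F S c cp → ∃ (y : ℝ) (C : ℂ),
  (Summable fun p : ℕ × ℕ => (‖ch M cp (-(p.2 + 1)) (p.1 + 1)‖ + ‖ch M cp (p.2 + 1) (p.1 + 1)‖) *
    Real.exp (-(2 * π * ((p.1 + 1) * (p.2 + 1) * y / M)))) ∧
  ∀ z : ℍ, y < z.im → Nr S z ∧ HasSum (fun p : ℕ × ℕ => tr M cp z p.1 p.2) (Phi M F z - C)

/-- the regular part is harmonic -/
def LOC : Prop := ∀ (M : ℕ) [NeZero M] F S c cp, Hm M F S c cp →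
  ∀ w : ℍ, ∃ a b : ℂ → ℂ, AnalyticAt ℂ a w ∧ AnalyticAt ℂ b w ∧
    (Nr S w → Phi M F w = a w + conj (b w)) ∧ ∀ᶠ z : ℍ in 𝓝[≠] w, Nr S z ∧
      Phi M F z = -mu S c w * (Real.log (normSq ((z : ℂ) - w)) : ℝ) + a z + conj (b z)

def HAR : Prop := LOC0 → EXPN → LOC

/-- from seeds to the rows of the main file -/
def BRG : Prop := LOC0 → LOC → EXPN → PHI → FTA → PETS → PAIR → LIFT ∧ Bo.EXP

/-- the expansion of the Shimura lift -/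
def SHA : Prop := ∀ (M : ℕ) [NeZero M] F cp, Cs M F cp → ∀ z : ℍ,
  HasSum (fun p : ℕ × ℕ => 4 * I * ch M cp (-(p.2 + 1)) (p.1 + 1) *
    ee ((p.1 + 1) * (p.2 + 1) * z / M)) (Sh M F z)

def BRS : Prop := SHA → PHI → FTA → PETS → SHI

/-- the Shimura lift commutes with the Hecke operators -/
def SHT : Prop := ∀ (N : ℕ) [NeZero N] (δ δ₁ l : ℕ) (ρ : ZMod (2 * N)) (x : Cf N),
  Dual δ δ₁ ρ → l.Prime → ¬ l ∣ 2 * N * δ * δ₁ →
  J(l | δ) * J(-((δ : ℤ) * δ₁) | l) = J(l | δ₁) →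
  shc δ₁ ρ (TT δ l x) = Tc l (shc δ₁ ρ x)

/-- the coefficients of the Shintani lift do not depend on `v` -/
def WA : Prop := ∀ (N ν : ℕ) (φ : Fm → ℂ) (G : ℍ → ℂ), 0 < N → 0 < ν → Per ν φ → φ 0 = 0 →
  (∀ γ ∈ Gamma0 N, ∀ l, φ (fa l γ) = φ l) → S2 N G → ∀ (D : ℤ) (v : ℝ), 0 < v →
    sc N ν φ G D v = sc N ν φ G D 1 ∧ (D ≤ 0 → sc N ν φ G D v = 0)

/-- the Shintani lift is adjoint to the Shimura lift -/
def WS : Prop := ∀ (N : ℕ) [NeZero N] (δ δ₁ : ℕ) (ρ : ZMod (2 * N)) (G : ℍ → ℂ), Dual δ δ₁ ρ →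
  S2 N G → IsS δ (sn δ₁ ρ G) ∧
    ∀ y, IsS δ y → pet (fn y) (fn (sn δ₁ ρ G)) = pet2 N (shi δ₁ ρ y) G

def WB : Prop := WA → PHI → THS → FTA → PETS → WS

/-- the coefficient at a square is a value of the `L`-function -/
def WC : Prop := ∀ (N δ : ℕ) (G : ℍ → ℂ) (a : ℕ → ℤ), Ok N δ → RN N G a → Van1 a δ →
  sc N (N * δ) (fun l => ph N δ (δ : ZMod (2 * N)) l) G (δ * δ) 1 = 0

def WL : Prop := WS → WC → SHT → SHI → SMO → PET2 → HECKE → SELF → PETS → GAU → WALD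

end Vale.Agent.P004Z.Lf
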