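import Vale.Agent.P004Z.Lf.Wx
import Vale.Agent.P004Z.Lf.St
import Vale.Agent.P004Z.Du.Pets

/-! # P004Z, block G4: the row `WB` -/

open UpperHalfPlane hiding I
open Complex MeasureTheory Filter Set CongruenceSubgroup
open scoped MatrixGroups Modular Real ComplexConjugate Topology ModularForm

noncomputable section

namespace Vale.Agent.P004Z.Lf

open P004N (S2)

namespace Wx

theorem fib {μ : Measure ℍ} [IsFiniteMeasure μ] {F : Fm → ℍ → ℂ} (mF : ∀ l, Measurable (F l))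
    {C : ℝ} (h : ∀ᵐ z ∂μ, (Summable fun l => ‖F l z‖) ∧ ∑' l, ‖F l z‖ ≤ C) :
    HasSum (fun D : ℤ => ∫ z, ∑' l : disc ⁻¹' {D}, F l z ∂μ) (∫ z, ∑' l, F l z ∂μ) := by
  have b : ∀ s : Finset ℤ, ∀ᵐ z ∂μ, ∑ D ∈ s, ‖∑' l : disc ⁻¹' {D}, F l z‖ ≤ C := fun s =>
    h.mono fun z hz => le_trans (Finset.sum_le_sum fun D _ =>
      norm_tsum_le_tsum_norm (hz.1.subtype _)) ((sum_le_hasSum s
        (fun D _ => tsum_nonneg fun _ => norm_nonneg _)
        (hz.1.hasSum.tsum_fiberwise disc)).trans hz.2)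
  have i : ∀ D : ℤ, Integrable (fun z => ∑' l : disc ⁻¹' {D}, F l z) μ := fun D =>
    .of_bound (Measurable.tsum fun l : disc ⁻¹' {D} => mF l).aestronglyMeasurable C
      (by simpa using b {D})
  have := hasSum_integral_of_summable_integral_norm i (summable_of_sum_le
    (c := ∫ _, C ∂μ) (fun D => integral_nonneg fun _ => norm_nonneg _) fun s => by
      rw [← integral_finsetSum _ fun D _ => (i D).norm]
      exact integral_mono_ae (integrable_finsetSum _ fun D _ => (i D).norm) (integrable_const C)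
        (b s))
  rwa [integral_congr_ae (h.mono fun z hz =>
    (hz.1.of_norm.hasSum.tsum_fiberwise disc).tsum_eq)] at this

/-- the terms of the Shimura kernel -/
def tt (ν : ℕ) (φ : Fm → ℂ) (τ z : ℂ) (l : Fm) : ℂ :=
  φ l * (evq l (conj z) / z.im ^ 2) * gau ν l τ z

/-- the pairing with a form of weight two -/
def pp (ν : ℕ) (φ : Fm → ℂ) (G : ℍ → ℂ) (τ : ℂ) (w : ℍ) : ℂ :=
  (∑' l, tt ν φ τ w l) * (conj (G w) * w.im ^ 2)

theorem conj_evq (l : Fm) (z : ℂ) : conj (evq l (conj z)) = evq l z := by simp [evq]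

variable {ν : ℕ} {φ : Fm → ℂ} {N : ℕ} {G : ℍ → ℂ}

theorem tt_le (hν : 0 < ν) {B : ℝ} (hB : ∀ l, ‖φ l‖ ≤ B) {v : ℝ} (hv : 0 < v) :
    ∃ C t : ℝ, 0 ≤ C ∧ 0 < t ∧ ∀ τ : ℂ, v ≤ τ.im → ∀ (w : ℍ) l,
      ‖tt ν φ τ w l‖ ≤ C / w.im * Real.exp (-(t * mj l w)) := by
  have B0 : 0 ≤ B := (norm_nonneg _).trans (hB 0)
  have t0 : 0 < π * v / (4 * ν) := by positivity
  refine ⟨B * (Real.exp (π * v / (4 * ν)) / (π * v / (4 * ν))), _, by positivity, t0,
    fun τ h w l => ?_⟩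
  have y0 := w.im_pos
  have m := mj_nonneg l w
  have a : ‖evq l (conj (w : ℂ)) / ((w : ℂ).im : ℂ) ^ 2‖ ≤ (1 + mj l w) / w.im := by
    rw [norm_div, ← norm_conj, conj_evq, norm_pow, norm_real, coe_im, Real.norm_of_nonneg y0.le,
      div_le_div_iff₀ (by positivity) y0]
    nlinarith [evq_le l w]
  have b : ‖gau ν l τ w‖ ≤ Real.exp (-(2 * (π * v / (4 * ν)) * mj l w)) := by
    rw [norm_gau, Real.exp_le_exp, neg_le_neg_iff,
      show 2 * (π * v / (4 * ν)) * mj l w = π * v * mj l w / (2 * ν) by ring]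
    gcongr
  rw [tt, norm_mul, norm_mul]
  calc _ ≤ B * ((1 + mj l w) / w.im) * Real.exp (-(2 * (π * v / (4 * ν)) * mj l w)) := by
        gcongr; exact hB l
    _ = B / w.im * ((1 + mj l w) * Real.exp (-(2 * (π * v / (4 * ν)) * mj l w))) := by ring
    _ ≤ _ := (mul_le_mul_of_nonneg_left (one_mj t0 l w) (by positivity)).trans_eq (by ring)

theorem tt_sum (hν : 0 < ν) {B : ℝ} (hB : ∀ l, ‖φ l‖ ≤ B) {τ : ℂ} (h : 0 < τ.im) (w : ℍ) :
    Summable fun l => ‖tt ν φ τ w l‖ := by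
  obtain ⟨C, t, -, ht, e⟩ := tt_le hν hB h
  exact ((ms_sum ht w).mul_left _).of_nonneg_of_le (fun _ => norm_nonneg _) (e τ le_rfl w)

theorem pp_le (hν : 0 < ν) {B : ℝ} (hB : ∀ l, ‖φ l‖ ≤ B) {v : ℝ} (hv : 0 < v) (hN : 0 < N)
    (hG : S2 N G) (g : SL(2, ℤ)) : ∃ C : ℝ, ∀ τ : ℂ, v ≤ τ.im → ∀ z ∈ 𝒟,
      (∑' l, ‖tt ν φ τ (g • z : ℍ) l‖) * (‖G (g • z)‖ * (g • z).im ^ 2) ≤ C := by
  obtain ⟨C, t, hC, ht, e⟩ := tt_le hν hB hv
  obtain ⟨A, c, hA, hc, b⟩ := key hN hG g ht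
  refine ⟨C * A, fun τ h z hz => ?_⟩
  have y0 := z.im_pos
  have y1 := (g • z).im_pos
  have := ms_nonneg t z
  have x : Real.exp (-(c * z.im)) ≤ 1 := Real.exp_le_one_iff.2 (by rw [neg_nonpos]; positivity)
  have s := (tt_sum hν hB (hv.trans_le h) (g • z)).tsum_le_tsum (e τ h _)
    ((ms_sum ht _).mul_left _)
  rw [tsum_mul_left] at s
  calc _ ≤ C / (g • z).im * ms t (g • z) * (‖G (g • z)‖ * (g • z).im ^ 2) := by gcongr; exact s
    _ = C * (ms t z * (‖G (g • z)‖ * (g • z).im)) := by rw [ms_inv]; field_simp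
    _ = C * (z.im * ms t z * ‖(G ∣[(2 : ℤ)] g) z‖) := by rw [← norm_sl]; ring
    _ ≤ C * ((1 + z.im) * ms t z * ‖(G ∣[(2 : ℤ)] g) z‖) := by gcongr; linarith
    _ ≤ _ := mul_le_mul_of_nonneg_left
        ((b z hz.2 (fd_im hz).le).trans (mul_le_of_le_one_right hA x)) hC

theorem pp_le' (hν : 0 < ν) {B : ℝ} (hB : ∀ l, ‖φ l‖ ≤ B) {v : ℝ} (hv : 0 < v) (hN : 0 < N)
    (hG : S2 N G) (g : SL(2, ℤ)) : ∃ C : ℝ, ∀ τ : ℂ, v ≤ τ.im → ∀ z ∈ 𝒟,
      ‖pp ν φ G τ (g • z)‖ ≤ C :=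
  (pp_le hν hB hv hN hG g).imp fun C e τ h z hz => le_trans (by
    rw [pp, norm_mul, norm_mul, norm_conj, norm_pow, norm_real,
      Real.norm_of_nonneg (g • z).im_pos.le]
    gcongr
    exact norm_tsum_le_tsum_norm (tt_sum hν hB (hv.trans_le h) _)) (e τ h z hz)

theorem meas_tt (ν : ℕ) (φ : Fm → ℂ) (l : Fm) : Measurable fun p : ℂ × ℂ => tt ν φ p.1 p.2 l := by
  have := cont_ee.measurable
  have := continuous_conj.measurable
  unfold tt gau evq pz
  simp only [normSq_apply]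
  fun_prop

theorem meas_pp (ν : ℕ) (φ : Fm → ℂ) (hG : Continuous G) :
    Measurable fun p : ℂ × ℍ => pp ν φ G p.1 p.2 :=
  (Measurable.tsum fun l => (meas_tt ν φ l).comp
    (measurable_fst.prodMk (continuous_coe.measurable.comp measurable_snd))).mul
    (((continuous_conj.comp hG).mul ((continuous_ofReal.comp
      UpperHalfPlane.continuous_im).pow 2)).measurable.comp measurable_snd)

instance : IsFiniteMeasure (volume.restrict (𝒟 : Set ℍ)) :=
  ⟨by simpa using P004N.T3.fd_finite⟩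

theorem pp_int (hν : 0 < ν) {B : ℝ} (hB : ∀ l, ‖φ l‖ ≤ B) {τ : ℂ} (h : 0 < τ.im) (hN : 0 < N)
    (hG : S2 N G) (g : SL(2, ℤ)) : IntegrableOn (fun z => pp ν φ G τ (g • z)) 𝒟 := by
  obtain ⟨C, e⟩ := pp_le' hν hB h hN hG g
  exact Integrable.of_bound ((meas_pp ν φ hG.holo.continuous).comp
    (measurable_const.prodMk (meas_sl g))).aestronglyMeasurable C
    (ae_restrict_of_forall_mem meas_fd (e τ le_rfl))

/-- the expansion of the Shintani lift -/
theorem expa (hν : 0 < ν) {B : ℝ} (hB : ∀ l, ‖φ l‖ ≤ B) (hr : ∀ l, conj (φ l) = φ l) {τ : ℂ}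
    (h : 0 < τ.im) (hN : 0 < N) (hG : S2 N G) :
    HasSum (fun D : ℤ => sc N ν φ G D τ.im * ee (D * τ / (4 * ν)))
      (√τ.im * conj (iX N (pp ν φ G τ))) := by
  have : NeZero N := ⟨hN.ne'⟩
  have := Subgroup.fintypeQuotientOfFiniteIndex (H := Gamma0 N)
  simp only [sc, iX, finsum_eq_sum_of_fintype, map_sum, Finset.mul_sum, Finset.sum_mul]
  refine hasSum_sum fun q _ => ?_
  generalize q.out⁻¹ = g
  obtain ⟨C, e⟩ := pp_le hν hB h hN hG g
  let F : Fm → ℍ → ℂ := fun l z =>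
    √τ.im * conj (tt ν φ τ (g • z : ℍ) l * (conj (G (g • z)) * (g • z).im ^ 2))
  have n : ∀ l z, ‖F l z‖ = √τ.im * (‖tt ν φ τ (g • z : ℍ) l‖ * (‖G (g • z)‖ * (g • z).im ^ 2)) :=
    fun l z => by simp [F]
  have := fib (μ := volume.restrict 𝒟) (F := F) (C := √τ.im * C) (fun l => measurable_const.mul
    (continuous_conj.measurable.comp (((meas_tt ν φ l).comp (measurable_const.prodMk
      (continuous_coe.measurable.comp (meas_sl g)))).mul (((continuous_conj.comp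
        hG.holo.continuous).mul ((continuous_ofReal.comp
        UpperHalfPlane.continuous_im).pow 2)).measurable.comp (meas_sl g)))))
    (ae_restrict_of_forall_mem meas_fd fun z hz => by
      simp only [n, tsum_mul_left, tsum_mul_right]
      exact ⟨((tt_sum hν hB h _).mul_right _).mul_left _, by gcongr; exact e τ le_rfl z hz⟩)
  convert this using 1
  · funext D
    rw [← integral_mul_const]
    congr 1 with z
    rw [← tsum_mul_right, ← tsum_mul_right]
    refine tsum_congr fun l => ?_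
    have y : ((g • z).im : ℂ) ≠ 0 := ofReal_ne_zero.2 (g • z).im_ne_zero
    have d : disc l.1 = D := l.2
    simp only [F, tt, gau, map_mul, map_div₀, map_pow, conj_ofReal, conj_conj, conj_evq, hr,
      conj_ee, map_neg, map_intCast, map_ofNat, map_natCast, d, coe_im, ofReal_mul, neg_mul,
      neg_div, neg_neg]
    field_simp
  · rw [← integral_conj, ← integral_const_mul]
    congr 1 with z
    simp only [F, pp, tsum_mul_left, ← conj_tsum, tsum_mul_right]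

variable [NeZero N] {δ δ₁ : ℕ} {ρ : ZMod (2 * N)}

theorem ph_bd (P : PHI) (ok : Ok N δ) : ∃ B : ℝ, ∀ r l, ‖(ph N δ r l : ℂ)‖ ≤ B := by
  have : NeZero (N * δ) := ⟨mul_ne_zero (NeZero.ne N) (zero_lt_one.trans ok.one).ne'⟩
  choose B a b using fun r => per_bdd ((P N δ ok).1 r)
  exact ⟨∑ r, B r, fun r l => (b r l).trans
    (Finset.single_le_sum (fun r _ => a r) (Finset.mem_univ r))⟩

theorem sn_sum (hA : WA) (P : PHI) (du : Dual δ δ₁ ρ) (hG : S2 N G) (r : ZMod (2 * N)) {τ : ℂ}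
    (h : 0 < τ.im) : HasSum (fun n : ℕ => sn δ₁ ρ G n r * ee (n * τ / (4 * N)))
      (√τ.im * conj (iX N (pp (N * δ₁) (fun l => ph N δ₁ (ρ * r) l) G τ))) := by
  have d0 : 0 < δ₁ := zero_lt_one.trans du.ok1.one
  have hν : 0 < N * δ₁ := mul_pos (NeZero.pos N) d0
  obtain ⟨B, hB⟩ := ph_bd P du.ok1
  obtain ⟨p1, -, -, -, p5, -⟩ := P N δ₁ du.ok1
  have A := hA N _ _ G (NeZero.pos N) hν (p1 (ρ * r)) (by simp [Hd.ph_zero du.ok1.one])
    (fun γ hγ l => by rw [p5 _ l γ hγ]) hG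
  have := (Function.Injective.hasSum_iff (g := fun n : ℕ => (δ₁ : ℤ) * n) (fun a b e => by
    simpa [d0.ne'] using e) fun D hD => ?_).2
    (expa hν (hB (ρ * r)) (fun l => by simp) h (NeZero.pos N) hG)
  · convert this using 2 with n
    simp only [Function.comp, sn, (A _ _ h).1]
    congr 2
    have : (δ₁ : ℂ) ≠ 0 := Nat.cast_ne_zero.2 d0.ne'
    push_cast
    field_simp
  · rcases le_or_gt D 0 with k | k
    · rw [(A D _ h).2 k, zero_mul]
    · refine mul_eq_zero_of_left ?_ _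
      have : ∀ l : {l : Fm // disc l = D}, ph N δ₁ (ρ * r) l = 0 := fun l => by
        by_contra e
        obtain ⟨m, hm⟩ := (Hd.ph_ne e).2.2.1
        rw [l.2] at hm
        have : 0 ≤ m := by
          by_contra q
          have : (δ₁ : ℤ) * m ≤ 0 := mul_nonpos_of_nonneg_of_nonpos (by positivity) (by omega)
          omega
        exact hD ⟨m.toNat, by simp [hm, Int.toNat_of_nonneg this]⟩
      simp [sc, iX, this]

theorem sm_dual (P : PHI) (du : Dual δ δ₁ ρ) (r t : ZMod (2 * N)) :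
    I * conj (sm N δ₁ (ρ * r) (ρ * t)) = sm N δ r t := by
  have k := (Du.kp P du.ok1).nm
  have k1 : I * conj (kap N δ₁) = kap N δ := by
    linear_combination (-conj (kap N δ₁)) * du.kp + kap N δ * k
  have a := ZMod.coe_mul_inv_eq_one δ (Du.cop2 du.ok)
  have b := ZMod.coe_mul_inv_eq_one δ₁ (Du.cop2 du.ok1)
  have c : ρ ^ 2 * δ + δ₁ = 0 := by
    have := (ZMod.intCast_zmod_eq_zero_iff_dvd _ (2 * N)).2
      (Dvd.dvd.trans ⟨2, by push_cast; ring⟩ du.sq)
    simpa using this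
  rw [sm, sm, map_mul, Du.conj_std, ← mul_assoc, k1]
  congr 2
  linear_combination (r * t * (δ : ZMod (2 * N))⁻¹ * (δ₁ : ZMod (2 * N))⁻¹) * c -
    (r * t * ρ ^ 2 * (δ₁ : ZMod (2 * N))⁻¹) * a - (r * t * (δ : ZMod (2 * N))⁻¹) * b

theorem pp_law (P : PHI) (T : THS) (du : Dual δ δ₁ ρ) (G : ℍ → ℂ) (r : ZMod (2 * N)) {τ : ℂ}
    (h : 0 < τ.im) (w : ℍ) : pp (N * δ₁) (fun l => ph N δ₁ (ρ * r) l) G (-1 / τ) w =
      -(τ * hw τ)⁻¹ * ‖τ‖ ^ 4 * ∑ t, sm N δ₁ (ρ * r) (ρ * t) *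
        pp (N * δ₁) (fun l => ph N δ₁ (ρ * t) l) G τ w := by
  have hν : 0 < N * δ₁ := mul_pos (NeZero.pos N) (zero_lt_one.trans du.ok1.one)
  obtain ⟨B, hB⟩ := ph_bd P du.ok1
  obtain ⟨p1, p2, -⟩ := P N δ₁ du.ok1
  obtain ⟨u, rfl⟩ := du.un
  have a := (T _ _ hν (p1 (u * r)) τ w h w.im_pos).2
  have b : ∑' l, tt (N * δ₁) (ft (N * δ₁) fun l => ph N δ₁ (u * r) l) τ w l =
      ∑ t, sm N δ₁ (u * r) (u * t) * ∑' l, tt (N * δ₁) (fun l => ph N δ₁ (u * t) l) τ w l := by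
    simp only [← tsum_mul_left]
    rw [← Summable.tsum_finsetSum fun t _ => ((tt_sum hν (hB (u * t)) h w).of_norm.mul_left _)]
    refine tsum_congr fun l => ?_
    simp only [tt, p2, ← mul_assoc, ← Finset.sum_mul]
    congr 2
    exact (Equiv.sum_comp u.mulLeft fun s => sm N δ₁ (u * r) s * ph N δ₁ s l).symm
  have n := Du.ne0 h
  have v : (τ.im : ℂ) ≠ 0 := ofReal_ne_zero.2 h.ne'
  have n' : (‖τ‖ : ℂ) ≠ 0 := by simpa using n
  have i : ((-1 / τ).im : ℂ) = τ.im / ‖τ‖ ^ 2 := by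
    rw [div_im, normSq_eq_norm_sq]
    simp [neg_div]
  have th : ∀ (φ : Fm → ℂ) (τ : ℂ), th1 (N * δ₁) φ τ w = τ.im ^ 2 * ∑' l, tt (N * δ₁) φ τ w l :=
    fun _ _ => rfl
  rw [th, th, b, i] at a
  simp only [pp, ← mul_assoc _ _ (conj (G w) * _), ← Finset.sum_mul]
  congr 1
  generalize ∑' l, tt (N * δ₁) (fun l => ph N δ₁ (u * r) l) (-1 / τ) w l = X at a ⊢
  generalize ∑ t, sm N δ₁ (u * r) (u * t) *
    ∑' l, tt (N * δ₁) (fun l => ph N δ₁ (u * t) l) τ w l = Y at a ⊢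
  have := Du.hw_ne h
  field_simp at a ⊢
  exact a

end Wx

open Wx

theorem wb : WB := by
  intro hA P T _ _ N _ δ δ₁ ρ G du hG
  have hN := NeZero.pos N
  have hν : 0 < N * δ₁ := mul_pos hN (zero_lt_one.trans du.ok1.one)
  have := Subgroup.fintypeQuotientOfFiniteIndex (H := Gamma0 N)
  obtain ⟨B, hB⟩ := ph_bd P du.ok1
  have S := fun r τ h => sn_sum hA P du hG r (τ := τ) h
  have S' : ∀ r (τ : ℂ), 0 < τ.im → fn (sn δ₁ ρ G) r τ = _ := fun r τ h => (S r τ h).tsum_eq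
  refine ⟨⟨fun r => ?_, fun n r e => ?_, fun r τ h => (S r τ h).summable.norm, fun τ h r => ?_⟩,
    fun y hy => ?_⟩
  · obtain ⟨p1, -, -, -, p5, -⟩ := P N δ₁ du.ok1
    exact (hA N _ _ G hN hν (p1 (ρ * r)) (by simp [Hd.ph_zero du.ok1.one])
      (fun γ hγ l => by rw [p5 _ l γ hγ]) hG _ 1 one_pos).2 (by simp)
  · obtain ⟨l, hl⟩ : ∃ l : {l : Fm // disc l = δ₁ * n}, ph N δ₁ (ρ * r) l ≠ 0 := by
      by_contra q
      push Not at q
      exact e (by simp [sn, sc, iX, q])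
    obtain ⟨⟨a, ha⟩, hb, -⟩ := Hd.ph_ne hl
    have co : ρ.val.Coprime (2 * N) := by
      rw [← ZMod.isUnit_iff_coprime, ZMod.natCast_zmod_val]
      exact du.un
    have e1 := Du.in_int (N := N) (δ := δ) ((ρ.val : ℤ) ^ 2 * n) l.1.2.1
    have c4 : IsCoprime (4 * N : ℤ) ((ρ.val : ℤ) ^ 2) := by
      have h2 : ρ.val.Coprime (2 * (2 * N)) := co.coprime_mul_right_right.mul_right co
      have := Nat.isCoprime_iff_coprime.2 (h2.pow_left 2).symm
      push_cast at this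
      rwa [← mul_assoc, show (2 * 2 : ℤ) = 4 by norm_num] at this
    obtain ⟨k, hk⟩ := du.sq
    have d := l.2
    rw [disc, ha] at d
    have e2 := e1.2 ⟨a * l.1.2.2 + k * n, by linear_combination d + n * hk⟩
    rw [hb, show ρ * r = ((ρ.val * r.val : ℤ) : ZMod (2 * N)) by simp, Du.in_int] at e2
    refine c4.dvd_of_dvd_mul_left ?_
    rwa [show (ρ.val : ℤ) ^ 2 * ((r.val : ℤ) ^ 2 + δ * n) =
      (ρ.val * r.val) ^ 2 + δ * (ρ.val ^ 2 * n) by ring]
  · rw [S' r _ (Du.im_S h)]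
    simp only [S' _ _ h, iX, finsum_eq_sum_of_fintype, pp_law P T du G r h, integral_const_mul]
    simp only [fun q : SL(2, ℤ) ⧸ Gamma0 N => integral_finsetSum Finset.univ fun t _ =>
      (pp_int hν (hB (ρ * t)) h hN hG q.out⁻¹).const_mul (sm N δ₁ (ρ * r) (ρ * t)),
      integral_const_mul, ← Finset.mul_sum]
    rw [Finset.sum_comm]
    simp only [← Finset.mul_sum, map_mul, map_sum (starRingEnd ℂ) _ (Finset.univ (α := ZMod _)),
      ← sm_dual P du]
    have i : √(-1 / τ).im = √τ.im / ‖τ‖ := by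
      rw [div_im, normSq_eq_norm_sq]
      simp [neg_div, Real.sqrt_div h.le]
    have n := Du.ne0 h
    have n' : (‖τ‖ : ℂ) ≠ 0 := by simpa using n
    have a := Du.hw_ne h
    have a' : conj (hw τ) ≠ 0 := by simpa using a
    have n'' : conj τ ≠ 0 := by simpa using n
    have b := Du.hw_conj (τ := τ)
    have c := Du.hw_sq (τ := τ)
    have d : τ * conj τ = ‖τ‖ ^ 2 := by rw [mul_conj, normSq_eq_norm_sq]; push_cast; rfl
    rw [i, Finset.mul_sum, Finset.mul_sum, Finset.mul_sum]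
    refine Finset.sum_congr rfl fun t _ => ?_
    simp only [map_neg, map_inv₀, map_mul, map_pow, conj_ofReal, ofReal_div]
    have k : -((‖τ‖ : ℂ) ^ 4 / ‖τ‖ / (conj τ * conj (hw τ))) = τ ^ 2 / hw τ * I := by
      rw [pow_succ, mul_div_cancel_right₀ _ n', pow_succ, ← d, ← b]
      field_simp
      rw [c]
      field_simp
      simp
    linear_combination (exp := 1) (√τ.im * conj (sm N δ₁ (ρ * r) (ρ * t)) * conj (∑ q :
      SL(2, ℤ) ⧸ Gamma0 N, ∫ z in 𝒟, pp (N * δ₁) (fun l => ph N δ₁ (ρ * t) l) G τ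
        (q.out⁻¹ • z))) * k
  · obtain ⟨A, A0, fb⟩ := Du.Pe.fn_le hy
    have mF := Sk.closed_FD.measurableSet
    have fi : ∀ r, IntegrableOn (fn y r) FD := fun r =>
      Du.Pe.int_FD (Du.Pe.c_pos (N := N)) (Du.Pe.fn_dec hy r).diff.continuousOn (fb r)
    have J : ∀ r (g : SL(2, ℤ)), Integrable (fun p : ℂ × ℍ => fn y r p.1 *
        pp (N * δ₁) (fun l => ph N δ₁ (ρ * r) l) G p.1 (g • p.2))
        ((volume.restrict FD).prod (volume.restrict 𝒟)) := by
      intro r g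
      obtain ⟨C, e⟩ := pp_le' hν (hB (ρ * r)) one_half_pos hN hG g
      refine ((fi r).comp_fst _).mul_bdd (c := C) ((meas_pp _ _ hG.holo.continuous).comp
        (measurable_fst.prodMk ((meas_sl g).comp measurable_snd))).aestronglyMeasurable ?_
      rw [Measure.prod_restrict]
      exact ae_restrict_of_forall_mem (mF.prod meas_fd) fun p hp => e _ (Du.Pe.FD_im hp.1) _ hp.2
    have e1 : pet (fn y) (fn (sn δ₁ ρ G)) = ∫ τ in FD, ∑ q : SL(2, ℤ) ⧸ Gamma0 N, ∑ r,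
        ∫ z in 𝒟, fn y r τ * pp (N * δ₁) (fun l => ph N δ₁ (ρ * r) l) G τ (q.out⁻¹ • z) := by
      refine setIntegral_congr_fun mF fun τ h => ?_
      have h := h.2.2
      have s : (√τ.im : ℂ) * (τ.im ^ (-(1 / 2) : ℝ) : ℝ) = 1 := by
        rw [← ofReal_mul, Real.sqrt_eq_rpow, ← Real.rpow_add h]
        simp
      simp only [S' _ _ h, map_mul, conj_conj, conj_ofReal, iX, finsum_eq_sum_of_fintype,
        integral_const_mul]
      rw [Finset.sum_comm, Finset.sum_mul]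
      refine Finset.sum_congr rfl fun r _ => ?_
      rw [← Finset.mul_sum]
      linear_combination (fn y r τ * ∑ q : SL(2, ℤ) ⧸ Gamma0 N, ∫ z in 𝒟,
        pp (N * δ₁) (fun l => ph N δ₁ (ρ * r) l) G τ (q.out⁻¹ • z)) * s
    rw [e1, integral_finsetSum _ fun q _ => integrable_finsetSum _ fun r _ =>
      (J r _).integral_prod_left, pet2, finsum_eq_sum_of_fintype]
    refine Finset.sum_congr rfl fun q _ => ?_
    generalize q.out⁻¹ = g
    rw [integral_finsetSum _ fun r _ => (J r g).integral_prod_left,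
      int_FD fun z => petersson 2 G (shi δ₁ ρ y) (g • ofComplex z),
      Finset.sum_congr rfl fun r _ => integral_integral_swap (J r g),
      ← integral_finsetSum _ fun r _ => (J r g).integral_prod_right]
    refine integral_congr_ae ?_
    filter_upwards [ae_all_iff.2 fun r => (J r g).prod_left_ae] with z hz
    rw [← integral_finsetSum _ fun r _ => hz r, ofComplex_apply, petersson, shi, mul_right_comm,
      ← integral_const_mul]
    refine setIntegral_congr_fun mF fun τ h => ?_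
    have v : (τ.im : ℂ) ≠ 0 := ofReal_ne_zero.2 h.2.2.ne'
    simp only [pp, tt, th1, Finset.sum_div, Finset.mul_sum, zpow_ofNat]
    refine Finset.sum_congr rfl fun r _ => ?_
    field_simp

end Vale.Agent.P004Z.Lf
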