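import Vale.Agent.P004Z.Lf.Wx
import Vale.Agent.P004Z.Lf.St

/-! # P004Z, block G4: the row `WA` -/

open UpperHalfPlane hiding I
open Complex MeasureTheory Filter Set CongruenceSubgroup
open scoped MatrixGroups Modular Real ComplexConjugate Topology ModularForm Manifold

noncomputable section

namespace Vale.Agent.P004Z.Lf

open P004N (S2)

namespace Wx

/-- profiles -/
structure Pf (D : ℤ) (ψ : Fm → ℂ) (k k' : ℝ → ℝ) : Prop where
  bd : ∃ B, ∀ l, ‖ψ l‖ ≤ B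
  sup : ∀ l, ψ l ≠ 0 → disc l = D
  cont : Continuous k'
  dec : ∃ C c : ℝ, 0 < c ∧ ∀ p, |k p| ≤ C * Real.exp (-(c * p ^ 2)) ∧
    |k' p| ≤ C * Real.exp (-(c * p ^ 2))

def Dr (ψ : Fm → ℂ) (k k' : ℝ → ℝ) : Prop :=
  ∀ l (z : ℍ), ψ l ≠ 0 → HasDerivAt k (k' (pz l z)) (pz l z)

def Hs (ψ : Fm → ℂ) (k : ℝ → ℝ) (z : ℂ) : ℂ := ∑' l, ψ l * k (pz l z)

def Kq (ψ : Fm → ℂ) (k' : ℝ → ℝ) (z : ℂ) : ℂ := ∑' l, ψ l * k' (pz l z) * evq l z

variable {D : ℤ} {ψ : Fm → ℂ} {k k' : ℝ → ℝ}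

theorem Pf.act (h : Pf D ψ k k') (g : SL(2, ℤ)) : Pf D (fun l => ψ (fa l g⁻¹)) k k' where
  bd := h.bd.imp fun _ e _ => e _
  sup l e := (Hd.disc_fa l g⁻¹).symm.trans (h.sup _ e)
  cont := h.cont
  dec := h.dec

theorem Dr.act (h : Dr ψ k k') (g : SL(2, ℤ)) : Dr (fun l => ψ (fa l g⁻¹)) k k' := fun l z e => by
  have := h _ (g • z) e
  rwa [Hd.pz_fa, inv_smul_smul] at this

theorem hs_act (ψ : Fm → ℂ) (k : ℝ → ℝ) (g : SL(2, ℤ)) (z : ℍ) :
    Hs ψ k (g • z : ℍ) = Hs (fun l => ψ (fa l g⁻¹)) k z := by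
  rw [Hs, Hs, ← (faE g).tsum_eq fun l => ψ (fa l g⁻¹) * k (pz l z)]
  exact tsum_congr fun l => by simp only [faE, Equiv.coe_fn_mk, Hd.fa_inv, Hd.pz_fa]

theorem kq_act (ψ : Fm → ℂ) (k : ℝ → ℝ) (G : ℍ → ℂ) (g : SL(2, ℤ)) (z : ℍ) :
    Kq ψ k (g • z : ℍ) * G (g • z) = Kq (fun l => ψ (fa l g⁻¹)) k z * (G ∣[(2 : ℤ)] g) z := by
  rw [Kq, Kq, ← (faE g).tsum_eq fun l => ψ (fa l g⁻¹) * k (pz l z) * evq l z, sl_ap,
    ← tsum_mul_right, ← tsum_mul_right]
  refine tsum_congr fun l => ?_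
  have := Hd.den_ne g z
  simp only [faE, Equiv.coe_fn_mk, Hd.fa_inv, Hd.pz_fa, Hd.evq_fa]
  field_simp

theorem Pf.tm (h : Pf D ψ k k') : ∃ C t : ℝ, 0 ≤ C ∧ 0 < t ∧ ∀ l (z : ℍ),
    ‖ψ l * k (pz l z)‖ ≤ C * Real.exp (-(t * mj l z)) ∧
    ‖ψ l * k' (pz l z) * evq l z‖ ≤ C * z.im * Real.exp (-(t * mj l z)) := by
  obtain ⟨B, hB⟩ := h.bd
  obtain ⟨C, c, hc, e⟩ := h.dec
  have B0 : 0 ≤ B := (norm_nonneg _).trans (hB 0)
  have C0 : 0 ≤ C := by simpa using (abs_nonneg _).trans (e 0).1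
  refine ⟨B * C * Real.exp (c / 2 * D) * (Real.exp (c / 4) / (c / 4)), c / 4, by positivity,
    by positivity, fun l z => ?_⟩
  have y0 := z.im_pos
  by_cases e0 : ψ l = 0
  · simp only [e0, zero_mul, norm_zero]
    constructor <;> positivity
  have m := mj_nonneg l z
  have e1 : Real.exp (-(c * pz l z ^ 2)) =
      Real.exp (c / 2 * D) * Real.exp (-(2 * (c / 4) * mj l z)) := by
    rw [← Real.exp_add, mj, h.sup l e0]
    congr 1
    ring
  have e2 := one_mj (t := c / 4) (by positivity) l z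
  have e3 : ∀ x : ℝ, |x| ≤ C * Real.exp (-(c * pz l z ^ 2)) → ‖ψ l * x‖ * (1 + mj l z) ≤
      B * C * Real.exp (c / 2 * D) * (Real.exp (c / 4) / (c / 4)) *
        Real.exp (-(c / 4 * mj l z)) := by
    intro x hx
    rw [norm_mul, norm_real, Real.norm_eq_abs]
    calc _ ≤ B * (C * Real.exp (-(c * pz l z ^ 2))) * (1 + mj l z) := by gcongr; exact hB l
      _ = B * C * Real.exp (c / 2 * D) * ((1 + mj l z) * Real.exp (-(2 * (c / 4) * mj l z))) := by
        rw [e1]; ring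
      _ ≤ _ := (mul_le_mul_of_nonneg_left e2 (by positivity)).trans_eq (by ring)
  refine ⟨le_trans (le_mul_of_one_le_right (norm_nonneg _) (by linarith)) (e3 _ (e _).1), ?_⟩
  rw [norm_mul, mul_right_comm _ z.im]
  refine le_trans ?_ (mul_le_mul_of_nonneg_right (e3 _ (e _).2) y0.le)
  rw [mul_assoc _ _ z.im, mul_comm _ z.im]
  exact mul_le_mul_of_nonneg_left (evq_le l z) (norm_nonneg _)

theorem Pf.le (h : Pf D ψ k k') : ∃ C t : ℝ, 0 ≤ C ∧ 0 < t ∧ ∀ z : ℍ,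
    ‖Hs ψ k z‖ ≤ C * ms t z ∧ ‖Kq ψ k' z‖ ≤ C * z.im * ms t z := by
  obtain ⟨C, t, hC, ht, e⟩ := h.tm
  exact ⟨C, t, hC, ht, fun z =>
    ⟨tsum_of_norm_bounded ((ms_sum ht z).hasSum.mul_left C) fun l => (e l z).1,
      tsum_of_norm_bounded ((ms_sum ht z).hasSum.mul_left _) fun l => (e l z).2⟩⟩

theorem Pf.reg (h : Pf D ψ k k') {w : ℂ} (hw : 0 < w.im) : ContinuousAt (Kq ψ k') w ∧
    (Dr ψ k k' → ContDiffAt ℝ 1 (Hs ψ k) w ∧ Lo (Hs ψ k) w = -Kq ψ k' w / w.im ^ 2) := by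
  obtain ⟨C, t, hC, ht, e⟩ := h.tm
  obtain ⟨r, W, hr, hW, n⟩ := near hw
  let d : Fm → ℂ → ℂ →L[ℝ] ℂ := fun l z => (ψ l * k' (pz l z)) • ofRealCLM.comp (dp l z)
  have sub : Metric.ball w r ⊆ {z | 0 < z.im} := fun z hz => (n z hz).1
  have c0 : ∀ l, ContinuousOn (fun z => ψ l * k' (pz l z)) (Metric.ball w r) := fun l =>
    continuousOn_const.mul (continuous_ofReal.comp_continuousOn
      (h.cont.comp_continuousOn ((cont_pz l).mono sub)))
  have b2 : ∀ l z, z ∈ Metric.ball w r → ‖ψ l * k' (pz l z) * evq l z‖ ≤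
      C * z.im * Real.exp (-(t / W * nq l)) := fun l z hz =>
    (e l ⟨z, sub hz⟩).2.trans (mul_le_mul_of_nonneg_left (mj_le ht.le (n z hz).2.1 l)
      (mul_nonneg hC (sub hz).le))
  refine ⟨?_, fun hd => ?_⟩
  · refine (continuousOn_tsum (fun l => (c0 l).mul (cont_evq l).continuousOn)
      ((sum0 (div_pos ht hW)).mul_left (C * W)) fun l z hz => (b2 l z hz).trans ?_).continuousAt
      (Metric.ball_mem_nhds w hr)
    gcongr
    exact (n z hz).2.2.1
  have h1 : ∀ l z, z ∈ Metric.ball w r → HasFDerivAt (fun z => ψ l * k (pz l z)) (d l z) z := by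
    intro l z hz
    by_cases e0 : ψ l = 0
    · have : d l z = 0 := by
        ext u
        simp [d, e0]
      simp only [this, e0, zero_mul]
      exact hasFDerivAt_const (0 : ℂ) z
    have := (ofRealCLM.hasFDerivAt.comp z ((hd l ⟨z, sub hz⟩ e0).comp_hasFDerivAt z
      (pz_der l (ne_of_gt (sub hz))))).const_mul (ψ l)
    refine this.congr_fderiv ?_
    ext u
    simp [d, mul_assoc]
  have h2 : ∀ l z, z ∈ Metric.ball w r → ‖d l z‖ ≤ 2 * C * W * Real.exp (-(t / W * nq l)) := by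
    intro l z hz
    have y0 : 0 < z.im := sub hz
    have a : ‖ofRealCLM.comp (dp l z)‖ ≤ 2 * ‖evq l z‖ / z.im ^ 2 :=
      (ContinuousLinearMap.opNorm_comp_le _ _).trans (by
        rw [ofRealCLM_norm, one_mul]; exact norm_dp l z)
    have b := b2 l z hz
    rw [norm_mul] at b
    calc ‖d l z‖ ≤ ‖ψ l * k' (pz l z)‖ * (2 * ‖evq l z‖ / z.im ^ 2) := by
          rw [norm_smul]; gcongr
      _ = 2 * (‖ψ l * k' (pz l z)‖ * ‖evq l z‖) / z.im ^ 2 := by ring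
      _ ≤ 2 * (C * z.im * Real.exp (-(t / W * nq l))) / z.im ^ 2 := by gcongr
      _ = 2 * C * z.im⁻¹ * Real.exp (-(t / W * nq l)) := by field_simp
      _ ≤ _ := by gcongr; exact (n z hz).2.2.2
  have su := (sum0 (div_pos ht hW)).mul_left (2 * C * W)
  have h3 : ∀ z ∈ Metric.ball w r, HasFDerivAt (Hs ψ k) (∑' l, d l z) z := fun z hz =>
    hasFDerivAt_tsum_of_isPreconnected su Metric.isOpen_ball (convex_ball w r).isPreconnected h1 h2
      (Metric.mem_ball_self hr) (.of_norm_bounded ((ms_sum ht ⟨w, hw⟩).mul_left C)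
        fun l => (e l ⟨w, hw⟩).1) hz
  have w0 := Metric.mem_ball_self (x := w) hr
  refine ⟨contDiffAt_one_iff.2 ⟨_, _, Metric.ball_mem_nhds w hr, continuousOn_tsum (fun l =>
    (c0 l).fun_smul (continuousOn_const.clm_comp ((cont_dp l).mono sub))) su h2, h3⟩, ?_⟩
  · have s : Summable fun l => d l w := .of_norm_bounded su fun l => h2 l w w0
    have ap : ∀ u, HasSum (fun l => d l w u) ((∑' l, d l w) u) := fun u =>
      s.hasSum.mapL (ContinuousLinearMap.apply ℝ ℂ u)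
    rw [Lo, (h3 w w0).fderiv, ← ((ap I).sub ((ap 1).mul_left I)).tsum_eq, Kq, ← tsum_neg,
      ← tsum_div_const]
    refine tsum_congr fun l => ?_
    have q := (re_add_im (evq l w)).symm
    simp only [d, dp, smul_apply, ContinuousLinearMap.comp_apply, add_apply, reCLM_apply,
      imCLM_apply, Complex.I_re, Complex.I_im, one_re, one_im,
      smul_eq_mul, mul_zero, mul_one, zero_add, add_zero, ofRealCLM_apply]
    push_cast
    linear_combination (ψ l * k' (pz l w) / (w.im : ℂ) ^ 2) * q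

theorem oH : IsOpen {z : ℂ | 0 < z.im} := isOpen_lt continuous_const continuous_im

/-- Stokes for forms of level one with decay -/
theorem stk0 {f : ℍ → ℂ} (hf : ∀ σ : SL(2, ℤ), f ∣[(2 : ℤ)] σ = f)
    (c1 : ContDiffOn ℝ 1 (f ∘ ofComplex) {z | 0 < z.im}) {C c : ℝ} (hc : 0 < c)
    (hb : ∀ z : ℍ, |z.re| ≤ 1 / 2 → 1 / 2 ≤ z.im → ‖f z‖ ≤ C * Real.exp (-(c * z.im)))
    (hi : IntegrableOn (Lo (f ∘ ofComplex)) FD) : ∫ z in FD, Lo (f ∘ ofComplex) z = 0 := by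
  have s := stk (f ∘ ofComplex) c1 fun τ hτ => by
    have a := congrFun (hf ModularGroup.T) ⟨τ, hτ⟩
    have b := congrFun (hf ModularGroup.S) ⟨τ, hτ⟩
    have n : τ ≠ 0 := fun e => by simp [e] at hτ
    rw [sl_ap] at a b
    simp only [Function.comp, ofComplex_apply_of_im_pos hτ]
    constructor
    · rw [← a, ← ofComplex_apply (ModularGroup.T • _), Hd.coe_sm]
      simp [ModularGroup.T]
    · rw [← b, ← ofComplex_apply (ModularGroup.S • _), Hd.coe_sm]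
      simp [ModularGroup.S]
      field_simp
  have u : ⋃ T : ℝ, FT T = FD := by
    ext z
    exact ⟨fun h => (mem_iUnion.1 h).elim fun _ e => e.1, fun h => mem_iUnion.2 ⟨z.im, h, le_refl z.im⟩⟩
  have t1 := tendsto_setIntegral_of_monotone (μ := volume) (f := Lo (f ∘ ofComplex))
    (fun T : ℝ => (Sk.compact_FT T).measurableSet)
    (fun a b e z h => ⟨h.1, le_trans h.2 e⟩) (by rwa [u])
  rw [u] at t1
  refine tendsto_nhds_unique t1 (squeeze_zero_norm' (a := fun T => C * Real.exp (-(c * T))) ?_ ?_)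
  · filter_upwards [eventually_ge_atTop 1] with T hT
    rw [s T hT]
    refine (intervalIntegral.norm_integral_le_of_norm_le_const
      (C := C * Real.exp (-(c * T))) fun u hu => ?_).trans_eq (by norm_num)
    have p : 0 < ((u : ℂ) + I * T).im := by simp; linarith
    rw [uIoc_of_le (by norm_num)] at hu
    simpa [Function.comp, ofComplex_apply_of_im_pos p] using hb ⟨_, p⟩
      (by simpa using abs_le.2 ⟨hu.1.le, hu.2⟩) (by simp; linarith)
  · simpa using (Real.tendsto_exp_neg_atTop_nhds_zero.comp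
      (tendsto_id.const_mul_atTop hc)).const_mul C

theorem lo_mul {H G : ℂ → ℂ} {z : ℂ} (h : DifferentiableAt ℝ H z) (g : DifferentiableAt ℂ G z) :
    Lo (fun z => H z * G z) z = Lo H z * G z := by
  have a := (h.hasFDerivAt.mul (g.hasDerivAt.hasFDerivAt.restrictScalars ℝ)).fderiv
  rw [Lo, Lo]
  erw [a]
  simp
  ring

theorem sl_out {Γ : Subgroup SL(2, ℤ)} {f : ℍ → ℂ} (hf : ∀ γ ∈ Γ, f ∣[(2 : ℤ)] γ = f)
    (σ : SL(2, ℤ)) (q : SL(2, ℤ) ⧸ Γ) :
    (f ∣[(2 : ℤ)] q.out⁻¹) ∣[(2 : ℤ)] σ = f ∣[(2 : ℤ)] (σ⁻¹ • q).out⁻¹ := by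
  obtain ⟨γ, e⟩ := QuotientGroup.mk_out_eq_mul Γ (σ⁻¹ * q.out)
  have : σ⁻¹ • q = ((σ⁻¹ * q.out : SL(2, ℤ)) : SL(2, ℤ) ⧸ Γ) := by
    conv_lhs => rw [← q.out_eq']
    rfl
  rw [this, e, mul_inv_rev, SlashAction.slash_mul, hf _ (inv_mem γ.2), ← SlashAction.slash_mul,
    mul_inv_rev, inv_inv]

theorem Pf.int (h : Pf D ψ k k') {N : ℕ} (hN : 0 < N) {G : ℍ → ℂ} (hG : S2 N G)
    (g : SL(2, ℤ)) : IntegrableOn (fun z : ℍ => Kq ψ k' z * (G ∣[(2 : ℤ)] g) z) 𝒟 := by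
  obtain ⟨C, t, hC, ht, e⟩ := h.le
  obtain ⟨A, c, hA, hc, b⟩ := key hN hG g ht
  refine Measure.integrableOn_of_bounded (M := C * A) P004N.T3.fd_finite.ne
    (Continuous.aestronglyMeasurable (.mul (continuous_iff_continuousAt.2 fun z =>
      (h.reg z.im_pos).1.comp continuous_coe.continuousAt)
      (P004N.T3.mdiff_slash hG g).continuous)) (ae_restrict_of_forall_mem meas_fd fun z hz => ?_)
  have y0 := z.im_pos
  have := ms_nonneg t z
  have x : Real.exp (-(c * z.im)) ≤ 1 := Real.exp_le_one_iff.2 (by rw [neg_nonpos]; positivity)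
  rw [norm_mul]
  calc _ ≤ C * (1 + z.im) * ms t z * ‖(G ∣[(2 : ℤ)] g) z‖ := by
        gcongr
        exact (e z).2.trans (by gcongr; linarith)
    _ = C * ((1 + z.im) * ms t z * ‖(G ∣[(2 : ℤ)] g) z‖) := by ring
    _ ≤ _ := mul_le_mul_of_nonneg_left
        ((b z hz.2 (fd_im hz).le).trans (mul_le_of_le_one_right hA x)) hC

/-- exact forms -/
theorem w0 (h : Pf D ψ k k') (hd : Dr ψ k k') {N : ℕ} (hN : 0 < N) (hψ : ∀ γ ∈ Gamma0 N, ∀ l, ψ (fa l γ) = ψ l)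
    {G : ℍ → ℂ} (hG : S2 N G) : iX N (fun z => Kq ψ k' z * G z) = 0 := by
  have : NeZero N := ⟨hN.ne'⟩
  have := Subgroup.fintypeQuotientOfFiniteIndex (H := Gamma0 N)
  let f : ℍ → ℂ := fun z => Hs ψ k z * G z
  have f1 : ∀ (g : SL(2, ℤ)) z, (f ∣[(2 : ℤ)] g) z =
      Hs (fun l => ψ (fa l g⁻¹)) k z * (G ∣[(2 : ℤ)] g) z := fun g z => by
    simp only [sl_ap, f, hs_act, mul_div_assoc]
  have f2 : ∀ γ ∈ Gamma0 N, f ∣[(2 : ℤ)] γ = f := fun γ hγ => funext fun z => by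
    simp only [f1, hG.slash γ hγ, hψ _ (inv_mem hγ), f]
  have dG : ∀ (g : SL(2, ℤ)) (z : ℂ), 0 < z.im →
      DifferentiableAt ℂ ((G ∣[(2 : ℤ)] g) ∘ ofComplex) z := fun g z hz =>
    (UpperHalfPlane.mdifferentiable_iff.1 (P004N.T3.mdiff_slash hG g)).differentiableAt (oH.mem_nhds hz)
  have f3 : ∀ (g : SL(2, ℤ)) (z : ℂ), 0 < z.im → (f ∣[(2 : ℤ)] g) ∘ ofComplex =ᶠ[𝓝 z]
      fun z => Hs (fun l => ψ (fa l g⁻¹)) k z * ((G ∣[(2 : ℤ)] g) ∘ ofComplex) z := by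
    intro g z hz
    filter_upwards [oH.mem_nhds hz] with u hu
    simp only [Function.comp, f1, ofComplex_apply_of_im_pos hu]
  have f4 : ∀ (g : SL(2, ℤ)) (z : ℂ), 0 < z.im → ContDiffAt ℝ 1 ((f ∣[(2 : ℤ)] g) ∘ ofComplex) z :=
    fun g z hz => ((((h.act g).reg hz).2 (hd.act g)).1.mul ((((UpperHalfPlane.mdifferentiable_iff.1
      (P004N.T3.mdiff_slash hG g)).contDiffOn oH).contDiffAt (oH.mem_nhds hz)).restrict_scalars
        ℝ)).congr_of_eventuallyEq (f3 g z hz)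
  let F : ℍ → ℂ := ∑ q : SL(2, ℤ) ⧸ Gamma0 N, f ∣[(2 : ℤ)] q.out⁻¹
  have F1 : F ∘ ofComplex = fun z => ∑ q : SL(2, ℤ) ⧸ Gamma0 N,
      ((f ∣[(2 : ℤ)] q.out⁻¹) ∘ ofComplex) z := funext fun z => Finset.sum_apply _ _ _
  let u : SL(2, ℤ) → ℂ → ℂ := fun g z =>
    Kq (fun l => ψ (fa l g⁻¹)) k' z * ((G ∣[(2 : ℤ)] g) ∘ ofComplex) z
  have F2 : ∀ z ∈ FD, Lo (F ∘ ofComplex) z =
      -∑ q : SL(2, ℤ) ⧸ Gamma0 N, u q.out⁻¹ z / z.im ^ 2 := by
    intro z hz
    have hz := hz.2.2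
    rw [Lo, F1, fderiv_fun_sum fun q _ => (f4 _ z hz).differentiableAt one_ne_zero]
    simp only [sum_apply, Finset.mul_sum, ← Finset.sum_sub_distrib,
      ← Finset.sum_neg_distrib]
    refine Finset.sum_congr rfl fun q _ => ?_
    rw [(f3 _ z hz).fderiv_eq]
    have r := ((h.act q.out⁻¹).reg hz).2 (hd.act _)
    refine (lo_mul (r.1.differentiableAt one_ne_zero) (dG _ z hz)).trans ?_
    rw [r.2]
    simp only [u]
    ring
  have iu : ∀ g, IntegrableOn (fun z => u g z / z.im ^ 2) FD := fun g => by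
    rw [FD_eq, intg_coe meas_fd]
    simpa only [u, Function.comp, ofComplex_apply] using (h.act g).int hN hG g
  have bd : ∀ g : SL(2, ℤ), ∃ C c : ℝ, 0 ≤ C ∧ 0 < c ∧ ∀ z : ℍ, |z.re| ≤ 1 / 2 → 1 / 2 ≤ z.im →
      ‖(f ∣[(2 : ℤ)] g) z‖ ≤ C * Real.exp (-(c * z.im)) := by
    intro g
    obtain ⟨C, t, hC, ht, e⟩ := (h.act g).le
    obtain ⟨A, c, hA, hc, b⟩ := key hN hG g ht
    refine ⟨C * A, c, by positivity, hc, fun z h1 h2 => ?_⟩
    have := ms_nonneg t z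
    rw [f1, norm_mul, mul_assoc]
    refine le_trans ?_ (mul_le_mul_of_nonneg_left (b z h1 h2) hC)
    rw [← mul_assoc]
    gcongr
    exact (e z).1.trans (by gcongr; nlinarith)
  choose C c hC hc bd using bd
  obtain ⟨q0, -, hq⟩ := Finset.exists_min_image Finset.univ
    (fun q : SL(2, ℤ) ⧸ Gamma0 N => c q.out⁻¹) Finset.univ_nonempty
  have mF := Sk.closed_FD.measurableSet
  have z0 := stk0 (f := F) (fun σ => by
      simp only [F, SlashAction.sum_slash, sl_out f2]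
      exact Equiv.sum_comp (MulAction.toPerm σ⁻¹)
        fun q : SL(2, ℤ) ⧸ Gamma0 N => f ∣[(2 : ℤ)] q.out⁻¹)
    (fun z hz => by
      rw [F1]
      exact (ContDiffAt.sum fun q _ => f4 _ z hz).contDiffWithinAt)
    (C := ∑ q : SL(2, ℤ) ⧸ Gamma0 N, C q.out⁻¹) (hc q0.out⁻¹) (fun z h1 h2 => by
      simp only [F]
      rw [Finset.sum_apply, Finset.sum_mul]
      refine norm_sum_le_of_le _ fun q _ => (bd _ z h1 h2).trans ?_
      have := hC q.out⁻¹
      have := z.im_pos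
      gcongr
      exact hq q (Finset.mem_univ _))
    ((integrableOn_congr_fun F2 mF).2 (integrable_finsetSum _ fun q _ => iu _).neg)
  rw [setIntegral_congr_fun mF F2, integral_neg, neg_eq_zero,
    integral_finsetSum _ fun q _ => iu _] at z0
  rw [iX, finsum_eq_sum_of_fintype, ← z0]
  refine Finset.sum_congr rfl fun q _ => ?_
  simp only [int_FD, kq_act, u, Function.comp, ofComplex_apply]

/-! ### the error function -/

def er (a t : ℝ) : ℝ := ∫ s in (0 : ℝ)..t, Real.exp (-a * s ^ 2)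

def tl (a t : ℝ) : ℝ :=
  er a t - (∫ s in Ioi (0 : ℝ), Real.exp (-a * s ^ 2)) * if 0 < t then 1 else -1

theorem er_der (a t : ℝ) : HasDerivAt (er a) (Real.exp (-a * t ^ 2)) t :=
  (Continuous.integral_hasStrictDerivAt (by fun_prop) 0 t).hasDerivAt

theorem er_neg (a t : ℝ) : er a (-t) = -er a t := by
  have := intervalIntegral.integral_comp_neg (a := 0) (b := t) fun s => Real.exp (-a * s ^ 2)
  simp only [neg_sq, neg_zero] at this
  rw [er, er, this, ← intervalIntegral.integral_symm]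

theorem tl_le {a : ℝ} (ha : 0 < a) (t : ℝ) :
    |tl a t| ≤ (∫ s : ℝ, Real.exp (-(a / 2) * s ^ 2)) * Real.exp (-(a / 2) * t ^ 2) := by
  have i1 := integrable_exp_neg_mul_sq ha
  have i2 := integrable_exp_neg_mul_sq (half_pos ha)
  have p : ∀ t : ℝ, 0 ≤ t → |er a t - ∫ s in Ioi (0 : ℝ), Real.exp (-a * s ^ 2)| ≤
      (∫ s : ℝ, Real.exp (-(a / 2) * s ^ 2)) * Real.exp (-(a / 2) * t ^ 2) := by
    intro t ht
    rw [← intervalIntegral.integral_interval_add_Ioi i1.integrableOn (b := t) i1.integrableOn, er,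
      sub_add_cancel_left, abs_neg, abs_of_nonneg (by positivity), ← integral_mul_const]
    refine (setIntegral_mono_on i1.integrableOn (i2.mul_const _).integrableOn measurableSet_Ioi
      fun s hs => ?_).trans (setIntegral_le_integral (i2.mul_const _)
        (Eventually.of_forall fun s => by positivity))
    rw [← Real.exp_add, Real.exp_le_exp]
    have : t ^ 2 ≤ s ^ 2 := pow_le_pow_left₀ ht (le_of_lt hs) 2
    nlinarith
  rw [tl]
  split_ifs with h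
  · simpa using p t h.le
  · have := p (-t) (by linarith)
    rw [er_neg, neg_sq, ← abs_neg] at this
    convert this using 2
    ring

theorem tl_der (a : ℝ) {t : ℝ} (h : t ≠ 0) : HasDerivAt (tl a) (Real.exp (-a * t ^ 2)) t := by
  rcases h.lt_or_gt with h | h
  · refine ((er_der a t).sub_const ((∫ s in Ioi (0 : ℝ), Real.exp (-a * s ^ 2)) * -1)
      ).congr_of_eventuallyEq ?_
    filter_upwards [eventually_lt_nhds h] with s hs
    rw [tl, if_neg hs.not_gt]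
  · refine ((er_der a t).sub_const ((∫ s in Ioi (0 : ℝ), Real.exp (-a * s ^ 2)) * 1)
      ).congr_of_eventuallyEq ?_
    filter_upwards [eventually_gt_nhds h] with s hs
    rw [tl, if_pos hs]

/-- the Gaussian profile -/
def gv (ν : ℕ) (v p : ℝ) : ℝ := √v * Real.exp (-π * v * p ^ 2 / ν)

theorem gv_eq (ν : ℕ) {v : ℝ} (hv : 0 < v) (p : ℝ) :
    gv ν v p = Real.exp (-(π / ν) * (√v * p) ^ 2) * √v := by
  rw [gv, mul_pow, Real.sq_sqrt hv.le, mul_comm]
  congr 2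
  ring

theorem gv_le {ν : ℕ} (hν : 0 < ν) {v : ℝ} (hv : 0 < v) : ∃ C : ℝ, ∀ c, c ≤ π / ν / 2 * v → ∀ p,
    |tl (π / ν) (√v * p)| ≤ C * Real.exp (-(c * p ^ 2)) ∧
      |gv ν v p| ≤ C * Real.exp (-(c * p ^ 2)) := by
  have a : 0 < π / ν := by positivity
  have i : 0 ≤ ∫ s : ℝ, Real.exp (-(π / ν / 2) * s ^ 2) := by positivity
  refine ⟨(∫ s : ℝ, Real.exp (-(π / ν / 2) * s ^ 2)) + √v, fun c hc p => ⟨(tl_le a _).trans ?_, ?_⟩⟩
  · refine mul_le_mul (by simp) ?_ (by positivity) (by positivity)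
    rw [Real.exp_le_exp, mul_pow, Real.sq_sqrt hv.le]
    nlinarith [sq_nonneg p]
  · rw [gv_eq ν hv, abs_of_nonneg (by positivity), mul_comm]
    refine mul_le_mul (by linarith) ?_ (by positivity) (by positivity)
    rw [Real.exp_le_exp, mul_pow, Real.sq_sqrt hv.le]
    have : 0 ≤ π / ν * v * p ^ 2 := by positivity
    nlinarith [sq_nonneg p]

/-- the part of discriminant `D` -/
def cut (D : ℤ) (φ : Fm → ℂ) : Fm → ℂ := fun l => if disc l = D then φ l else 0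

theorem sc_eq (N ν : ℕ) (φ : Fm → ℂ) (G : ℍ → ℂ) (D : ℤ) (v : ℝ) :
    sc N ν φ G D v = iX N fun z => Kq (cut D φ) (gv ν v) z * G z := by
  rw [sc]
  congr 2 with z
  rw [Kq]
  congr 1
  refine (tsum_subtype {l | disc l = D} fun l =>
    φ l * (√v * Real.exp (-π * v * pz l z ^ 2 / ν) : ℝ) * evq l z).trans (tsum_congr fun l => ?_)
  by_cases h : disc l = D <;> simp [cut, gv, h]

theorem pf_cut {φ : Fm → ℂ} (hφ : ∃ B, ∀ l, ‖φ l‖ ≤ B) (D : ℤ) (hc : Continuous k')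
    (hd : ∃ C c : ℝ, 0 < c ∧ ∀ p, |k p| ≤ C * Real.exp (-(c * p ^ 2)) ∧
      |k' p| ≤ C * Real.exp (-(c * p ^ 2))) : Pf D (cut D φ) k k' :=
  ⟨hφ.imp fun B e l => by
    rw [cut]
    split_ifs
    · exact e l
    · simpa using (norm_nonneg _).trans (e l), fun l e => by
    by_contra n
    exact e (if_neg n), hc, hd⟩

theorem cont_gv (ν : ℕ) (v : ℝ) : Continuous (gv ν v) := by unfold gv; fun_prop

theorem pf_gv {φ : Fm → ℂ} (hφ : ∃ B, ∀ l, ‖φ l‖ ≤ B) (D : ℤ) {ν : ℕ} (hν : 0 < ν) {v : ℝ}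
    (hv : 0 < v) : Pf D (cut D φ) (fun p => tl (π / ν) (√v * p)) (gv ν v) :=
  pf_cut hφ D (cont_gv ν v) ((gv_le hν hv).imp fun _ e => ⟨_, by positivity, e _ le_rfl⟩)

theorem pz_ne {l : Fm} (h : l ≠ 0) (hd : disc l ≤ 0) (z : ℍ) : pz l z ≠ 0 := by
  intro e
  have a := one_le_nq h
  have b := nq_le l z
  have c := wt_pos z
  have d : (disc l : ℝ) ≤ 0 := by exact_mod_cast hd
  rw [mj, e] at b
  nlinarith

end Wx

open Wx

theorem wa : WA := by
  intro N ν φ G hN hν hp h0 hi hG D v hv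
  have : NeZero ν := ⟨hν.ne'⟩
  have hb : ∃ B, ∀ l, ‖φ l‖ ≤ B := (per_bdd hp).imp fun _ e => e.2
  have ci : ∀ γ ∈ Gamma0 N, ∀ l, cut D φ (fa l γ) = cut D φ l := fun γ hγ l => by
    rw [cut, cut, Hd.disc_fa, hi γ hγ]
  have sv := Real.sqrt_pos.2 hv
  refine ⟨?_, fun hD => ?_⟩
  · obtain ⟨C, e⟩ := gv_le hν hv
    obtain ⟨C', e'⟩ := gv_le hν one_pos
    have p := pf_cut (k := fun p => tl (π / ν) (√v * p) - tl (π / ν) (√1 * p))
      (k' := fun p => gv ν v p - gv ν 1 p) hb D ((cont_gv ν v).sub (cont_gv ν 1))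
      ⟨C + C', min (π / ν / 2 * v) (π / ν / 2 * 1), by positivity, fun p => by
        have a := e _ (min_le_left _ (π / ν / 2 * 1)) p
        have b := e' _ (min_le_right (π / ν / 2 * v) _) p
        rw [add_mul]
        exact ⟨(abs_sub _ _).trans (add_le_add a.1 b.1), (abs_sub _ _).trans (add_le_add a.2 b.2)⟩⟩
    have z0 := w0 p (fun l z _ => by
      have a := ((er_der (π / ν) (√v * pz l z)).comp _ ((hasDerivAt_id _).const_mul √v)).sub
        (er_der (π / ν) (pz l z))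
      refine (a.congr_deriv ?_).congr_of_eventuallyEq (Eventually.of_forall fun p => ?_)
      · simp [gv_eq ν hv, gv_eq ν one_pos]
      · simp [tl, mul_pos_iff_of_pos_left sv]) hN ci hG
    have : NeZero N := ⟨hN.ne'⟩
    have := Subgroup.fintypeQuotientOfFiniteIndex (H := Gamma0 N)
    rw [sc_eq, sc_eq, ← sub_eq_zero, ← z0, iX, iX, iX]
    simp only [finsum_eq_sum_of_fintype, ← Finset.sum_sub_distrib, kq_act]
    refine Finset.sum_congr rfl fun q _ => ?_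
    have p1 := (pf_gv hb D hν hv).act q.out⁻¹
    have p2 := (pf_gv hb D hν one_pos).act q.out⁻¹
    rw [← integral_sub (p1.int hN hG _) (p2.int hN hG _)]
    congr 1 with z
    obtain ⟨_, _, -, t1, b1⟩ := p1.tm
    obtain ⟨_, _, -, t2, b2⟩ := p2.tm
    rw [← sub_mul, Kq, Kq, Kq, ← Summable.tsum_sub
      (.of_norm_bounded ((ms_sum t1 z).mul_left _) fun l => (b1 l z).2)
      (.of_norm_bounded ((ms_sum t2 z).mul_left _) fun l => (b2 l z).2)]
    congr 2 with l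
    push_cast
    ring
  · rw [sc_eq]
    refine w0 (pf_gv hb D hν hv) (fun l z e => ?_) hN ci hG
    have e1 : disc l = D := by
      by_contra n
      exact e (if_neg n)
    have e2 : l ≠ 0 := by
      rintro rfl
      exact e (by simp [cut, h0])
    have a := (tl_der (π / ν) (mul_ne_zero sv.ne' (pz_ne e2 (e1 ▸ hD) z))).comp _
      ((hasDerivAt_id _).const_mul √v)
    exact a.congr_deriv (by simp [gv_eq ν hv])

end Vale.Agent.P004Z.Lf
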