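import Vale.Agent.P004Z.Lf.Wc0
import Vale.Agent.P004Z.Lf.Wa
import Vale.Agent.P004Z.Lf.Wb
import Vale.Agent.P004Z.Hd.Dv
import Vale.Agent.P004Z.Th.Gs

/-! # P004Z, block G4: the row `WC` -/

open UpperHalfPlane hiding I
open Complex MeasureTheory Filter Set CongruenceSubgroup
open scoped MatrixGroups Modular Real ComplexConjugate Topology ModularForm NumberTheorySymbols

noncomputable section

namespace Vale.Agent.P004Z.Lf

open P004N (S2 QE RN)

namespace Wx

/-- forms of square discriminant: existence -/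
theorem sq_ex {δ : ℕ} (hδ : 0 < δ) {l : Fm} (h : disc l = δ * δ) :
    ∃ (g : SL(2, ℤ)) (j : Fin δ), fa l g = (0, (δ : ℤ), (j : ℤ)) := by
  have d0 : (0 : ℤ) < δ := by exact_mod_cast hδ
  have s3 : ∀ l : Fm, l.1 = 0 → l.2.1 = δ → ∃ (g : SL(2, ℤ)) (j : Fin δ),
      fa l g = (0, (δ : ℤ), (j : ℤ)) := by
    rintro ⟨a, b, c⟩ rfl rfl
    have a := Int.emod_nonneg c d0.ne'
    refine ⟨Hd.mk 1 (-(c / δ)) 0 1 (by simp), ⟨(c % δ).toNat, by
      have := Int.emod_lt_of_pos c d0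
      omega⟩, ?_⟩
    simp only [Hd.fa_mk, Hd.val, Int.toNat_of_nonneg a]
    rw [Int.emod_def]
    refine Prod.ext ?_ (Prod.ext ?_ ?_) <;> simp
    ring
  have s2 : ∀ l : Fm, disc l = δ * δ → l.1 = 0 → ∃ (g : SL(2, ℤ)) (j : Fin δ),
      fa l g = (0, (δ : ℤ), (j : ℤ)) := by
    rintro ⟨a, b, c⟩ h rfl
    have : b = δ ∨ b = -δ := sq_eq_sq_iff_eq_or_eq_neg.1 (by simpa [disc, sq] using h)
    rcases this with rfl | rfl
    · exact s3 _ rfl rfl
    obtain ⟨d, x, y, u, v, n, h1, h2, h3⟩ := pv (u := c) (v := δ) (.inr d0.ne')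
    obtain ⟨g, j, e⟩ := s3 (fa (0, -δ, c) (Hd.mk x (-v) y u (by linarith)))
      (by simp only [Hd.fa_mk, Hd.val]; rw [h1, h2]; ring)
      (by simp only [Hd.fa_mk]; rw [h1, h2]; linear_combination (y * d) * h3)
    exact ⟨_, j, by rw [← e, Hd.fa_fa]⟩
  by_cases a : l.1 = 0
  · exact s2 l h a
  obtain ⟨d, x, y, u, v, n, h1, h2, h3⟩ := pv (u := δ - l.2.1) (v := 2 * l.1) (.inr (by omega))
  obtain ⟨g, j, e⟩ := s2 (fa l (Hd.mk x (-v) y u (by linarith))) (by rw [Hd.disc_fa, h]) (by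
    simp only [Hd.fa_mk, Hd.val]
    refine mul_left_cancel₀ (mul_ne_zero n n) ?_
    rw [disc] at h
    linear_combination (-l.1 * (x * d + (δ - l.2.1)) - l.2.1 * (y * d)) * h1 -
      (l.2.1 * (δ - l.2.1) + l.2.2 * (y * d + 2 * l.1)) * h2 - l.1 * h)
  exact ⟨_, j, by rw [← e, Hd.fa_fa]⟩

/-- forms of square discriminant: uniqueness -/
theorem sq_uq {δ : ℕ} {j j' : Fin δ} {g : SL(2, ℤ)}
    (h : fa (0, (δ : ℤ), (j : ℤ)) g = (0, (δ : ℤ), (j' : ℤ))) : j = j' ∧ (g = 1 ∨ g = -1) := by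
  have d := Hd.det' g
  have p := j.2
  have p' := j'.2
  simp only [fa, Prod.mk.injEq] at h
  obtain ⟨h1, h2, h3⟩ := h
  have c : g 1 0 = 0 := by
    by_contra c
    have : (δ : ℤ) * g 0 0 + j * g 1 0 = 0 := mul_left_cancel₀ c (by linear_combination h1)
    have : (δ : ℤ) * 2 = 0 := by linear_combination -h2 - δ * d + 2 * g 1 1 * this
    omega
  rw [c] at d
  have b : ∀ k : ℤ, (j : ℤ) + δ * k = j' → k = 0 ∧ j = j' := fun k e => by
    have k0 : k = 0 := by
      rcases lt_trichotomy k 0 with q | q | q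
      · nlinarith [j.2, j'.2, Int.natCast_nonneg (j' : ℕ)]
      · exact q
      · nlinarith [j.2, j'.2, Int.natCast_nonneg (j : ℕ)]
    exact ⟨k0, Fin.ext (by simpa [k0] using e)⟩
  rcases Int.eq_one_or_neg_one_of_mul_eq_one' (show g 0 0 * g 1 1 = 1 by linarith) with e | e
  · have := b (g 0 1) (by rw [e.2] at h3; linarith)
    refine ⟨this.2, .inl (Matrix.SpecialLinearGroup.ext _ _ fun a b => ?_)⟩
    fin_cases a <;> fin_cases b <;> simp [e.1, e.2, c, this.1]
  · have := b (-g 0 1) (by rw [e.2] at h3; linarith)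
    refine ⟨this.2, .inr (Matrix.SpecialLinearGroup.ext _ _ fun a b => ?_)⟩
    fin_cases a <;> fin_cases b <;> simp [e.1, e.2, c, neg_eq_zero.1 this.1]

theorem fa_neg' (l : Fm) (g : SL(2, ℤ)) : fa l (-g) = fa l g := by simp [fa]

/-- the orbits are covered twice -/
theorem twice {N δ : ℕ} {u : Fm → ℂ} {a : ℂ} (h : HasSum u a)
    (hu : ∀ l, u l ≠ 0 → ∃ p : Gamma0 N × Fin δ, fa (0, (δ : ℤ), (p.2 : ℤ)) p.1 = l) :
    HasSum (fun p : Gamma0 N × Fin δ => u (fa (0, (δ : ℤ), (p.2 : ℤ)) p.1)) (a + a) := by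
  let pr : Gamma0 N × Fin δ → Fm := fun p => fa (0, (δ : ℤ), (p.2 : ℤ)) p.1
  let ng : Gamma0 N × Fin δ → Gamma0 N × Fin δ := fun p =>
    (⟨-p.1, Hd.g0_dvd.2 (by simpa using Hd.g0_dvd.1 p.1.2)⟩, p.2)
  have n1 : ∀ p, pr (ng p) = pr p := fun p => fa_neg' _ _
  have n2 : ∀ p, ng p ≠ p := fun p e => by
    have a : -p.1.1 = p.1.1 := congrArg (·.1.1) e
    have b : ∀ i j, p.1.1 i j = 0 := fun i j => by
      have := congrArg (fun g : SL(2, ℤ) => g i j) a
      simp at this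
      omega
    simpa [b] using Hd.det' p.1.1
  have h1 : HasSum (u ∘ (↑) : range pr → ℂ) a :=
    (hasSum_subtype_iff_of_support_subset fun l e => hu l e).2 h
  let s : range pr → Gamma0 N × Fin δ := fun l => l.2.choose
  have s1 : ∀ l, pr (s l) = l := fun l => l.2.choose_spec
  have inj : ∀ l m, pr (s l) = pr (s m) → l = m := fun l m e => Subtype.ext (by rwa [s1, s1] at e)
  refine (Equiv.ofBijective (Sum.elim s (ng ∘ s)) ⟨?_, fun p => ?_⟩).hasSum_iff.1
    (HasSum.sum (h1.congr_fun fun l => ?_) (h1.congr_fun fun l => ?_))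
  · rintro (l | l) (m | m) e <;> simp only [Sum.elim_inl, Sum.elim_inr, Function.comp] at e
    · rw [inj l m (congrArg pr e)]
    · rw [inj l m ((congrArg pr e).trans (n1 _))] at e
      exact absurd e.symm (n2 _)
    · rw [inj l m ((n1 _).symm.trans (congrArg pr e))] at e
      exact absurd e (n2 _)
    · rw [inj l m ((n1 _).symm.trans ((congrArg pr e).trans (n1 _)))]
  · have e := s1 ⟨pr p, p, rfl⟩
    generalize hq : s ⟨pr p, p, rfl⟩ = q at e
    have e' : fa (0, (δ : ℤ), (p.2 : ℤ)) (p.1.1 * q.1.1⁻¹) = (0, (δ : ℤ), (q.2 : ℤ)) := by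
      rw [← Hd.fa_fa]
      exact (congrArg (fa · q.1.1⁻¹) e.symm).trans (Hd.fa_inv _ _)
    obtain ⟨a, b | b⟩ := sq_uq e'
    · exact ⟨.inl _, hq.trans (Prod.ext (Subtype.ext (mul_inv_eq_one.1 b).symm) a.symm)⟩
    · refine ⟨.inr _, (congrArg ng hq).trans (Prod.ext (Subtype.ext ?_) a.symm)⟩
      rw [mul_inv_eq_iff_eq_mul] at b
      simp [ng, b]
  · exact congrArg u (s1 l)
  · exact congrArg u ((n1 _).trans (s1 l))

/-- unfolding over the cosets -/
theorem unf2 {N : ℕ} (hN : 0 < N) {F : ℍ → ℂ} (h : Integrable F) :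
    iX N (fun z => ∑' γ : Gamma0 N, F (γ.1 • z)) = 2 * ∫ z, F z := by
  have : NeZero N := ⟨hN.ne'⟩
  have := Subgroup.fintypeQuotientOfFiniteIndex (H := Gamma0 N)
  have := Vale.Agent.P004.H26.H86.sl_countable
  let e : (SL(2, ℤ) ⧸ Gamma0 N) × Gamma0 N ≃ SL(2, ℤ) := Equiv.ofBijective
    (fun x => x.2.1 * x.1.out⁻¹) ⟨fun x y e => by
      have e0 : x.1.out * x.2.1⁻¹ = y.1.out * y.2.1⁻¹ := by simpa using congrArg (·⁻¹) e
      have e1 : x.1 = y.1 := by
        simpa [inv_mem x.2.2, inv_mem y.2.2] using congrArg (QuotientGroup.mk (s := Gamma0 N)) e0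
      refine Prod.ext e1 (Subtype.ext ?_)
      simpa [e1] using e, fun g => by
      obtain ⟨h, e⟩ := QuotientGroup.mk_out_eq_mul (Gamma0 N) g⁻¹
      exact ⟨(((g⁻¹ : SL(2, ℤ)) : SL(2, ℤ) ⧸ Gamma0 N), h), by simp [e]⟩⟩
  obtain ⟨i, s⟩ := unf0 h
  have s' := (e.summable_iff.2 (unf0 h.norm).2.summable)
  have t := (e.hasSum_iff.2 s).prod_fiberwise
    (g := fun q => ∫ z in 𝒟, ∑' γ : Gamma0 N, F (γ.1 • q.out⁻¹ • z)) fun q => by
      simp only [← mul_smul]
      exact hasSum_integral_of_summable_integral_norm (fun γ : Gamma0 N => i _) (s'.prod_factor q)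
  rw [iX, finsum_eq_sum_of_fintype, (hasSum_fintype _).unique t]
  simp

end Wx

open Wx

theorem wc : WC := by
  intro N δ G a ok hG hV
  have hN := hG.pos
  have : NeZero N := ⟨hN.ne'⟩
  have hδ : 0 < δ := zero_lt_one.trans ok.one
  have hν : 0 < N * δ := mul_pos hN hδ
  have δ0 : (δ : ℂ) ≠ 0 := Nat.cast_ne_zero.2 hδ.ne'
  let φ : Fm → ℂ := fun l => ph N δ (δ : ZMod (2 * N)) l
  let ψ := cut (δ * δ) φ
  let f : Fm → ℍ → ℂ := fun l z => ψ l * gv (N * δ) 1 (pz l z) * evq l z * G z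
  let F : Fin δ → ℍ → ℂ := fun j => f (0, δ, j)
  have p : Pf (δ * δ) ψ _ (gv (N * δ) 1) := pf_gv ⟨1, fun l => by
    simp only [φ, ph, gc]
    split_ifs
    · rw [Int.cast_prod, norm_prod]
      refine Finset.prod_le_one (fun _ _ => norm_nonneg _) fun q _ => ?_
      split_ifs <;> rcases jacobiSym.trichotomy _ q with e | e | e <;> rw [e] <;> simp
    · simp⟩ _ hν one_pos
  have f1 : ∀ l, ∀ γ ∈ Gamma0 N, ∀ z, f (fa l γ) z = f l (γ • z) := fun l γ hγ z => by
    have a := congrFun (hG.s2.slash γ hγ) z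
    have := Hd.den_ne γ z
    rw [sl_ap] at a
    simp only [f, ψ, φ, cut, Hd.disc_fa, Hd.ph_fa ok.odd _ _ hγ, Hd.pz_fa, Hd.evq_fa, ← a]
    field_simp
  have f2 : ∀ z : ℍ, ∑' γ : Gamma0 N, (∑ j, F j) (γ.1 • z) =
      2 * (Kq ψ (gv (N * δ) 1) z * G z) := by
    intro z
    obtain ⟨_, _, -, t1, b1⟩ := p.tm
    have s := (Summable.of_norm_bounded ((ms_sum t1 z).mul_left _)
      fun l => (b1 l z).2).hasSum.mul_right (G z)
    rw [two_mul]
    refine ((twice (N := N) (δ := δ) s fun l e => ?_).prod_fiberwise fun γ => ?_).tsum_eq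
    · have e1 : ψ l ≠ 0 := fun q => e (by simp [q])
      have e2 := p.sup l e1
      obtain ⟨h1, h2, -⟩ := Hd.ph_ne (show ph N δ (δ : ZMod (2 * N)) l ≠ 0 by
        simpa [ψ, cut, e2, φ] using e1)
      obtain ⟨g, j, q⟩ := sq_ex hδ e2
      have q' : fa (0, (δ : ℤ), (j : ℤ)) g⁻¹ = l := by rw [← q, Hd.fa_inv]
      refine ⟨(⟨g⁻¹, (cls N (0, δ, j) δ hN (by simp [disc]) ?_).2 _ (by simp) (by simp)
        (q' ▸ h1) ?_⟩, j), q'⟩
      · simpa [disc] using (Nat.isCoprime_iff_coprime.2 ok.cop.symm).pow_left (m := 2)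
      · rw [q']
        exact_mod_cast (ZMod.intCast_eq_intCast_iff_dvd_sub δ l.2.1 (2 * N)).1 (by simp [h2])
    · simpa only [Finset.sum_apply, F, ← f1 _ _ γ.2] using hasSum_fintype
        fun j : Fin δ => f (fa (0, (δ : ℤ), (j : ℤ)) γ) z
  let b : ℝ → ℝ := fun t => gv (N * δ) 1 (δ * t)
  have F1 : ∀ (j : Fin δ) (y t : ℝ), 0 < y → F j (pt (y * t - (j : ℤ) / δ) y) =
      b t * δ * (t + I) * (y * (J(j | δ) * G (pt (y * t - (j : ℤ) / δ) y))) := by
    intro j y t hy
    have a1 : pz (0, δ, j) (pt (y * t - (j : ℤ) / δ) y) = δ * t := by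
      have : (δ : ℝ) ≠ 0 := Nat.cast_ne_zero.2 hδ.ne'
      simp only [pz, coe_re, coe_im, pt_re _ hy, pt_im _ hy]
      push_cast
      field_simp
      ring
    have a2 : evq (0, δ, j) (pt (y * t - (j : ℤ) / δ) y) = δ * y * (t + I) := by
      simp only [evq, pt_ray hy]
      push_cast
      field_simp
      ring
    have a3 : ψ (0, δ, j) = J(j | δ) := by
      simp [ψ, cut, φ, ph, disc, sq, gc, Hd.J_prod ok.sq]
    simp only [F, f, a1, a2, a3, b]
    ring
  have cF : ∀ j, Continuous (F j) := fun j =>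
    ((continuous_const.mul (continuous_ofReal.comp ((cont_gv _ _).comp
      ((cont_pz _).comp_continuous continuous_coe fun z => z.im_pos)))).mul
      ((cont_evq _).comp continuous_coe)).mul hG.s2.holo.continuous
  have bi : Integrable fun t : ℝ => b t * (1 + t ^ 2) ^ 2 := by
    have c : 0 < π * δ ^ 2 / (N * δ : ℕ) / 2 := by positivity
    refine ((integrable_exp_neg_mul_sq c).const_mul _).mono'
      (((cont_gv _ _).comp (by fun_prop)).mul (by fun_prop)).aestronglyMeasurable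
      (Eventually.of_forall fun t => le_trans (le_of_eq ?_)
        (mul_le_mul_of_nonneg_right (pow_exp 2 c (sq_nonneg t)) (Real.exp_pos _).le))
    simp only [b, gv, Real.sqrt_one, one_mul]
    rw [Real.norm_of_nonneg (by positivity), mul_assoc ((1 + t ^ 2) ^ 2), ← Real.exp_add,
      mul_comm]
    congr 2
    ring
  have R := fun j : Fin δ => ray_le hN hG.s2 hδ j
  choose C hC R using R
  have J1 : ∀ n : ℤ, ‖(J(n | δ) : ℂ)‖ ≤ 1 := fun n => by
    rcases jacobiSym.trichotomy n δ with e | e | e <;> rw [e] <;> simp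
  have i1 : ∀ j : Fin δ, Integrable (fun q : ℝ × ℝ => F j (pt (q.1 * q.2 - (j : ℤ) / δ) q.1))
      (n1.prod volume) := fun j => by
    refine ((intg_n1.mul_prod bi).const_mul (δ * C j)).mono'
      ((cF j).measurable.comp (mp_ray _).measurable).aestronglyMeasurable ?_
    filter_upwards [Measure.quasiMeasurePreserving_fst.ae n1_ae] with q hq
    have b0 : 0 ≤ b q.2 := by simp only [b, gv]; positivity
    have n : ‖(q.2 : ℂ) + I‖ ≤ 1 + q.2 ^ 2 := by
      refine abs_le_of_sq_le_sq' ?_ (by positivity) |>.2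
      rw [← normSq_eq_norm_sq]
      simp [normSq_apply]
      nlinarith [sq_nonneg q.2, sq_nonneg (q.2 ^ 2)]
    have := hC j
    rw [F1 j _ _ hq]
    simp only [norm_mul, norm_real, Complex.norm_natCast,
      Real.norm_of_nonneg b0, Real.norm_of_nonneg hq.le]
    calc _ ≤ b q.2 * δ * (1 + q.2 ^ 2) *
          (q.1 * (1 * (C j * (1 + q.2 ^ 2) * (1 + q.1 ^ 2)⁻¹))) := by
          gcongr
          · exact J1 _
          · exact R j _ _ hq
      _ = _ := by ring
  have i2 : ∀ j, Integrable (F j) := fun j =>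
    ((mp_ray _).integrable_comp (cF j).aestronglyMeasurable).1 (i1 j)
  let H : ℂ → ℂ := fun w => ∑ j : Fin δ, J(j | δ) * G (ofComplex (w - ((j : ℤ) / δ : ℝ)))
  have H1 : ∀ (j : Fin δ) (y t : ℝ), 0 < y →
      ofComplex (y * (t + I) - ((j : ℤ) / δ : ℝ)) = pt (y * t - (j : ℤ) / δ) y := fun j y t hy => by
    rw [← pt_ray hy, ofComplex_apply]
  have H0 : ∀ t : ℝ, ∫ y in Ioi (0 : ℝ), H (y * (t + I)) = 0 := ray (C := ∑ j, C j)
    (DifferentiableOn.fun_sum fun j _ => ((UpperHalfPlane.mdifferentiable_iff.1 hG.s2.holo).comp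
      (differentiableOn_id.sub_const (((j : ℤ) / δ : ℝ) : ℂ))
      fun w hw => by simpa using hw).const_mul _)
    (fun y t hy => by
      simp only [H, H1 _ _ _ hy, Finset.sum_mul]
      refine norm_sum_le_of_le _ fun j _ => ?_
      rw [norm_mul]
      exact (mul_le_of_le_one_left (norm_nonneg _) (J1 _)).trans (R j y t hy)) (by
      rw [← mul_zero (J(-1 | δ) * gs δ : ℂ), ← hV, ← integral_const_mul]
      refine setIntegral_congr_fun measurableSet_Ioi fun y hy => ?_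
      have m : ∀ j : Fin δ, 0 < (I * y - ((j : ℤ) / δ : ℝ)).im := fun j => by simpa using hy
      refine (hasSum_sum fun (j : Fin δ) _ => (hG.qe (ofComplex (I * y - ((j : ℤ) / δ : ℝ)))
        ).mul_left (J(j | δ) : ℂ)).tsum_eq.symm.trans ?_
      simp only [tw, ← tsum_mul_left]
      refine tsum_congr fun n => ?_
      have g := Gq.gk_eq ok.odd ok.sq (-1 * n)
      rw [Gq.gk, jacobiSym.mul_left, Finset.sum_range] at g
      push_cast at g ⊢
      rw [show (J(-1 | δ) : ℂ) * gs δ * (a n * J(n | δ) * ee (n * (I * y))) =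
        J(-1 | δ) * J(n | δ) * gs δ * (a n * ee (n * (I * y))) by ring, ← g, Finset.sum_mul]
      refine Finset.sum_congr rfl fun j _ => ?_
      have := m j
      push_cast at this
      rw [ofComplex_apply_of_im_pos this, mul_assoc _ (ee _), mul_left_comm (ee _), ← ee_add, ee]
      congr 3
      ring)
  have z0 : ∫ z, (∑ j, F j) z = 0 := by
    simp only [Finset.sum_apply]
    rw [integral_finsetSum _ fun j _ => i2 j, Finset.sum_congr rfl fun j _ =>
      ((mp_ray ((j : ℤ) / δ)).map_eq ▸ integral_map (mp_ray _).measurable.aemeasurable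
        ((mp_ray _).map_eq.symm ▸ (cF j).aestronglyMeasurable) :
        ∫ z, F j z = ∫ q : ℝ × ℝ, F j (pt (q.1 * q.2 - (j : ℤ) / δ) q.1) ∂n1.prod volume),
      ← integral_finsetSum _ fun j _ => i1 j,
      integral_prod_symm _ (integrable_finsetSum _ fun j _ => i1 j)]
    refine (integral_congr_ae (Eventually.of_forall fun t => ?_)).trans (integral_zero _ _)
    rw [← mul_zero (b t * δ * (t + I) : ℂ), ← H0 t, ← int_n1, ← integral_const_mul]
    refine integral_congr_ae (n1_ae.mono fun y hy => ?_)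
    simp only [F1 _ _ _ hy, H, H1 _ _ _ hy, Finset.mul_sum]
  have u := unf2 hN (integrable_finsetSum' Finset.univ fun j _ => i2 j)
  have := Subgroup.fintypeQuotientOfFiniteIndex (H := Gamma0 N)
  simp only [z0, f2, mul_zero, iX, integral_const_mul, finsum_eq_sum_of_fintype,
    ← Finset.mul_sum] at u
  rw [sc_eq, iX, finsum_eq_sum_of_fintype]
  exact (mul_eq_zero.1 u).resolve_left two_ne_zero

end Vale.Agent.P004Z.Lf
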