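import Vale.Agent.P004Z.Lf.St
import Vale.Agent.P004Z.Gl.Pet
import Vale.Agent.P004N.H461.Qe

/-! # P004Z, block G4: the rows `SHT`, `SHE`, `WL` -/

open Complex UpperHalfPlane MeasureTheory Filter Topology CongruenceSubgroup
open scoped Real MatrixGroups ComplexConjugate NumberTheorySymbols

noncomputable section

namespace Vale.Agent.P004Z.Lf

open P004N (S2 QE TE RN)
open Gl

namespace Wl

theorem sum_dvd {l n : ℕ} (hl : 0 < l) (f : ℕ → ℂ) :
    ∑ i ∈ (l * n).divisors, (if l ∣ i then f i else 0) = ∑ i ∈ n.divisors, f (l * i) := by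
  rw [← Finset.sum_filter]
  symm
  refine Finset.sum_bij (fun i _ => l * i) (fun i hi => ?_) (fun i _ j _ e => ?_)
    (fun i hi => ?_) fun _ _ => rfl
  · rw [Nat.mem_divisors] at hi
    simp [Nat.mul_dvd_mul_left l hi.1, hi.2, hl.ne']
  · exact Nat.eq_of_mul_eq_mul_left hl e
  · simp only [Finset.mem_filter, Nat.mem_divisors] at hi
    obtain ⟨⟨h1, h2⟩, k, rfl⟩ := hi
    exact ⟨k, Nat.mem_divisors.2 ⟨Nat.dvd_of_mul_dvd_mul_left hl h1, right_ne_zero_of_mul h2⟩, rfl⟩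

theorem sum_ndvd {l n : ℕ} (hl : l.Prime) (f : ℕ → ℂ) :
    ∑ i ∈ (l * n).divisors, (if l ∣ i then 0 else f i) =
      ∑ i ∈ n.divisors, if l ∣ i then 0 else f i := by
  symm
  refine Finset.sum_subset (fun i hi => ?_) fun i hi h => if_pos ?_
  · rw [Nat.mem_divisors] at hi ⊢
    exact ⟨hi.1.mul_left _, mul_ne_zero hl.ne_zero hi.2⟩
  · by_contra e
    rw [Nat.mem_divisors] at hi h
    exact h ⟨(hl.coprime_iff_not_dvd.2 e).symm.dvd_of_dvd_mul_left hi.1, right_ne_zero_of_mul hi.2⟩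

theorem conv {l : ℕ} (hl : l.Prime) (χ X : ℕ → ℂ) (hχ : ∀ a b, χ (a * b) = χ a * χ b) (j : ℕ) :
    ∑ i ∈ j.divisors, χ (j / i) * (X (l * i) + (if l ∣ i then 0 else χ l * X i) +
      if l ∣ i then l * X (i / l) else 0) =
    Tc l (fun j => ∑ i ∈ j.divisors, χ (j / i) * X i) j := by
  simp only [Tc, mul_add, Finset.sum_add_distrib]
  congr 1
  · have : ∀ i, χ (l * j / i) * X i = (if l ∣ i then χ (l * j / i) * X i else 0) +
        if l ∣ i then 0 else χ (l * j / i) * X i := fun i => by split_ifs <;> simp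
    rw [Finset.sum_congr rfl fun i _ => this i, Finset.sum_add_distrib, sum_dvd hl.pos,
      sum_ndvd hl]
    congr 1
    · exact Finset.sum_congr rfl fun i _ => by rw [Nat.mul_div_mul_left _ _ hl.pos]
    · refine Finset.sum_congr rfl fun i hi => ?_
      split_ifs
      · simp
      · rw [Nat.mul_div_assoc _ (Nat.dvd_of_mem_divisors hi), hχ]
        ring
  · split_ifs with h
    · obtain ⟨n, rfl⟩ := h
      rw [Nat.mul_div_cancel_left _ hl.pos, Finset.mul_sum]
      simp only [mul_ite, mul_zero]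
      rw [sum_dvd hl.pos]
      refine Finset.sum_congr rfl fun i _ => ?_
      rw [Nat.mul_div_mul_left _ _ hl.pos, Nat.mul_div_cancel_left _ hl.pos]
      ring
    · exact Finset.sum_eq_zero fun i hi => by
        rw [if_neg fun e => h (e.trans (Nat.dvd_of_mem_divisors hi)), mul_zero]

variable {N : ℕ} [NeZero N] {δ : ℕ}

theorem isS_comb (k : ℂ) {x y : Cf N} (hx : IsS δ x) (hy : IsS δ y) : IsS δ (k • x + y) := by
  have hk : IsS δ (k • x) := ⟨fun r => by simp [hx.zero], fun n r h => hx.sup n r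
    (right_ne_zero_of_mul h), fun r τ hτ => by
      simpa [mul_assoc] using (hx.sum r τ hτ).mul_left ‖k‖, fun τ hτ r => by
      simp only [fn_smul, hx.law τ hτ, Finset.mul_sum]
      exact Finset.sum_congr rfl fun _ _ => by ring⟩
  refine ⟨fun r => by simp [hx.zero, hy.zero], fun n r h => ?_, fun r τ hτ => ?_, fun τ hτ r => ?_⟩
  · by_cases e : x n r = 0
    · exact hy.sup n r (by simpa [e] using h)
    · exact hx.sup n r e
  · refine ((hk.sum r τ hτ).add (hy.sum r τ hτ)).of_nonneg_of_le (fun _ => norm_nonneg _)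
      fun n => ?_
    rw [Pi.add_apply, Pi.add_apply, add_mul]
    exact norm_add_le _ _
  · have h1 : 0 < (-1 / τ).im := by
      have h2 : τ ≠ 0 := fun e => by simp [e] at hτ
      rw [div_im]
      simpa [neg_div] using div_pos hτ (normSq_pos.2 h2)
    rw [fn_add hk hy _ h1, hk.law τ hτ, hy.law τ hτ]
    simp only [fn_add hk hy _ hτ, mul_add, Finset.sum_add_distrib]

theorem isS_smul (k : ℂ) {x : Cf N} (hx : IsS δ x) : IsS δ (k • x) := by
  have := isS_comb (k - 1) hx hx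
  rwa [sub_smul, one_smul, sub_add_cancel] at this

theorem eq_of_B (hP : PETS) (ok : Ok N δ) (k : ℤ) {x x' : Cf N} (hx : IsS δ x)
    (hx' : IsS δ x') (h : ∀ y, IsS δ y → B y x' = k * B y x) : x' = (k : ℂ) • x := by
  have hz := isS_comb (-k) hx hx'
  have h1 : B ((-k : ℂ) • x + x') ((-k : ℂ) • x + x') = 0 := by
    rw [B_add hP ok (isS_smul _ hx) hx' hz, B_smul, B_conj _ x', h _ hz, B_conj _ x]
    simp
  have h2 := (hP N δ ok _ hz).2.2.2 h1
  have h3 : (-k : ℂ) • x = -((k : ℂ) • x) := neg_smul (k : ℂ) x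
  rw [h3, neg_add_eq_zero] at h2
  exact h2.symm

theorem pet2_smul (N : ℕ) (k k' : ℂ) (g h : ℍ → ℂ) :
    pet2 N (k • g) (k' • h) = k * conj k' * pet2 N g h := by
  rw [pet2, pet2, ← smul_eq_mul, smul_finsum]
  congr 1
  funext q
  rw [smul_eq_mul, ← integral_const_mul]
  congr 1
  funext z
  simp only [petersson, Pi.smul_apply, smul_eq_mul, map_mul]
  ring

end Wl

open Wl

theorem sht : SHT := by
  intro N _ δ δ₁ l ρ x du hl h1 h2
  funext j
  have hco : l.Coprime (2 * N) :=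
    hl.coprime_iff_not_dvd.2 fun e => h1 ((e.mul_right _).mul_right _)
  have h3 : ¬ l ∣ δ₁ := fun e => h1 (e.mul_left _)
  have : NeZero l := ⟨hl.ne_zero⟩
  have e : ∀ y : Cf N, shc δ₁ ρ y = fun j => ∑ i ∈ j.divisors, (J((j / i : ℕ) | δ₁) : ℂ) *
      y (δ₁ * i ^ 2) (ρ⁻¹ * δ₁ * i) := fun y => funext fun j =>
    Nat.sum_divisorsAntidiagonal fun a b => (J(b | δ₁) : ℂ) * y (δ₁ * a ^ 2) (ρ⁻¹ * δ₁ * a)
  rw [e, e, ← conv hl (fun n => (J(n | δ₁) : ℂ)) (fun i => x (δ₁ * i ^ 2) (ρ⁻¹ * δ₁ * i))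
    (fun a b => by push_cast [jacobiSym.mul_left]; rfl)]
  refine Finset.sum_congr rfl fun i _ => ?_
  congr 1
  rw [TT]
  congr 1
  · congr 1
    · congr 1
      · ring
      · push_cast
        ring
    · have e1 : J(-((δ : ℤ) * (δ₁ * i ^ 2 : ℕ)) | l) = J(-((δ : ℤ) * δ₁) | l) * J(i | l) ^ 2 := by
        rw [← jacobiSym.pow_left, ← jacobiSym.mul_left]
        congr 1
        push_cast
        ring
      rw [e1, ← mul_assoc, h2]
      split_ifs with h
      · rw [(jacobiSym.eq_zero_iff_not_coprime (a := i)).2]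
        · simp
        · rw [Int.gcd_natCast_natCast]
          exact fun e => hl.coprime_iff_not_dvd.1 (Nat.Coprime.symm e) h
      · rw [jacobiSym.sq_one, mul_one]
        rw [Int.gcd_natCast_natCast]
        exact (hl.coprime_iff_not_dvd.2 h).symm
  · by_cases h : l ∣ i
    · obtain ⟨k, rfl⟩ := h
      rw [if_pos ⟨δ₁ * k ^ 2, by ring⟩, if_pos (dvd_mul_right _ _),
        Nat.mul_div_cancel_left _ hl.pos, show δ₁ * (l * k) ^ 2 = l ^ 2 * (δ₁ * k ^ 2) by ring,
        Nat.mul_div_cancel_left _ (pow_pos hl.pos 2)]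
      congr 2
      push_cast
      linear_combination (ρ⁻¹ * δ₁ * k) * ZMod.coe_mul_inv_eq_one l hco
    · rw [if_neg h, if_neg]
      intro e
      rcases hl.dvd_mul.1 ((dvd_pow_self l two_ne_zero).trans e) with e | e
      · exact h3 e
      · exact h (hl.dvd_of_dvd_pow e)

theorem she : SHE := by
  intro N _ δ δ₁ S ρ a x du h1 h2 he l hl h3 n
  have := congrFun (sht N δ δ₁ l ρ x du hl (fun e => h3 (e.trans h2)) (h1 l hl h3)) n
  rw [he l hl h3, Tc] at this
  rw [← this, shc, shc, Finset.mul_sum]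
  exact Finset.sum_congr rfl fun _ _ => by simp only [Pi.smul_apply, smul_eq_mul]; ring

theorem wl : WL := by
  intro hWS hWC hSHT hSHI hSMO hPET hHECKE hSELF hPETS hGAU N _ δ δ' S β G a x hD hG hV hS hx he
  obtain ⟨du0, du, -, -, -, hJ, -⟩ := hGAU N δ δ' β hD
  have ok := du.ok
  have hδ : δ ≠ 0 := (zero_lt_one.trans hD.ok.one).ne'
  have hδ' : δ' ≠ 0 := hD.sq.ne_zero
  have hN : N ≠ 0 := hG.pos.ne'
  obtain ⟨hs, adj⟩ := hWS N _ δ _ G du hG.s2
  obtain ⟨C, hC, hSh⟩ := hSHI N _ δ _ du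
  obtain ⟨-, nd, sa⟩ := hPET N hG.pos
  obtain ⟨b, hb⟩ := du0.un
  have hβ : ((β : ZMod (2 * N))⁻¹)⁻¹ = β := by
    rw [← hb, ZMod.inv_coe_unit, ZMod.inv_coe_unit, inv_inv]
  have hJ' : ∀ l : ℕ, l.Prime → ¬ l ∣ 2 * N * (δ * δ') * δ →
      J(l | δ * δ') * J(-(((δ * δ' : ℕ) : ℤ) * δ) | l) = J(l | δ) := by
    intro l hl h1
    have h3 : Odd l := hl.odd_of_ne_two fun e =>
      h1 (by rw [e]; exact ((dvd_mul_right 2 N).mul_right _).mul_right δ)
    have h4 : J(δ | l) ^ 2 = 1 := jacobiSym.sq_one (by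
      rw [Int.gcd_natCast_natCast]
      exact (hl.coprime_iff_not_dvd.2 fun e => h1 (e.mul_left _)).symm)
    have h5 : J(l | δ') ^ 2 = 1 := jacobiSym.sq_one (by
      rw [Int.gcd_natCast_natCast]
      exact hl.coprime_iff_not_dvd.2 fun e => h1 (((e.mul_left _).mul_left _).mul_right _))
    rw [jacobiSym.mul_right' _ hδ hδ', show -(((δ * δ' : ℕ) : ℤ) * δ) =
      δ ^ 2 * -(δ' : ℤ) by push_cast; ring, jacobiSym.mul_left, jacobiSym.pow_left, h4, one_mul,
      hJ l h3, mul_assoc, ← pow_two, h5, mul_one]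
  -- the lift of an eigenform
  have eig : ∀ S : ℕ, S ≠ 0 → ∀ y, IsS (δ * δ') y → Eig (δ * δ') S a y →
      shi δ (β : ZMod (2 * N))⁻¹ y = (C * y δ ((β * δ : ℤ) : ZMod (2 * N))) • G := by
    intro S hS y hy he
    obtain ⟨s1, s2⟩ := hSh y hy
    have te := she N _ δ (S * (2 * N * (δ * δ') * δ)) _ a y du
      (fun l hl h1 => hJ' l hl fun e => h1 (e.mul_left _)) (dvd_mul_left _ _)
      fun l hl h1 => he l hl fun e => h1 (e.mul_right _)
    obtain ⟨κ, hκ⟩ := hSMO N (S * (2 * N * (δ * δ') * δ)) G a hG (by positivity) _ _ s1 s2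
      (fun p hp h1 n => by
        have h3 := te p hp h1 n
        split_ifs at h3 ⊢ <;> linear_combination C * h3)
    have e : shi δ (β : ZMod (2 * N))⁻¹ y = κ • G := funext hκ
    rw [e] at s2 ⊢
    have := congrFun (P004N.H461.QE.unique s2 (P004N.H461.QE.smul hG.qe κ)) 1
    congr 1
    simpa [shc, hβ, hG.one, jacobiSym.one_left] using this.symm
  have se : Eig (δ * δ') (2 * N * (δ * δ') * δ) a (sn δ (β : ZMod (2 * N))⁻¹ G) := by
    intro l hl h1
    have h2 : ¬ l ∣ 2 * N * (δ * δ') := fun e => h1 (e.mul_right _)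
    have h3 : ¬ l ∣ N := fun e => h2 ((e.mul_left _).mul_right _)
    refine eq_of_B hPETS ok (a l) hs (hHECKE N _ l ok hl h2 _ hs) fun y hy => ?_
    have hy' := hHECKE N _ l ok hl h2 y hy
    rw [B, ← hSELF N _ l ok hl h2 y _ hy hs, adj _ hy', B, adj _ hy]
    have q1 := (hSh _ hy').2
    rw [hSHT N _ δ l _ y du hl h1 (hJ' l hl h1)] at q1
    have q2 : QE ((a l : ℂ) • G) (Tc l fun n => (a n : ℂ)) := by
      have : (Tc l fun n => (a n : ℂ)) = (a l : ℂ) • fun n => (a n : ℂ) :=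
        funext fun n => hG.te l hl h3 n
      rw [this]
      exact P004N.H461.QE.smul hG.qe _
    rw [sa l _ G _ _ _ _ hl h3 (hSh y hy).1 hG.s2 (hSh y hy).2 hG.qe (by
      convert q1 using 2 with n
      simp only [Tc]
      split_ifs <;> ring) q2]
    simpa using pet2_smul N 1 (a l) (shi δ (β : ZMod (2 * N))⁻¹ y) G
  have s0 : sn δ (β : ZMod (2 * N))⁻¹ G = 0 := by
    refine (hPETS N _ ok _ hs).2.2.2 ?_
    rw [adj _ hs, eig _ (by positivity) _ hs se]
    have : sn δ (β : ZMod (2 * N))⁻¹ G δ ((β * δ : ℤ) : ZMod (2 * N)) = 0 := by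
      rw [sn, ← hWC N δ G a hD.ok hG hV]
      congr 3
      push_cast
      rw [← mul_assoc, ZMod.inv_mul_of_unit _ ⟨b, hb⟩, one_mul]
    rw [this, mul_zero]
    simpa using pet2_smul N 0 1 G G
  have h1 := adj x hx
  rw [s0, eig S hS x hx he] at h1
  have h2 := pet2_smul N (C * x δ ((β * δ : ℤ) : ZMod (2 * N))) 1 G G
  rw [one_smul, ← h1, map_one, mul_one] at h2
  have h3 : pet (fn x) (fn (0 : Cf N)) = 0 := by simp [pet, fn]
  rw [h3] at h2
  refine (mul_eq_zero.1 ((mul_eq_zero.1 h2.symm).resolve_right fun e => ?_)).resolve_left hC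
  have h4 := hG.qe
  rw [nd G hG.s2 e] at h4
  simpa [hG.one] using P004N.H461.QE.zero_eq h4 1

end Vale.Agent.P004Z.Lf
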