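import Vale.Agent.P004Z.Lf.Wa
import Vale.Agent.P004Z.Lf.Wb
import Vale.Agent.P004Z.Lf.Wc
import Vale.Agent.P004Z.Lf.Wl
import Vale.Agent.P004Z.Lf.Sha
import Vale.Agent.P004Z.Lf.Brs
import Vale.Agent.P004Z.Lf.Loc
import Vale.Agent.P004Z.Lf.Har
import Vale.Agent.P004Z.Lf.Exp
import Vale.Agent.P004Z.Lf.Brg
import Vale.Agent.P004Z.Du.All
import Vale.Agent.P004Z.W.Br
import Vale.Agent.P004Z.W2.Smo
import Vale.Agent.P004Z.Th.Gau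
import Vale.Agent.P004Z.Th.Ths
import Vale.Agent.P004Z.Hd.Fta

/-! # P004Z, block G4: assembly -/

namespace Vale.Agent.P004Z

theorem shi_row : SHI := Lf.brs Lf.sha phi fta g2.2.1

theorem wald : WALD :=
  Lf.wl (Lf.wb Lf.wa phi ths fta g2.2.1) Lf.wc Lf.sht shi_row smo pet2_all hecke (self g2.2.1)
    g2.2.1 gau_row

theorem lift_exp : LIFT ∧ Bo.EXP :=
  Lf.brg Lf.loc0 (Lf.har Lf.loc0 (Lf.expn Lf.loc0)) (Lf.expn Lf.loc0) phi fta g2.2.1 g2.2.2.2.2.1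

/-- the rows of block G4 -/
theorem g4 : LIFT ∧ Bo.EXP ∧ SHI ∧ SHE ∧ WALD := ⟨lift_exp.1, lift_exp.2, shi_row, Lf.she, wald⟩

end Vale.Agent.P004Z
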