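import Vale.Agent.P004Z.Lf.Har
import Vale.Agent.P004Z.Hd.Fta

/-!
# P004Z, block G4, row BRG: the Green function of a seed
-/

set_option autoImplicit false
set_option linter.all false

open UpperHalfPlane hiding I
open Complex MeasureTheory Filter Set
open scoped MatrixGroups Modular Real ComplexConjugate Topology

noncomputable section

namespace Vale.Agent.P004Z.Lf.Bg

open Hd

variable {M : ℕ} [NeZero M] {F : ℍ → Fm → ℂ} {S : Finset ℤ} {c : ℤ → Fm → ℂ} {cp : Fm → ℂ}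

theorem fa_zero (γ : SL(2, ℤ)) : fa 0 γ = 0 := by simp [fa]

theorem hm_mv (H : Hm M F S c cp) (γ : SL(2, ℤ)) : Hm M (fun τ l => F τ (fa l γ)) S
    (fun D l => c D (fa l γ)) fun l => cp (fa l γ) := by
  have f := fun τ => (fta γ).2.2.2.2.2 M (F τ) (NeZero.pos M) (H.sd.per τ)
  obtain ⟨C, g⟩ := H.gr
  obtain ⟨C', p, q⟩ := H.pp
  refine ⟨⟨fun τ => (f τ).1, fun τ l => ?_, fun τ l => ?_, fun l => H.sd.cont _, fun γ' τ b => ?_⟩,
    ⟨C, fun τ l => g τ _⟩, H.neg, fun D l e => disc_fa l γ ▸ H.sup D _ e,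
    ⟨C', fun D e l => p D e _, fun τ l => q τ _⟩, fun l e v hv => ?_, fun τ => ?_, fun D => ?_⟩
  · rw [H.sd.T, disc_fa]
  · rw [H.sd.S, (f τ).2.1, ← fa_neg]
  · simp only [fa_fa, H.sd.van]
  · rw [← H.co (fa l γ) ((disc_fa l γ).symm ▸ e) v hv, co, co, disc_fa]
  · rw [fa_zero, H.zero.1]
  · rw [fa_zero, H.zero.2]

theorem phi_mv (H : Hm M F S c cp) (γ : SL(2, ℤ)) (z : ℍ) :
    Phi M (fun τ l => F τ (fa l γ)) (γ • z) = Phi M F z := by
  simp only [Phi, KK, fun τ => (((fta γ).2.2.2.2.2 M (F τ) (NeZero.pos M) (H.sd.per τ)).2.2 τ z).1]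

theorem nr_mv (γ : SL(2, ℤ)) (z : ℍ) : Nr S (γ • z) ↔ Nr S z := by
  refine ⟨fun h l e p => h (fa l γ⁻¹) (by rwa [disc_fa]) ?_,
    fun h l e p => h (fa l γ) (by rwa [disc_fa]) ((root_fa l γ z).2 p)⟩
  rwa [root_fa, inv_smul_smul]

theorem mu_mv (γ : SL(2, ℤ)) (z : ℍ) : mu S (fun D l => c D (fa l γ)) (γ • z) = mu S c z := by
  rw [mu, mu, ← finsum_comp_equiv (fe γ) (f := fun l => ∑ᶠ _ : evq l z = 0, cf S c l)]
  refine finsum_congr fun l => ?_
  show _ = ∑ᶠ _ : evq (fa l γ) z = 0, cf S c (fa l γ)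
  rw [root_fa, cf, cf, disc_fa]

theorem mu_zero {z : ℍ} (h : Nr S z) : mu S c z = 0 :=
  finsum_eq_zero_of_forall_eq_zero fun l => by
    by_cases e : evq l z = 0
    · rw [cf, if_neg fun p => h l p e, finsum_zero]
    · simp [e]

open Classical in
/-- the Green function -/
def Gr (M : ℕ) (F : ℍ → Fm → ℂ) (S : Finset ℤ) (z : ℍ) : ℂ :=
  if Nr S z then Phi M F z else limUnder (𝓝[≠] z) (Phi M F)

theorem gr_eq {z : ℍ} (h : Nr S z) : Gr M F S z = Phi M F z := if_pos h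

theorem green (L : LOC) (E : EXPN) (H : Hm M F S c cp) {Γ : Subgroup SL(2, ℤ)}
    (hF : ∀ γ ∈ Γ, ∀ τ l, F τ (fa l γ) = F τ l) (hc : ∀ γ ∈ Γ, ∀ D l, c D (fa l γ) = c D l) :
    Green Γ (mu S c) (Gr M F S) := by
  refine ⟨fun γ h z => ?_, fun γ h z _ => ?_, fun w => ?_, fun γ => ?_⟩
  · simpa only [hc γ h] using mu_mv (S := S) (c := c) γ z
  · have p : ∀ z, Phi M F (γ • z) = Phi M F z := fun z => by
      simpa only [hF γ h] using phi_mv H γ z
    rw [Gr, Gr, nr_mv, p]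
    congr 1
    have := (Homeomorph.smul ((γ : SL(2, ℤ)) : GL (Fin 2) ℝ)).map_punctured_nhds_eq z
    rw [limUnder, limUnder]
    congr 1
    exact (congrArg _ this.symm).trans (map_map.trans (congrArg (map · _) (funext p)))
  · obtain ⟨a, b, ha, hb, p, q⟩ := L M F S c cp H w
    refine ⟨a, b, ha, hb, ?_⟩
    rw [← nhdsNE_sup_pure, eventually_sup, eventually_pure]
    refine ⟨q.mono fun z h => ⟨fun _ => mu_zero h.1, fun _ => (gr_eq h.1).trans h.2⟩,
      fun e => (e rfl).elim, fun e => ?_⟩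
    have e := e.resolve_left fun e => e rfl
    rw [e, neg_zero, zero_mul, zero_add, Gr]
    split_ifs with k
    · exact p k
    · have : (𝓝[≠] w).NeBot := NeBot.of_map (m := ((↑) : ℍ → ℂ)) (by
        rw [Hr.map_ne]; infer_instance)
      have t : ContinuousAt (fun z : ℍ => a z + conj (b z)) w :=
        (ha.continuousAt.add (continuous_conj.continuousAt.comp hb.continuousAt)).comp
          UpperHalfPlane.continuous_coe.continuousAt
      refine ((t.mono_left nhdsWithin_le_nhds).congr' (q.mono fun z h => ?_)).limUnder_eq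
      rw [h.2, e, neg_zero, zero_mul, zero_add]
  · obtain ⟨y, C, s, e⟩ := E M _ S _ _ (hm_mv H γ⁻¹)
    obtain ⟨B, hB⟩ := s.mul_left 2
    refine ⟨‖C‖ + B, y, fun z hz => ⟨mu_zero ((nr_mv γ z).2 (e z hz).1), ?_⟩⟩
    have p := phi_mv (hm_mv H γ⁻¹) γ z
    simp only [fa_inv] at p
    rw [gr_eq ((nr_mv γ z).2 (e z hz).1), p]
    refine (norm_le_insert' _ C).trans
      (add_le_add_right ((e z hz).2.norm_le_of_bounded hB fun i => ?_) _)
    have k : ∀ x : ℂ, x.im = z.im → ‖ee ((i.1 + 1) * (i.2 + 1) * x / M)‖ ≤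
        Real.exp (-(2 * π * ((i.1 + 1) * (i.2 + 1) * y / M))) := fun x hx => by
      rw [norm_ee, div_natCast_im, show ((i.1 + 1) * (i.2 + 1) : ℂ) =
        (((i.1 + 1) * (i.2 + 1) : ℝ) : ℂ) by simp, im_ofReal_mul, hx]
      gcongr
    rw [tr, norm_mul, norm_div, ← Nat.cast_add_one, norm_natCast, Complex.norm_ofNat, add_mul]
    refine mul_le_mul (div_le_self two_pos.le (by simp)) (norm_add_le_of_le ?_ ?_) (norm_nonneg _)
      two_pos.le <;> rw [norm_mul] <;> refine mul_le_mul_of_nonneg_left ?_ (norm_nonneg _)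
    · simpa using k z rfl
    · simpa [neg_div] using k (-conj (z : ℂ)) (by simp)

end Vale.Agent.P004Z.Lf.Bg
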