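import Vale.Agent.P004Z.Lf.Stp
import Vale.Agent.P004Z.Lf.Ms
import Vale.Agent.P004Z.Du.Pair

/-!
# P004Z, block G4, row BRG: the seed of a harmonic form
-/

set_option autoImplicit false
set_option linter.all false

open UpperHalfPlane hiding I
open Complex MeasureTheory Filter Set
open scoped MatrixGroups Modular Real ComplexConjugate Topology NumberTheorySymbols

noncomputable section

namespace Vale.Agent.P004Z.Lf.Bg

open Du.Pe

variable {N : ℕ} [NeZero N] {δ : ℕ} {a : ℤ → ZMod (2 * N) → ℂ} {x : Cf N} {c : PP N}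

omit [NeZero N] in
theorem ph_le (r : ZMod (2 * N)) (l : Fm) : ‖(ph N δ r l : ℂ)‖ ≤ 1 := by
  have j : ∀ (a : ℤ) (p : ℕ), ‖(J(a | p) : ℂ)‖ ≤ 1 := fun a p => by
    rcases jacobiSym.trichotomy a p with h | h | h <;> simp [h]
  rw [ph]
  split_ifs
  · rw [gc, Int.cast_prod, norm_prod]
    exact Finset.prod_le_one (fun _ _ => norm_nonneg _) fun p _ => by split_ifs <;> exact j _ _
  · simp

theorem ph_in {r : ZMod (2 * N)} {l : Fm} (h : ph N δ r l ≠ 0) :
    ∃ m : ℤ, disc l = δ * m ∧ In N δ (-m) r := by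
  obtain ⟨⟨k, hk⟩, rfl, ⟨m, hm⟩, -⟩ := Hd.ph_ne h
  exact ⟨m, hm, (Du.in_int _ _).2 ⟨k * l.2.2, by rw [mul_neg, ← hm, disc, hk]; ring⟩⟩

omit [NeZero N] in
theorem ft_sum (ν : ℕ) {ι : Type} [Fintype ι] (h : ι → ℂ) (φ : ι → Fm → ℂ) (m : Fm) :
    ft ν (fun l => ∑ r, h r * φ r l) m = ∑ r, h r * ft ν (φ r) m := by
  simp only [ft, Finset.sum_mul, Finset.mul_sum]
  rw [Finset.sum_comm (s := Finset.univ)]
  refine Finset.sum_congr rfl fun _ _ => ?_
  rw [Finset.sum_comm (s := Finset.univ)]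
  refine Finset.sum_congr rfl fun _ _ => ?_
  rw [Finset.sum_comm (s := Finset.univ)]
  exact Finset.sum_congr rfl fun _ _ => Finset.sum_congr rfl fun _ _ => by ring

/-- the principal part -/
def pp (c : PP N) (r : ZMod (2 * N)) (τ : ℂ) : ℂ :=
  ∑ i ∈ c.support, if i.2 = r then c i * ee ((-i.1 : ℤ) * τ / (4 * N)) else 0

theorem hf_pp (h : Harm δ a x c) :
    ∃ C : ℝ, ∀ r (τ : ℂ), 1 / 2 ≤ τ.im → ‖hf a x r τ - pp c r τ‖ ≤ C := by
  obtain ⟨D, d1, d2⟩ := nh_le h.s
  have s := fun r => h.sum r (I / 2) (by simp)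
  refine ⟨∑ r, ∑' n, ‖a n r * ee (n * (I / 2) / (4 * N))‖ + D, fun r τ p => ?_⟩
  have k := c_pos (N := N)
  have e : HasSum (fun n : ℤ => if n < 0 then a n r * ee (n * τ / (4 * N)) else 0) (pp c r τ) := by
    have i : Function.Injective fun n : ℕ => (n, r) := Prod.mk_left_injective r
    have e1 := hasSum_sum_of_ne_finset_zero (L := SummationFilter.unconditional _) (s := c.support)
      (f := fun i => if i.2 = r then c i * ee ((-i.1 : ℤ) * τ / (4 * N)) else 0)
      fun i b => by simp [Finsupp.notMem_support_iff.1 b]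
    rw [← i.hasSum_iff fun j b => if_neg fun q => b ⟨j.1, Prod.ext rfl q.symm⟩] at e1
    refine ((neg_injective.comp Nat.cast_injective).hasSum_iff fun n b => if_neg fun q =>
      b ⟨n.natAbs, by simp only [Function.comp]; omega⟩).1 (e1.congr_fun fun n => ?_)
    rcases n.eq_zero_or_pos with rfl | q
    · simp [h.zero]
    · simp [q, h.pp n r q]
  rw [hf, add_sub_right_comm]
  refine norm_add_le_of_le (le_trans ?_ (Finset.single_le_sum (f := fun r =>
    ∑' n, ‖a n r * ee (n * (I / 2) / (4 * N))‖) (fun _ _ => by positivity) (Finset.mem_univ r)))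
    ((d2 r τ p).trans (mul_le_of_le_one_right d1 (Real.exp_le_one_iff.2 (by nlinarith))))
  refine ((h.sum r τ (by linarith)).of_norm.hasSum.sub e).norm_le_of_bounded (s r).hasSum fun n => ?_
  split_ifs with q
  · simp only [sub_self, norm_zero, norm_nonneg]
  · have : (0 : ℝ) ≤ n := by exact_mod_cast not_lt.1 q
    rw [sub_zero, nt, nt]
    gcongr ‖_‖ * Real.exp ?_
    simp only [div_ofNat_im, Complex.I_im]
    nlinarith [mul_nonneg (mul_nonneg this k.le) (sub_nonneg.2 p)]

theorem hf_le (h : Harm δ a x c) : ∃ C K : ℝ, 0 ≤ K ∧ ∀ r (τ : ℂ), 1 / 2 ≤ τ.im →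
    ‖hf a x r τ‖ ≤ C * Real.exp (K * τ.im) := by
  obtain ⟨C, hC⟩ := hf_pp h
  have k := c_pos (N := N)
  have s : 0 ≤ ∑ i ∈ c.support, (i.1 : ℝ) := by positivity
  refine ⟨∑ i ∈ c.support, ‖c i‖ + C, (∑ i ∈ c.support, (i.1 : ℝ)) * (π / (2 * N)), by positivity,
    fun r τ p => (norm_le_insert' _ (pp c r τ)).trans ?_⟩
  have v : 0 ≤ τ.im := by linarith
  rw [add_mul, Finset.sum_mul]
  refine add_le_add ((norm_sum_le _ _).trans (Finset.sum_le_sum fun i hi => ?_))
    ((hC r τ p).trans (le_mul_of_one_le_right ((norm_nonneg _).trans (hC r τ p))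
      (Real.one_le_exp (by positivity))))
  split_ifs
  · rw [nt, Int.cast_neg, Int.cast_natCast, neg_mul (i.1 : ℝ), neg_neg]
    gcongr
    exact Finset.single_le_sum (f := fun i : ℕ × ZMod (2 * N) => (i.1 : ℝ)) (fun _ _ => by positivity) hi
  · rw [norm_zero]; positivity

theorem coe_S' (τ : ℍ) : ((ModularGroup.S • τ : ℍ) : ℂ) = -1 / τ := by
  rw [W.coe_S, neg_div, one_div]

theorem hf_gr (K : Du.Kp N δ) (h : Harm δ a x c) : ∃ C : ℝ, 0 ≤ C ∧ ∀ r (τ : ℍ),
    ‖hf a x r τ‖ ≤ C * Real.exp (C * (τ.im + τ.im⁻¹)) := by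
  obtain ⟨C, k, k0, hC⟩ := hf_le h
  have E := W.inv_of (P := fun τ : ℍ => (∑ r, ‖hf a x r τ‖ ^ 2) ^ 2 * τ.im) (fun τ => by
    have e := K.pair (fun r => conj (hf a x r τ)) fun r => hf a x r τ
    have e' : ∀ r, ∑ s, sm N δ r s * conj (hf a x s τ) =
      conj (∑ s, conj (sm N δ r s) * hf a x s τ) := fun r => by simp
    simp only [e', conj_mul', ← ofReal_pow, ← ofReal_sum, ofReal_inj] at e
    have := norm_pos_iff.2 τ.ne_zero
    simp only [coe_S', h.law τ τ.im_pos, norm_mul, mul_pow, ← Finset.mul_sum, Du.norm_hw, e, im_S,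
      normSq_eq_norm_sq]
    field_simp) (fun τ => by
    simp only [W.coe_T, (hf_md K.ok h).T τ τ.im_pos, Du.norm_tm, norm_mul, norm_conj, one_mul,
      ModularGroup.im_T_smul])
  obtain ⟨B, hB⟩ : ∃ B : ℝ, B = (∑ _r : ZMod (2 * N), C ^ 2) ^ 2 := ⟨_, rfl⟩
  have B0 : 0 ≤ B := by rw [hB]; positivity
  refine ⟨1 + B + (4 * k + 2), by positivity, fun r τ => ?_⟩
  obtain ⟨g, hg⟩ := ModularGroup.exists_smul_mem_fd τ
  have v := τ.im_pos
  have v' := inv_pos.2 v
  have y : (g • τ).im ≤ τ.im + τ.im⁻¹ := (im_le g τ).trans (max_le (by linarith) (by linarith))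
  have z : τ.im⁻¹ ≤ τ.im + τ.im⁻¹ := by linarith
  generalize τ.im + τ.im⁻¹ = s at y z
  have s0 : 0 ≤ s := by linarith
  have s1 : s ≤ Real.exp s := by linarith [Real.add_one_le_exp s]
  have u : (‖hf a x r τ‖ ^ 2) ^ 2 ≤ B * Real.exp ((4 * k + 2) * s) :=
    calc _ ≤ (∑ r, ‖hf a x r τ‖ ^ 2) ^ 2 * τ.im * τ.im⁻¹ := by
          rw [mul_inv_cancel_right₀ v.ne']
          gcongr
          exact Finset.single_le_sum (f := fun r => ‖hf a x r τ‖ ^ 2) (fun _ _ => by positivity)
            (Finset.mem_univ r)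
      _ ≤ (∑ _r : ZMod (2 * N), (C * Real.exp (k * s)) ^ 2) ^ 2 * Real.exp s * Real.exp s := by
          rw [← E g τ]
          have := (g • τ).im_pos
          gcongr with r
          · have b := hC r (g • τ : ℍ) (fd_im hg).le
            refine b.trans (mul_le_mul_of_nonneg_left (by gcongr; exact y) ?_)
            exact nonneg_of_mul_nonneg_left ((norm_nonneg _).trans b) (Real.exp_pos _)
          · exact y.trans s1
          · exact z.trans s1
      _ = _ := by
          simp only [hB, mul_pow, ← Finset.sum_mul, ← pow_mul, ← Real.exp_nat_mul, mul_assoc,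
            ← Real.exp_add]
          congr 2
          push_cast
          ring
  have e1 := Real.one_le_exp (show 0 ≤ (4 * k + 2) * s by positivity)
  have e2 : Real.exp ((4 * k + 2) * s) ≤ Real.exp ((1 + B + (4 * k + 2)) * s) := by
    exact Real.exp_le_exp.2 (mul_le_mul_of_nonneg_right (by linarith) s0)
  refine le_trans ?_ (mul_le_mul (show 1 + B ≤ _ by linarith) e2 (by positivity) (by positivity))
  nlinarith [sq_nonneg (‖hf a x r τ‖ ^ 2 - 1 / 2), sq_nonneg (‖hf a x r τ‖ - 1 / 2)]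

/-! ### Fourier coefficients -/

theorem coef {ι : Type} [Countable ι] {b : ι → ℂ} {k : ι → ℤ} {m : ℤ} {v : ℝ}
    (h : Summable fun i => ‖b i * ee (k i * (v * I) / (4 * N))‖)
    (d : ∀ i, b i ≠ 0 → (4 * N : ℤ) ∣ k i - m) : HasSum (fun i => if k i = m then b i else 0)
      (∫ u in (0 : ℝ)..1, (∑' i, b i * ee (k i * (u + v * I) / (4 * N))) *
        ee (-(m * (u + v * I) / (4 * N)))) := by
  have n0 : (4 * N : ℤ) ≠ 0 := by simpa using NeZero.ne N
  have n1 := Du.N_ne (N := N)
  have e := ct (k := fun i => (k i - m) / (4 * N)) (a := fun i => b i * ee (k i * (v * I) / (4 * N)) *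
    ee (-(m * (v * I) / (4 * N)))) (by simpa only [norm_mul _ (ee (-_))] using h.mul_right _)
  rw [show (1 / 2 : ℝ) = -(1 / 2) + 1 by norm_num, show -(-(1 / 2 : ℝ) + 1) = -(1 / 2) by norm_num,
    Function.Periodic.intervalIntegral_add_eq (fun u => tsum_congr fun i => by
      rw [ofReal_add, ofReal_one, mul_add, mul_one, ee_add, ee_int, mul_one]) _ 0, zero_add] at e
  refine Eq.mp (congrArg₂ (HasSum · ·) (funext fun i => ?_) ?_) e
  · by_cases p : b i = 0
    · simp [p]
    obtain ⟨j, q⟩ := d i p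
    rw [q, Int.mul_ediv_cancel_left _ n0]
    by_cases t : j = 0
    · rw [t, mul_zero, sub_eq_zero] at q
      rw [if_pos t, if_pos q, q, mul_assoc, ← ee_add, add_neg_cancel, ee_zero, mul_one]
    · rw [if_neg t, if_neg fun w => mul_ne_zero n0 t (by rw [← q, w, sub_self])]
  · refine intervalIntegral.integral_congr fun u _ => ?_
    simp only [← tsum_mul_right]
    refine tsum_congr fun i => ?_
    by_cases p : b i = 0
    · simp [p]
    obtain ⟨j, q⟩ := d i p
    rw [q, Int.mul_ediv_cancel_left _ n0, mul_assoc, mul_assoc, mul_assoc, ← ee_add, ← ee_add,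
      ← ee_add]
    congr 2
    have := congrArg (Int.cast : ℤ → ℂ) q
    push_cast at this
    field_simp
    linear_combination -u * this

theorem co_nh (o : Ok N δ) (h : IsS δ x) {r : ZMod (2 * N)} {m : ℤ} (hm : 0 ≤ m)
    (i : In N δ (-m) r) {v : ℝ} (hv : 0 < v) :
    ∫ u in (0 : ℝ)..1, nh x r (u + v * I) * ee (-(m * (u + v * I) / (4 * N))) = 0 := by
  have q : ∀ u : ℝ, (u + v * I).im = v := fun u => by simp
  obtain ⟨C, -, hC⟩ := K_le (p := -(1 / 2)) (fn_dec h r) (by norm_num) hv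
  simp only [nh_eq, Du.Pe.J, neg_mul, ← integral_mul_const]
  rw [intervalIntegral.integral_neg, neg_eq_zero, intervalIntegral_integral_swap]
  · refine setIntegral_eq_zero_of_forall_eq_zero fun σ (s : 0 < σ) => ?_
    have e := coef (N := N) (b := (x · r)) (k := Nat.cast) (m := -m) (v := v + 2 * σ)
      (by simpa using h.sum r ((v + 2 * σ : ℝ) * I) (by simp; positivity))
      fun n b => Du.In.dvd o (h.sup n r b) i
    have z : (fun n : ℕ => if (n : ℤ) = -m then x n r else 0) = fun _ => 0 := funext fun n => by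
      split_ifs with b
      · rw [show n = 0 by omega, h.zero]
      · rfl
    rw [z] at e
    have e2 := congrArg (fun w => ((v + σ) ^ (-(1 / 2) : ℝ) : ℝ) *
      ee (-(m * (2 * v + 2 * σ) * I / (4 * N))) * conj w) (e.unique hasSum_zero)
    simp only [map_zero, mul_zero, ← intervalIntegral.intervalIntegral_conj,
      ← intervalIntegral.integral_const_mul] at e2
    refine (intervalIntegral.integral_congr fun u _ => ?_).trans e2
    simp only [Du.Pe.K, q, fn, map_mul, conj_ee, Int.cast_natCast]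
    rw [mul_mul_mul_comm _ (ee _), ← ee_add]
    refine congrArg₂ (· * ·) (congrArg _ (congrArg _ (tsum_congr fun n => ?_))) (congrArg _ ?_)
    · congr 3
      push_cast
      ring
    · simp [map_ofNat]
      ring
  · have w : Continuous fun u : ℝ => ee (-(m * (u + v * I) / (4 * N))) := by fun_prop
    have : IsFiniteMeasure (volume.restrict (uIoc (0 : ℝ) 1)) :=
      isFiniteMeasure_restrict.2 measure_Ioc_lt_top.ne
    refine ((integrable_const (C * Real.exp (-(π / (2 * N)) * v) *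
      ‖ee (-(m * (v * I) / (4 * N)))‖)).mul_prod (ex_int (fn_dec h r) 1)).mono' ?_ ?_
    · rw [Measure.prod_restrict]
      refine ContinuousOn.aestronglyMeasurable (fun p b => ContinuousAt.continuousWithinAt ?_)
        (measurableSet_uIoc.prod measurableSet_Ioi)
      exact ((K_cont (fn_dec h r) ((q p.1).symm ▸ hv) (le_of_lt b.2)).comp
        (f := fun p : ℝ × ℝ => (p.1 + v * I, p.2)) (by fun_prop)).mul
        (w.comp continuous_fst).continuousAt
    · filter_upwards [Measure.quasiMeasurePreserving_snd.ae (ae_restrict_mem measurableSet_Ioi)]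
        with p b
      have := hC (p.1 + v * I) (q _).ge p.2 (le_of_lt b)
      rw [q] at this
      rw [Function.uncurry, norm_mul, one_mul, mul_right_comm _ ‖_‖]
      refine mul_le_mul this (le_of_eq ?_) (norm_nonneg _) ((norm_nonneg _).trans this)
      rw [norm_ee, norm_ee, show (4 * N : ℂ) = ((4 * N : ℝ) : ℂ) by simp]
      simp only [neg_im, div_ofReal_im]
      simp

theorem co_hf (o : Ok N δ) (h : Harm δ a x c) {r : ZMod (2 * N)} {m : ℤ} (hm : 0 ≤ m)
    (i : In N δ (-m) r) {v : ℝ} (hv : 0 < v) :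
    ∫ u in (0 : ℝ)..1, hf a x r (u + v * I) * ee (-(m * (u + v * I) / (4 * N))) = a m r := by
  have t : ∀ f : ℂ → ℂ, ContinuousOn f {τ | 0 < τ.im} → IntervalIntegrable
      (fun u : ℝ => f (u + v * I) * ee (-(m * (u + v * I) / (4 * N)))) volume 0 1 := fun f b =>
    ((b.comp_continuous (by fun_prop) fun u => by simpa using hv).mul
      (by fun_prop)).intervalIntegrable _ _
  simp only [hf_eq, add_mul]
  rw [intervalIntegral.integral_add (t _ (hol_diff h r).continuousOn)
    (t _ (nh_c1 h.s r).continuousOn), co_nh o h.s hm i hv, add_zero]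
  refine (coef (N := N) (b := (a · r)) (k := id) (h.sum r _ (by simpa using hv)) fun n b => ?_).unique
    (hasSum_ite_eq m _ |>.congr_fun fun n => ?_)
  · simpa [sub_eq_add_neg, add_comm] using Du.In.dvd o i (h.sup n r b)
  · split_ifs with p <;> simp_all

end Vale.Agent.P004Z.Lf.Bg
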