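import Vale.Agent.P004Z.Lf.Brg1
import Vale.Agent.P004Z.Lf.Brg2

/-!
# P004Z, block G4, row BRG: the seed is harmonic, the lift
-/

set_option autoImplicit false
set_option linter.all false

open UpperHalfPlane hiding I
open Complex MeasureTheory Filter Set CongruenceSubgroup
open scoped MatrixGroups Modular Real ComplexConjugate Topology NumberTheorySymbols

noncomputable section

namespace Vale.Agent.P004Z.Lf.Bg

open Du.Pe

variable {N : ℕ} [NeZero N] (δ : ℕ) (a : ℤ → ZMod (2 * N) → ℂ) (x : Cf N) (c : PP N)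

/-- the seed -/
def sF (τ : ℍ) (l : Fm) : ℂ := ∑ r, hf a x r τ * ph N δ r l

/-- the discriminants -/
def sS : Finset ℤ := c.support.image fun i => -((δ : ℤ) * i.1)

/-- the principal part -/
def sC (D : ℤ) (l : Fm) : ℂ :=
  ∑ i ∈ c.support, if D = -((δ : ℤ) * i.1) then c i * ph N δ i.2 l else 0

/-- the coefficients -/
def sP (l : Fm) : ℂ := ∑ r, a (disc l / δ) r * ph N δ r l

variable {δ a x c}

theorem nz (o : Ok N δ) : NeZero (N * δ) := ⟨mul_ne_zero (NeZero.ne N) o.sq.ne_zero⟩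

theorem sum_le {h : ZMod (2 * N) → ℂ} {C : ℝ} (e : ∀ r, ‖h r‖ ≤ C) (l : Fm) :
    ‖∑ r, h r * ph N δ r l‖ ≤ ∑ _r : ZMod (2 * N), C :=
  (norm_sum_le _ _).trans (Finset.sum_le_sum fun r _ => by
    rw [norm_mul]
    exact (mul_le_of_le_one_right (norm_nonneg _) (ph_le r l)).trans (e r))

theorem sd (P : PHI) (o : Ok N δ) (h : Harm δ a x c) : Sd (N * δ) (sF δ a x) hw := by
  obtain ⟨p1, p2, p3, -, -, p6, p7, -⟩ := P N δ o
  have K := Du.kp P o
  refine ⟨fun τ l m => Finset.sum_congr rfl fun r _ => congrArg _ (p1 r l m), fun τ l => ?_,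
    fun τ l => ?_, fun l => continuous_finsetSum _ fun r _ => Continuous.mul
      ((hf_c1 h r).continuousOn.comp_continuous UpperHalfPlane.continuous_coe fun τ => τ.im_pos)
      continuous_const, fun γ τ b => ?_⟩
  · rw [sF, sF, Finset.mul_sum]
    refine Finset.sum_congr rfl fun r _ => ?_
    by_cases e : ph N δ r l = 0
    · simp [e]
    rw [W.coe_T, (hf_md o h).T τ τ.im_pos, ← p3 r l e, conj_ee, mul_assoc]
    simp [map_ofNat, neg_div]
  · have e : ∀ r, (ph N δ r (-l) : ℂ) = eps δ * ph N δ (-r) l := fun r => by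
      exact_mod_cast (neg_neg r ▸ p6 (-r) l :)
    rw [show sF δ a x τ = fun l => ∑ r, hf a x r τ * ph N δ r l from rfl, ft_sum, sF]
    simp only [coe_S', h.law τ τ.im_pos, mul_assoc, ← Finset.mul_sum, p2, e]
    rw [Du.Kp.adj (fun r s => conj (sm N δ r s)) fun r s => by rw [Du.sm_comm]]
    refine congrArg _ (Finset.sum_congr rfl fun s _ => congrArg _ ?_)
    rw [← Equiv.sum_comp (Equiv.neg _)]
    refine Finset.sum_congr rfl fun r _ => ?_
    rw [K.conj_sm, Equiv.neg_apply, neg_neg]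
    ring
  · simp only [sF]
    rw [Finset.sum_comm]
    refine Finset.sum_eq_zero fun r _ => ?_
    rw [← Finset.mul_sum, ← Int.cast_sum, p7, Int.cast_zero, mul_zero]

theorem pp_eq (o : Ok N δ) (τ : ℂ) (l : Fm) :
    ∑ D ∈ sS δ c, sC δ c D l * ee (D * τ / (4 * (N * δ : ℕ))) = ∑ r, pp c r τ * ph N δ r l := by
  have d : (δ : ℂ) ≠ 0 := Nat.cast_ne_zero.2 o.sq.ne_zero
  have n := Du.N_ne (N := N)
  simp only [sC, pp, Finset.sum_mul, ite_mul, zero_mul]
  rw [Finset.sum_comm, Finset.sum_comm (s := Finset.univ)]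
  refine Finset.sum_congr rfl fun i hi => ?_
  rw [Finset.sum_ite_eq', sS, if_pos (Finset.mem_image_of_mem _ hi), Finset.sum_ite_eq,
    if_pos (Finset.mem_univ _), mul_right_comm]
  congr 3
  push_cast
  field_simp

theorem hm (P : PHI) (o : Ok N δ) (h : Harm δ a x c) :
    Hm (N * δ) (sF δ a x) (sS δ c) (sC δ c) (sP δ a) := by
  have d : (0 : ℤ) < δ := by exact_mod_cast one_pos.trans o.one
  refine ⟨sd P o h, ?_, fun D e => ?_, fun D l e => ?_, ?_, fun l e v hv => ?_, fun τ => ?_,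
    fun D => ?_⟩
  · obtain ⟨C, c0, e⟩ := hf_gr (Du.kp P o) h
    have b : C ≤ ∑ _r : ZMod (2 * N), C :=
      Finset.single_le_sum (f := fun _ => C) (fun _ _ => c0) (Finset.mem_univ 0)
    refine ⟨∑ _r : ZMod (2 * N), C, fun τ l => (sum_le (e · τ) l).trans ?_⟩
    have := τ.im_pos
    rw [← Finset.sum_mul]
    have := c0.trans b
    gcongr
  · obtain ⟨i, hi, rfl⟩ := Finset.mem_image.1 e
    have : 0 < i.1 := Nat.pos_of_ne_zero fun q => Finsupp.mem_support_iff.1 hi
      (by rw [show i = (0, i.2) from Prod.ext q rfl, h.zero])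
    exact neg_neg_of_pos (by positivity)
  · obtain ⟨i, hi, e⟩ := Finset.exists_ne_zero_of_sum_ne_zero e
    split_ifs at e with q
    · obtain ⟨m, p, t⟩ := ph_in (Int.cast_ne_zero.1 (right_ne_zero_of_mul e))
      obtain ⟨j, u⟩ := Du.In.dvd o t ((adm (Du.kp P o) h).sup i.1 i.2 (left_ne_zero_of_mul e))
      exact ⟨j, by rw [q, p]; push_cast; linear_combination δ * u⟩
    · exact (e rfl).elim
  · obtain ⟨C, e⟩ := hf_pp h
    refine ⟨max (∑ i ∈ c.support, ‖c i‖) (∑ _r : ZMod (2 * N), C), fun D _ l => le_max_of_le_left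
      ((norm_sum_le _ _).trans (Finset.sum_le_sum fun i _ => ?_)), fun τ l p => le_max_of_le_right ?_⟩
    · split_ifs
      · rw [norm_mul]
        exact mul_le_of_le_one_right (norm_nonneg _) (ph_le _ l)
      · simp
    · rw [pp_eq o, sF, ← Finset.sum_sub_distrib]
      simp only [← sub_mul]
      exact sum_le (fun r => e r τ (by rw [coe_im]; linarith)) l
  · simp only [co, sF, sP, Finset.sum_mul, pt_coe _ hv]
    refine (intervalIntegral.integral_finsetSum fun r _ =>
      ((((hf_c1 h r).continuousOn.comp_continuous (by fun_prop) fun u => by simpa using hv).mul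
        continuous_const).mul (by fun_prop)).intervalIntegrable _ _).trans
      (Finset.sum_congr rfl fun r _ => ?_)
    by_cases q : ph N δ r l = 0
    · simp [q]
    obtain ⟨m, p, t⟩ := ph_in q
    rw [p] at e
    rw [p, Int.mul_ediv_cancel_left _ d.ne', ← co_hf o h (nonneg_of_mul_nonneg_right e d) t hv,
      ← intervalIntegral.integral_mul_const]
    refine intervalIntegral.integral_congr fun u _ => ?_
    have d : (δ : ℂ) ≠ 0 := Nat.cast_ne_zero.2 o.sq.ne_zero
    have n := Du.N_ne (N := N)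
    refine (mul_right_comm _ _ _).trans (congrArg (· * _) (congrArg _ (congrArg ee ?_)))
    push_cast
    field_simp
  · simp [sF, Hd.ph_zero o.one]
  · simp [sC, Hd.ph_zero o.one]

theorem mu_Zc (z : ℍ) : mu (sS δ c) (sC δ c) z = Zc δ c z := by
  have f : ∀ (i : ℕ × ZMod (2 * N)) (A : Type) [Zero A] (g : Fm → A), (Function.support fun l =>
      if disc l = -((δ : ℤ) * i.1) ∧ evq l z = 0 then g l else 0).Finite := fun i A _ g =>
    (Hd.root_fin _ z).subset fun l hl => by_contra fun e => hl (if_neg e)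
  have e : ∀ l, (if evq l z = 0 then cf (sS δ c) (sC δ c) l else 0) = ∑ i ∈ c.support,
      if disc l = -((δ : ℤ) * i.1) ∧ evq l z = 0 then c i * ph N δ i.2 l else 0 := fun l => by
    by_cases p : evq l z = 0
    · simp only [p, if_true, and_true, cf]
      split_ifs with q
      · rfl
      · exact (Finset.sum_eq_zero fun i hi => if_neg fun t =>
          q (Finset.mem_image.2 ⟨i, hi, t.symm⟩)).symm
    · simp [p]
  simp only [mu, finsum_eq_if, e]
  rw [finsum_sum_comm _ _ fun i _ => f i _ _]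
  refine Finset.sum_congr rfl fun i _ => ?_
  have := map_finsum ((AddMonoidHom.mulLeft (c i)).comp (Int.castAddHom ℂ)) (f i _ (ph N δ i.2))
  refine Eq.trans (finsum_congr fun l => ?_) this.symm
  split_ifs <;> simp

omit [NeZero N] in
theorem th0_sum (M : ℕ) [NeZero M] {ι : Type} [Fintype ι] (h : ι → ℂ) {φ : ι → Fm → ℂ}
    (e : ∀ r l, ‖φ r l‖ ≤ 1) (τ z : ℍ) :
    ∑ r, h r * th0 M (φ r) τ z = th0 M (fun l => ∑ r, h r * φ r l) τ z := by
  have hM : (0 : ℝ) < M := Nat.cast_pos.2 (NeZero.pos _)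
  have s : ∀ r, Summable fun l => h r * (φ r l * gau M l τ z) := fun r => by
    have := wt_pos z
    have : 0 < (τ : ℂ).im := τ.im_pos
    refine Summable.mul_left _ (.of_norm_bounded (sum_nq 0 (t := π * (τ : ℂ).im / (2 * M * wt z))
      (by positivity)) fun l => ?_)
    rw [norm_mul, pow_zero]
    exact mul_le_mul (e r l) (gau_le l z _ τ.im_pos.le) (norm_nonneg _) one_pos.le
  simp only [th0, Finset.sum_mul, mul_assoc]
  rw [Summable.tsum_finsetSum fun r _ => s r, Finset.mul_sum]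
  exact Finset.sum_congr rfl fun r _ => by rw [tsum_mul_left]; exact mul_left_comm _ _ _

theorem reg_eq (o : Ok N δ) (z : ℍ) (T : ℝ) :
    reg δ a x z T = ∫ τ in DT T, KK (N * δ) (sF δ a x) z τ := by
  have := nz o
  refine (int_FT (fun τ => ∑ r, hf a x r τ * th0 (N * δ) (fun l => ph N δ r l) τ z) T).trans
    (setIntegral_congr_fun (meas_DT T) fun τ _ => ?_)
  exact th0_sum (N * δ) _ ph_le τ z

theorem gr_lift (L : LOC) (E : EXPN) (P : PHI) (o : Ok N δ) (h : Harm δ a x c) :
    Green (Gamma0 N) (Zc δ c) (Gr (N * δ) (sF δ a x) (sS δ c)) := by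
  have := nz o
  rw [← funext mu_Zc]
  exact green L E (hm P o h) (fun γ p τ l => by simp only [sF, Hd.ph_fa o.odd _ _ p])
    fun γ p D l => by simp only [sC, Hd.ph_fa o.odd _ _ p]

theorem lift (L0 : LOC0) (L : LOC) (E : EXPN) (P : PHI) : LIFT := fun N _ δ o a x c h => by
  have := nz o
  refine ⟨_, gr_lift L E P o h, fun z hz => ?_⟩
  have n : Nr (sS δ c) z := fun l e => by
    obtain ⟨i, hi, p⟩ := Finset.mem_image.1 e
    exact hz i hi l p.symm
  rw [gr_eq n, funext (reg_eq o z)]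
  exact (L0 _ _ _ _ _ (hm P o h)).1 z n

end Vale.Agent.P004Z.Lf.Bg
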