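import Vale.Agent.P004Z.Defs

/-!
# P004Z, block G4: theta lifts of abstract seeds (words)

A seed is a function of `τ` with values in the functions on forms which are periodic modulo
`M (ℤ, 2 ℤ, ℤ)`.
-/

set_option autoImplicit false
set_option linter.all false

open UpperHalfPlane hiding I
open Complex MeasureTheory Filter Finset CongruenceSubgroup
open scoped MatrixGroups Modular Real ComplexConjugate Topology

noncomputable section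

namespace Vale.Agent.P004Z.Lf

/-- the point `u + i v` -/
def pt (u v : ℝ) : ℍ := ofComplex (⟨u, v⟩ : ℂ)

/-- the truncated fundamental domain -/
def DT (T : ℝ) : Set ℍ := {τ | τ ∈ 𝒟 ∧ τ.im ≤ T}

/-- a row vector times a matrix -/
def vm (v : ℤ × ℤ) (γ : SL(2, ℤ)) : ℤ × ℤ :=
  (v.1 * γ 0 0 + v.2 * γ 1 0, v.1 * γ 0 1 + v.2 * γ 1 1)

variable (M : ℕ) (F : ℍ → Fm → ℂ)

/-- a seed with the factor `w` -/
structure Sd (w : ℂ → ℂ) : Prop where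
  per : ∀ τ, Per M (F τ)
  T : ∀ τ l, F (ModularGroup.T • τ) l = ee (disc l / (4 * M)) * F τ l
  S : ∀ τ l, F (ModularGroup.S • τ) l = w τ * ft M (F τ) (-l)
  cont : ∀ l, Continuous fun τ => F τ l
  van : ∀ (γ : SL(2, ℤ)) τ (b : ℤ), ∑ j ∈ range M, F τ (fa (0, b, (j : ℤ)) γ) = 0

/-- the integrand of the lift of weight `0` -/
def KK (z τ : ℍ) : ℂ := th0 M (F τ) τ z

/-- the integrand of the lift of weight `2` -/
def K1 (z τ : ℍ) : ℂ := th1 M (F τ) τ z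

/-- the regularised lift -/
def Phi (z : ℍ) : ℂ := limUnder atTop fun T : ℝ => ∫ τ in DT T, KK M F z τ

/-- the Shimura lift -/
def Sh (z : ℍ) : ℂ := ∫ τ in 𝒟, K1 M F z τ

/-- the Fourier coefficient of index `disc l` -/
def co (l : Fm) (v : ℝ) : ℂ :=
  ∫ u in (0 : ℝ)..1, F (pt u v) l * ee (-(disc l * (pt u v : ℂ) / (4 * M)))

/-- a harmonic seed with principal part `c` (indices in `S`) and coefficients `cp` -/
structure Hm (S : Finset ℤ) (c : ℤ → Fm → ℂ) (cp : Fm → ℂ) : Prop where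
  sd : Sd M F hw
  gr : ∃ C : ℝ, ∀ τ l, ‖F τ l‖ ≤ C * Real.exp (C * (τ.im + τ.im⁻¹))
  neg : ∀ D ∈ S, D < 0
  sup : ∀ D l, c D l ≠ 0 → (4 * M : ℤ) ∣ D - disc l
  pp : ∃ C : ℝ, (∀ D ∈ S, ∀ l, ‖c D l‖ ≤ C) ∧
    ∀ τ l, 1 ≤ τ.im → ‖F τ l - ∑ D ∈ S, c D l * ee (D * τ / (4 * M))‖ ≤ C
  co : ∀ l, 0 ≤ disc l → ∀ v, 0 < v → co M F l v = cp l
  zero : (∀ τ, F τ 0 = 0) ∧ ∀ D, c D 0 = 0

/-- a cuspidal seed of weight `3 / 2` with coefficients `cp` -/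
structure Cs (cp : Fm → ℂ) : Prop where
  sd : Sd M F fun τ => -(τ * hw τ)
  bd : ∃ C : ℝ, ∀ τ l, ‖F τ l‖ * τ.im ^ (3 / 4 : ℝ) ≤ C
  dec : ∃ C κ : ℝ, 0 < κ ∧ ∀ τ l, 1 / 2 ≤ τ.im → ‖F τ l‖ ≤ C * Real.exp (-(κ * τ.im))
  co : ∀ l v, 0 < v → co M F l v = cp l
  zero : ∀ l, disc l ≤ 0 → cp l = 0

/-- the coefficient of the root of `l` -/
def cf (S : Finset ℤ) (c : ℤ → Fm → ℂ) (l : Fm) : ℂ := if disc l ∈ S then c (disc l) l else 0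

/-- the multiplicity of `z` in the divisor (both `l` and `-l` are counted) -/
def mu (S : Finset ℤ) (c : ℤ → Fm → ℂ) (z : ℍ) : ℂ := ∑ᶠ (l : Fm) (_ : evq l z = 0), cf S c l

/-- `z` is not a root -/
def Nr (S : Finset ℤ) (z : ℍ) : Prop := ∀ l, disc l ∈ S → evq l z ≠ 0

/-- the coefficients of the expansion at infinity -/
def ch (cp : Fm → ℂ) (b n : ℤ) : ℂ := ∑ j ∈ range M, cp (0, b, (j : ℤ)) * ee (-(j * n / M))

/-- the terms of the expansion at infinity -/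
def tr (cp : Fm → ℂ) (z : ℍ) (n b : ℕ) : ℂ := 2 / (n + 1) *
  (ch M cp (-(b + 1)) (n + 1) * ee ((n + 1) * (b + 1) * z / M) +
    ch M cp (b + 1) (n + 1) * ee (-((n + 1) * (b + 1) * conj (z : ℂ) / M)))

/-! ### the mixed model -/

/-- the Fourier transform in the last variable -/
def fl (φ : Fm → ℂ) (a b d : ℤ) : ℂ :=
  (M : ℂ)⁻¹ * ∑ j ∈ range M, φ (a, b, (j : ℤ)) * ee (-(j * d / M))

/-- the phase -/
def ex (z τ : ℍ) (a b d : ℤ) : ℂ :=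
  ee (-(((b + 2 * a * z.re) ^ 2 * conj (τ : ℂ) + 4 * d * z.re * (b + a * z.re)) / (4 * M)))

/-- the Gaussian -/
def gq (z τ : ℍ) (v : ℤ × ℤ) : ℝ :=
  √(M * τ.im) * Real.exp (-(π * z.im ^ 2 * normSq (v.1 * τ + v.2 : ℂ) / (M * τ.im)))

/-- the terms of `KK` -/
def H0 (z : ℍ) (v : ℤ × ℤ) (τ : ℍ) : ℂ :=
  z.im * gq M z τ v * ∑' b : ℤ, fl M (F τ) v.1 b v.2 * ex M z τ v.1 b v.2

/-- the terms of `K1` -/
def H1 (z : ℍ) (v : ℤ × ℤ) (τ : ℍ) : ℂ :=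
  I * gq M z τ v * ∑' b : ℤ, fl M (F τ) v.1 b v.2 *
    (z.im * (v.1 * τ + v.2) - τ.im * (b + 2 * v.1 * z.re)) * ex M z τ v.1 b v.2

/-! ### the Shintani lift -/

/-- the integral over `X₀(N)` -/
def iX (N : ℕ) (f : ℍ → ℂ) : ℂ := ∑ᶠ q : SL(2, ℤ) ⧸ Gamma0 N, ∫ z in 𝒟, f (q.out⁻¹ • z)

/-- the coefficient of index `D` of the Shintani lift of `G` -/
def sc (N ν : ℕ) (φ : Fm → ℂ) (G : ℍ → ℂ) (D : ℤ) (v : ℝ) : ℂ := iX N fun z =>
  (∑' l : {l : Fm // disc l = D},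
    φ l * (√v * Real.exp (-π * v * pz l z ^ 2 / ν) : ℝ) * evq l z) * G z

/-- the Shintani lift of `G` -/
def sn {N : ℕ} (δ₁ : ℕ) (ρ : ZMod (2 * N)) (G : ℍ → ℂ) : Cf N := fun n r =>
  sc N (N * δ₁) (fun l => ph N δ₁ (ρ * r) l) G (δ₁ * n) 1

end Vale.Agent.P004Z.Lf
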