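import Vale.Agent.P004Z.Lf.Po
import Vale.Agent.P004Z.Lf.Ms
import Vale.Agent.P273.H604.ParHol

/-!
# P004Z, block G4, row LOC0: dominated families, complexification
-/

set_option autoImplicit false
set_option linter.all false

open UpperHalfPlane hiding I
open Complex MeasureTheory Filter Set
open scoped MatrixGroups Modular Real ComplexConjugate Topology

noncomputable section

namespace Vale.Agent.P004Z.Lf.Lc

/-! ### dominated families -/

/-- the product measure -/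
def ms (B : Set ℍ) : Measure (Fm × ℍ) := Measure.count.prod (volume.restrict B)

/-- sum and integral -/
def Q (B : Set ℍ) (f : Fm → ℍ → ℂ) : ℂ := ∫ p, f p.1 p.2 ∂ms B

/-- a dominated family -/
structure Dm (B : Set ℍ) (C t : ℝ) (f : Fm → ℍ → ℂ) : Prop where
  me : ∀ l, Measurable (f l)
  ze : ∀ τ, f 0 τ = 0
  le : ∀ l, ∀ τ ∈ B, ‖f l τ‖ ≤ C * τ.im * Real.exp (-(t * τ.im * nq l))

/-- the majorant -/
def bd (C t : ℝ) (p : Fm × ℍ) : ℝ :=
  Real.exp (-(t / 4 * nq p.1)) * (2 * |C| * (p.2.im ^ 2 * Real.exp (-(t / 2) * p.2.im)))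

variable {B : Set ℍ} {C t : ℝ} {f : Fm → ℍ → ℂ}

theorem int_bd (hB : B ⊆ 𝒟) (C : ℝ) (ht : 0 < t) : Integrable (bd C t) (ms B) := by
  have h1 : Integrable (fun l : Fm => Real.exp (-(t / 4 * nq l))) Measure.count := by
    rw [integrable_count_iff]
    simpa using sum_nq 0 (t := t / 4) (by positivity)
  have h2 : IntegrableOn (fun τ : ℍ => τ.im ^ 2 * Real.exp (-(t / 2) * τ.im)) B := by
    refine (im_box measurableSet_Icc measurableSet_Ioi (Ioi_subset_Ioi one_half_pos.le) (by simp)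
      (g := fun y => y ^ 2 * Real.exp (-(t / 2) * y)) (by fun_prop) ?_).mono_set (hB.trans fd_sub)
    refine (exp_neg_integrableOn_Ioi (1 / 2) (half_pos ht)).congr_fun (fun y hy => ?_)
      measurableSet_Ioi
    have : 0 < y := one_half_pos.trans hy
    field_simp
  exact h1.mul_prod (h2.const_mul _)

theorem le_bd {l : Fm} {τ : ℍ} (hτ : τ ∈ 𝒟) (ht : 0 < t) {x : ℂ} (h0 : l = 0 → x = 0)
    (h : ‖x‖ ≤ C * τ.im * Real.exp (-(t * τ.im * nq l))) : ‖x‖ ≤ bd C t (l, τ) := by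
  by_cases e : l = 0
  · rw [h0 e, norm_zero, bd]; positivity
  have h1 := one_le_nq e
  have h2 := fd_im hτ
  refine h.trans ?_
  rw [bd, mul_left_comm, mul_left_comm (Real.exp _), ← Real.exp_add, ← mul_assoc]
  refine mul_le_mul ?_ (Real.exp_le_exp.2 ?_) (by positivity) (by positivity)
  · have := le_abs_self C
    have := abs_nonneg C
    simp only []
    nlinarith [mul_nonneg this (τ.im_pos.le), mul_nonneg this (mul_nonneg τ.im_pos.le
      (show 0 ≤ 2 * τ.im - 1 by linarith))]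
  · simp only []
    nlinarith [mul_nonneg ht.le (mul_nonneg (show 0 ≤ 2 * τ.im - 1 by linarith) (nq_nonneg l)),
      mul_nonneg ht.le (mul_nonneg τ.im_pos.le (show 0 ≤ nq l - 1 by linarith))]

theorem ae_ms (hB : MeasurableSet B) : ∀ᵐ p ∂ms B, p.2 ∈ B :=
  Measure.quasiMeasurePreserving_snd.ae (ae_restrict_mem hB)

theorem Dm.mono (h : Dm B C t f) {B' : Set ℍ} (e : B' ⊆ B) : Dm B' C t f :=
  ⟨h.me, h.ze, fun l τ hτ => h.le l τ (e hτ)⟩

theorem Dm.meas (h : Dm B C t f) : Measurable fun p : Fm × ℍ => f p.1 p.2 :=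
  measurable_from_prod_countable_right h.me

section
variable (h : Dm B C t f) (hB : B ⊆ 𝒟) (hm : MeasurableSet B) (ht : 0 < t)
include h hB hm ht

theorem Dm.intg : Integrable (fun p : Fm × ℍ => f p.1 p.2) (ms B) := by
  refine (int_bd hB C ht).mono' h.meas.aestronglyMeasurable ?_
  filter_upwards [ae_ms hm] with p hp
  exact le_bd (hB hp) ht (fun e => e ▸ h.ze _) (h.le _ _ hp)

theorem Dm.int1 (l : Fm) : IntegrableOn (f l) B :=
  Measure.ae_count_iff.1 (h.intg hB hm ht).prod_right_ae l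

theorem Dm.sum1 : HasSum (fun l => ∫ τ in B, f l τ) (∫ τ in B, ∑' l, f l τ) := by
  refine hasSum_integral_of_summable_integral_norm (h.int1 hB hm ht) ?_
  exact (integrable_count_iff.1 (h.intg hB hm ht).norm.integral_prod_left).of_norm

theorem Dm.sum2 : HasSum (fun l => ∫ τ in B, f l τ) (Q B f) := by
  have i := h.intg hB hm ht
  rw [Q, ms, integral_prod _ i, integral_countable i.integral_prod_left]
  simpa using (h.sum1 hB hm ht).summable.hasSum

end

theorem Dm.lim (h : Dm 𝒟 C t f) (ht : 0 < t) :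
    Tendsto (fun T => Q (DT T) f) atTop (𝓝 (Q 𝒟 f)) := by
  have i := h.intg subset_rfl meas_fd ht
  have u : (⋃ T, DT T) = 𝒟 := Subset.antisymm (iUnion_subset fun T τ hτ => hτ.1)
    fun τ hτ => mem_iUnion.2 ⟨τ.im, hτ, le_rfl⟩
  have := tendsto_setIntegral_of_monotone (μ := volume) meas_DT
    (fun a b e τ hτ => ⟨hτ.1, hτ.2.trans e⟩) (u.symm ▸ i.integral_prod_right)
  rw [u] at this
  rw [Q, ms, integral_prod_symm _ i]
  refine this.congr fun T => ?_
  rw [Q, ms, integral_prod_symm _ ((h.mono fun τ hτ => hτ.1).intg (fun τ hτ => hτ.1) (meas_DT T) ht)]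

/-! ### complexification -/

/-- `1 / y` -/
def ky (Z : ℂ × ℂ) : ℂ := 2 * I / (Z.1 - Z.2)

/-- the complexified `pz` -/
def pc (l : Fm) (Z : ℂ × ℂ) : ℂ :=
  l.1 * (Z.1 * Z.2 * ky Z) + l.2.1 * ((Z.1 + Z.2) / 2 * ky Z) + l.2.2 * ky Z

theorem sub_ne (z : ℍ) : (z : ℂ) - conj (z : ℂ) ≠ 0 := fun e => by
  have := congrArg Complex.im e
  simp at this
  exact z.im_ne_zero this

theorem pc_eq (l : Fm) (z : ℍ) : pc l (z, conj (z : ℂ)) = pz l z := by
  have h : ((z : ℂ).im : ℂ) ≠ 0 := ofReal_ne_zero.2 z.im_ne_zero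
  have e : ky (z, conj (z : ℂ)) = ((z : ℂ).im : ℂ)⁻¹ := by
    rw [ky, sub_conj]
    push_cast
    field_simp
  rw [pc, e, mul_conj, add_conj, pz]
  push_cast
  field_simp

theorem lin (l : Fm) {x y z : ℂ} {k : ℝ} (hx : ‖x‖ ≤ k) (hy : ‖y‖ ≤ k) (hz : ‖z‖ ≤ k) :
    ‖l.1 * x + l.2.1 * y + l.2.2 * z‖ ≤ k * (|(l.1 : ℝ)| + |(l.2.1 : ℝ)| + |(l.2.2 : ℝ)|) := by
  refine norm_add₃_le.trans ?_
  simp only [norm_mul, norm_intCast]
  nlinarith [mul_le_mul_of_nonneg_left hx (abs_nonneg (l.1 : ℝ)),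
    mul_le_mul_of_nonneg_left hy (abs_nonneg (l.2.1 : ℝ)),
    mul_le_mul_of_nonneg_left hz (abs_nonneg (l.2.2 : ℝ))]

theorem near {E : Type} [TopologicalSpace E] {α : E → ℂ} {Z : E} (h : ContinuousAt α Z) {δ K : ℝ}
    (hδ : 0 < δ) (hK : 2 * ‖α Z‖ < K) : ∀ᶠ W in 𝓝 Z, ‖α W - α Z‖ ≤ δ ∧ ‖α W + α Z‖ ≤ K := by
  have h1 : ContinuousAt (fun W => ‖α W - α Z‖) Z := by fun_prop
  have h2 : ContinuousAt (fun W => ‖α W + α Z‖) Z := by fun_prop
  exact (h1.eventually_le_const (by simpa)).and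
    (h2.eventually_le_const (by simpa [← two_mul]))

theorem pert (w : ℍ) {ε : ℝ} (hε : 0 < ε) : ∀ᶠ Z in 𝓝 ((w : ℂ), conj (w : ℂ)),
    Z.1 - Z.2 ≠ 0 ∧ ∀ l, pz l w ^ 2 - ε * nq l ≤ (pc l Z ^ 2).re := by
  set W := ((w : ℂ), conj (w : ℂ))
  have hk : ContinuousAt ky W := by
    unfold ky
    fun_prop (disch := exact sub_ne w)
  have ha : ContinuousAt (fun Z : ℂ × ℂ => Z.1 * Z.2 * ky Z) W := by fun_prop
  have hb : ContinuousAt (fun Z : ℂ × ℂ => (Z.1 + Z.2) / 2 * ky Z) W := by fun_prop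
  have hs : ContinuousAt (fun Z : ℂ × ℂ => Z.1 - Z.2) W := by fun_prop
  obtain ⟨K, hK⟩ : ∃ K, K = 2 * ‖W.1 * W.2 * ky W‖ + 2 * ‖(W.1 + W.2) / 2 * ky W‖ + 2 * ‖ky W‖ + 1 :=
    ⟨_, rfl⟩
  have n1 := norm_nonneg (W.1 * W.2 * ky W)
  have n2 := norm_nonneg ((W.1 + W.2) / 2 * ky W)
  have n3 := norm_nonneg (ky W)
  have K0 : 0 < K := by linarith
  have hδ : 0 < ε / (3 * K) := by positivity
  filter_upwards [near ha hδ (K := K) (by linarith), near hb hδ (K := K) (by linarith),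
    near hk hδ (K := K) (by linarith), hs.eventually_ne (sub_ne w)] with Z a b c d
  refine ⟨d, fun l => ?_⟩
  have e1 := lin l a.1 b.1 c.1
  have e2 := lin l a.2 b.2 c.2
  have e3 : ‖pc l Z ^ 2 - pc l W ^ 2‖ ≤ ε * nq l := by
    rw [sq_sub_sq, norm_mul]
    refine (mul_le_mul (e2.trans_eq' (by congr 1; simp only [pc]; ring))
      (e1.trans_eq' (by congr 1; simp only [pc]; ring)) (by positivity) (by positivity)).trans ?_
    rw [mul_mul_mul_comm, show K * (ε / (3 * K)) = ε / 3 by field_simp, nq, ← sq_abs (l.1 : ℝ),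
      ← sq_abs (l.2.1 : ℝ), ← sq_abs (l.2.2 : ℝ)]
    generalize |(l.1 : ℝ)| = x, |(l.2.1 : ℝ)| = y, |(l.2.2 : ℝ)| = z
    nlinarith [mul_nonneg hε.le (sq_nonneg (x - y)), mul_nonneg hε.le (sq_nonneg (x - z)),
      mul_nonneg hε.le (sq_nonneg (y - z))]
  have e4 := (abs_le.1 ((abs_re_le_norm _).trans e3)).1
  rw [sub_re, pc_eq, ← ofReal_pow, ofReal_re] at e4
  linarith

/-- the complexified terms -/
def fc (M : ℕ) (h : Fm → ℍ → ℂ) (Z : ℂ × ℂ) (l : Fm) (τ : ℍ) : ℂ :=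
  h l τ * cexp (-π * τ.im * pc l Z ^ 2 / M)

theorem fc_eq (M : ℕ) (h : Fm → ℍ → ℂ) (z : ℍ) (l : Fm) (τ : ℍ) : fc M h (z, conj (z : ℂ)) l τ =
    h l τ * (Real.exp (-π * τ.im * pz l z ^ 2 / M) : ℝ) := by
  rw [fc, pc_eq]
  push_cast
  rfl

theorem norm_fc (M : ℕ) (h : Fm → ℍ → ℂ) (Z : ℂ × ℂ) (l : Fm) (τ : ℍ) :
    ‖fc M h Z l τ‖ = ‖h l τ‖ * Real.exp (-π * τ.im * (pc l Z ^ 2).re / M) := by
  rw [fc, norm_mul, norm_exp, div_natCast_re, ← ofReal_neg, ← ofReal_mul, re_ofReal_mul]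

theorem dm_near {M : ℕ} [NeZero M] {h : Fm → ℍ → ℂ} (hm : ∀ l, Measurable (h l)) {w : ℍ}
    (H : Dm 𝒟 C t (fc M h (w, conj (w : ℂ)))) (ht : 0 < t) :
    ∀ᶠ Z in 𝓝 ((w : ℂ), conj (w : ℂ)), Z.1 - Z.2 ≠ 0 ∧ Dm 𝒟 C (t / 2) (fc M h Z) := by
  have hM : (0 : ℝ) < M := by exact_mod_cast NeZero.pos M
  filter_upwards [pert w (ε := t / 2 * M / π) (by positivity)] with Z hZ
  refine ⟨hZ.1, fun l => (hm l).mul ?_, fun τ => ?_, fun l τ hτ => ?_⟩
  · have := UpperHalfPlane.continuous_im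
    exact Continuous.measurable (by fun_prop)
  · rw [fc, (mul_eq_zero.1 (H.ze τ)).resolve_right (exp_ne_zero _), zero_mul]
  · have e := H.le l τ hτ
    rw [norm_fc, pc_eq, ← ofReal_pow, ofReal_re] at e
    rw [norm_fc, show -(t / 2 * τ.im * nq l) = -(t * τ.im * nq l) + t / 2 * τ.im * nq l by ring,
      Real.exp_add, ← mul_assoc]
    refine le_trans ?_ (mul_le_mul_of_nonneg_right e (Real.exp_pos _).le)
    rw [mul_assoc ‖h l τ‖, ← Real.exp_add]
    gcongr
    have := mul_le_mul_of_nonneg_left (hZ.2 l) (show 0 ≤ π * τ.im / M by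
      have := τ.im_pos; positivity)
    have e2 : π * τ.im / M * (t / 2 * M / π * nq l) = t / 2 * τ.im * nq l := by field_simp
    rw [mul_sub, e2] at this
    linear_combination this

theorem an_Q {M : ℕ} [NeZero M] {h : Fm → ℍ → ℂ} (hm : ∀ l, Measurable (h l)) {w : ℍ}
    (H : Dm 𝒟 C t (fc M h (w, conj (w : ℂ)))) (ht : 0 < t) :
    AnalyticAt ℝ (fun z : ℂ => Q 𝒟 (fc M h (z, conj z))) w := by
  obtain ⟨r, hr, hU⟩ := Metric.eventually_nhds_iff_ball.1 (dm_near hm H ht)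
  have a := P273.H604.analyticOnNhd_integral (μ := ms 𝒟) (f := fun Z p => fc M h Z p.1 p.2)
    Metric.isOpen_ball (fun Z hZ => (hU Z hZ).2.meas.aestronglyMeasurable)
    (Eventually.of_forall fun p => ?_) (fun Z hZ => ?_) _ (Metric.mem_ball_self hr)
  · exact (a.restrictScalars (𝕜 := ℝ)).comp_of_eq
      (analyticAt_id.prod (conjCLE.toContinuousLinearMap.analyticAt _)) rfl
  · have hk : DifferentiableOn ℂ ky (Metric.ball ((w : ℂ), conj (w : ℂ)) r) :=
      (DifferentiableOn.inv (by fun_prop) fun Z hZ => (hU Z hZ).1).const_mul _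
    unfold fc pc
    fun_prop
  · obtain ⟨s, hs, e⟩ := Metric.isOpen_iff.1 Metric.isOpen_ball Z hZ
    refine ⟨s, hs, _, int_bd subset_rfl C (half_pos ht), ?_⟩
    filter_upwards [ae_ms meas_fd] with p hp W hW
    have d := (hU W (e hW)).2
    exact le_bd hp (half_pos ht) (fun e => e ▸ d.ze _) (d.le _ _ hp)

/-! ### the exponential integral -/

/-- the truncated exponential integral -/
def Ex (X T : ℝ) : ℂ := ∫ v in Ioc 1 T, (Real.exp (-(v * X)) / v : ℝ)

theorem ex_E : ∃ G : ℂ → ℂ, (∀ x, AnalyticAt ℂ G x) ∧ ∀ X : ℝ, 0 < X →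
    Tendsto (Ex X) atTop (𝓝 (G X - (Real.log X : ℝ))) := by
  have d : Differentiable ℂ (dslope (fun s => cexp (-s)) 0) := differentiableOn_univ.1
    ((differentiableOn_dslope univ_mem).2 (by fun_prop))
  obtain ⟨G, hG⟩ := d.isExactOn_univ
  have key : ∀ X : ℝ, 0 < X → ∀ T, 1 ≤ T → Ex X T =
      (G (T * X : ℝ) + (Real.log (T * X) : ℝ)) - (G (1 * X : ℝ) + (Real.log (1 * X) : ℝ)) := by
    intro X hX T hT
    rw [Ex, ← intervalIntegral.integral_of_le hT]
    refine intervalIntegral.integral_eq_sub_of_hasDerivAt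
      (f := fun v : ℝ => G (v * X : ℝ) + (Real.log (v * X) : ℝ)) (fun v hv => ?_) ?_
    · rw [uIcc_of_le hT] at hv
      have v0 : 0 < v := one_pos.trans_le hv.1
      have m : HasDerivAt (fun v : ℝ => v * X) X v := by simpa using (hasDerivAt_id v).mul_const X
      have p : v * X ≠ 0 := by positivity
      refine ((((hG (v * X : ℝ) (mem_univ _)).comp_ofReal.scomp v m)).add
        (m.log p).ofReal_comp).congr_deriv ?_
      rw [dslope_of_ne _ (ofReal_ne_zero.2 p), slope_def_field]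
      have : (v : ℂ) ≠ 0 := ofReal_ne_zero.2 v0.ne'
      have : (X : ℂ) ≠ 0 := ofReal_ne_zero.2 hX.ne'
      simp
      field_simp
      ring
    · refine ContinuousOn.intervalIntegrable ?_
      rw [uIcc_of_le hT]
      exact continuous_ofReal.comp_continuousOn (ContinuousOn.div (by fun_prop) continuousOn_id
        fun v hv => (one_pos.trans_le hv.1).ne')
  have i : IntegrableOn (fun v : ℝ => ((Real.exp (-(v * 1)) / v : ℝ) : ℂ)) (Ioi 1) := by
    refine (exp_neg_integrableOn_Ioi 1 one_pos).mono'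
      (Measurable.aestronglyMeasurable (by fun_prop)) ?_
    filter_upwards [ae_restrict_mem measurableSet_Ioi] with v (hv : 1 < v)
    rw [norm_real, Real.norm_of_nonneg (by positivity), mul_one, neg_one_mul]
    exact div_le_self (by positivity) hv.le
  have l := intervalIntegral_tendsto_integral_Ioi 1 i tendsto_id
  generalize (∫ v in Ioi (1 : ℝ), ((Real.exp (-(v * 1)) / v : ℝ) : ℂ)) = K at l
  refine ⟨fun x => K + G 1 - G x, fun x => ?_, fun X hX => ?_⟩
  · exact analyticAt_const.sub (Differentiable.analyticAt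
      (fun y => (hG y (mem_univ _)).differentiableAt) x)
  · have := ((l.comp (tendsto_id.atTop_mul_const hX)).add_const (G 1)).sub_const
      (G X + (Real.log X : ℝ))
    rw [sub_sub]
    refine this.congr' ?_
    filter_upwards [eventually_ge_atTop 1, (tendsto_id.atTop_mul_const hX).eventually_ge_atTop 1]
      with T h1 h2
    have := key 1 one_pos _ h2
    rw [Ex, ← intervalIntegral.integral_of_le h2] at this
    simp only [Function.comp, id] at this ⊢
    rw [this, key X hX T h1]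
    simp

end Vale.Agent.P004Z.Lf.Lc
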