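import Vale.Agent.P004Z.Lf.Loc1
import Vale.Agent.P004Z.Lf.St

/-!
# P004Z, block G4, row LOC0: the regularised integral
-/

set_option autoImplicit false
set_option linter.all false

open UpperHalfPlane hiding I
open Complex MeasureTheory Filter Set
open scoped MatrixGroups Modular Real ComplexConjugate Topology

noncomputable section

namespace Vale.Agent.P004Z.Lf.Lc

/-- the exponent -/
def Xl (M : ℕ) (l : Fm) (z : ℂ) : ℝ := π * (pz l z ^ 2 + disc l) / M

theorem cont_gau (M : ℕ) (l : Fm) (z : ℂ) : Continuous fun τ : ℍ => gau M l τ z := by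
  unfold gau
  have := UpperHalfPlane.continuous_coe
  fun_prop

theorem int_ee (k : ℤ) :
    ∫ x in Icc (-(1 / 2) : ℝ) (1 / 2), ee (k * x) = if k = 0 then 1 else 0 := by
  split_ifs with h
  · simp [h, ee_zero]
    norm_num
  · have : (2 * π * I * k : ℂ) ≠ 0 := mul_ne_zero two_pi_I_ne_zero (Int.cast_ne_zero.2 h)
    rw [integral_Icc_eq_integral_Ioc, ← intervalIntegral.integral_of_le (by norm_num)]
    simp only [ee, ← mul_assoc]
    rw [integral_exp_mul_complex this, div_eq_zero_iff, sub_eq_zero]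
    left
    rw [exp_eq_exp_iff_exists_int]
    exact ⟨k, by push_cast; ring⟩

theorem eg_eq (M : ℕ) [NeZero M] (l : Fm) (z : ℂ) (k : ℤ) (x y : ℝ) :
    ee ((disc l + 4 * M * k : ℤ) * (x + y * I) / (4 * M)) * gau M l (x + y * I) z =
      ee (k * x) * (Real.exp (-(2 * π * k * y)) * Real.exp (-(y * Xl M l z)) : ℝ) := by
  have : (M : ℂ) ≠ 0 := Nat.cast_ne_zero.2 (NeZero.ne M)
  simp only [gau, ee, Xl, map_add, map_mul, conj_ofReal, conj_I, add_im, ofReal_im, mul_im,
    ofReal_re, Complex.I_im, Complex.I_re]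
  push_cast
  simp only [← exp_add]
  congr 1
  field_simp
  linear_combination (4 * (disc l + 2 * M * k) * y : ℂ) * I_sq

/-- the upper part of the truncated domain -/
def Up (T : ℝ) : Set ℍ := Bx (Icc (-(1 / 2)) (1 / 2)) (Ioc 1 T)

theorem int_Up {f : ℍ → ℂ} (h : Continuous f) (T : ℝ) : IntegrableOn f (Up T) :=
  (h.continuousOn.integrableOn_compact (cpt_Bx _ _ T one_pos)).mono_set
    fun _ h => ⟨h.1, Ioc_subset_Icc_self h.2⟩

theorem Up_eq (T : ℝ) : DT T ∩ {τ | 1 < τ.im} = Up T := by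
  ext τ
  refine ⟨fun h => ⟨abs_le.1 h.1.1.2, h.2, h.1.2⟩, fun h => ⟨⟨⟨?_, abs_le.2 h.1⟩, h.2.2⟩, h.2.1⟩⟩
  have := h.2.1
  rw [normSq_apply, coe_re, coe_im]
  nlinarith [mul_self_nonneg τ.re]

theorem cont_tm (M : ℕ) (l : Fm) (z : ℂ) (D : ℤ) :
    Continuous fun τ : ℍ => τ.im * (ee (D * τ / (4 * M)) * gau M l τ z) := by
  have := UpperHalfPlane.continuous_coe
  have := UpperHalfPlane.continuous_im
  have := cont_gau M l z
  fun_prop

theorem int_U (M : ℕ) [NeZero M] (l : Fm) (z : ℂ) {D : ℤ} (h : (4 * M : ℤ) ∣ D - disc l) (T : ℝ) :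
    ∫ τ in Up T, τ.im * (ee (D * τ / (4 * M)) * gau M l τ z) =
      if D = disc l then Ex (Xl M l z) T else 0 := by
  obtain ⟨k, hk⟩ := h
  obtain rfl : D = disc l + 4 * M * k := by linarith
  have h0 : Ioc 1 T ⊆ Ioi (0 : ℝ) := fun y hy => one_pos.trans hy.1
  have hM : (M : ℤ) ≠ 0 := Nat.cast_ne_zero.2 (NeZero.ne M)
  rw [Up, int_box measurableSet_Icc measurableSet_Ioc h0 (int_Up (cont_tm M l z _) T),
    setIntegral_congr_fun measurableSet_Ioc (g := fun y => if k = 0 then
      ((Real.exp (-(y * Xl M l z)) / y : ℝ) : ℂ) else 0) fun y hy => ?_]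
  · by_cases e : k = 0 <;> simp [e, NeZero.ne M, Ex]
  · have y0 : (y : ℂ) ≠ 0 := ofReal_ne_zero.2 (ne_of_gt (h0 hy))
    simp only [pt_im _ (h0 hy), pt_coe _ (h0 hy), eg_eq, integral_const_mul, integral_mul_const,
      int_ee]
    split_ifs with e
    · simp [e]
      field_simp
    · simp

variable (M : ℕ) (F : ℍ → Fm → ℂ) (S : Finset ℤ) (c : ℤ → Fm → ℂ) (A : Finset Fm)

/-- what is subtracted -/
def sb (l : Fm) (τ : ℍ) : ℂ := ∑ D ∈ S, c D l * ee (D * τ / (4 * M)) -
  (if l ∈ A then 0 else cf S c l) * ee (disc l * τ / (4 * M))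

/-- the coefficients of the regular part -/
def hh (l : Fm) (τ : ℍ) : ℂ :=
  τ.im * (F τ l - {τ : ℍ | 1 < τ.im}.indicator (sb M S c A l) τ) * ee (-(disc l : ℂ) * conj (τ : ℂ) / (4 * M))

theorem fc_hh (z : ℍ) (l : Fm) (τ : ℍ) : fc M (hh M F S c A) (z, conj (z : ℂ)) l τ =
    τ.im * (F τ l - {τ : ℍ | 1 < τ.im}.indicator (sb M S c A l) τ) * gau M l τ z := by
  rw [fc_eq, hh, gau, mul_assoc _ (ee _)]
  rfl

theorem meas_up : MeasurableSet {τ : ℍ | 1 < τ.im} :=
  UpperHalfPlane.continuous_im.measurable measurableSet_Ioi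

theorem cont_sb (l : Fm) : Continuous (sb M S c A l) := by
  unfold sb
  have := UpperHalfPlane.continuous_coe
  fun_prop

variable {M F S c} {cp : Fm → ℂ} [NeZero M] (H : Hm M F S c cp)
include H

theorem int_sb (z : ℂ) (l : Fm) (T : ℝ) : ∫ τ in Up T, τ.im * (sb M S c A l τ * gau M l τ z) =
    if l ∈ A then cf S c l * Ex (Xl M l z) T else 0 := by
  have e : ∀ τ : ℍ, τ.im * (sb M S c A l τ * gau M l τ z) =
      ∑ D ∈ S, c D l * (τ.im * (ee (D * τ / (4 * M)) * gau M l τ z)) -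
      (if l ∈ A then 0 else cf S c l) * (τ.im * (ee (disc l * τ / (4 * M)) * gau M l τ z)) := by
    intro τ
    rw [sb, sub_mul, mul_sub, Finset.sum_mul, Finset.mul_sum]
    congr 1
    · exact Finset.sum_congr rfl fun _ _ => by ring
    · ring
  have i := fun D (a : ℂ) => (int_Up (cont_tm M l z D) T).const_mul a
  simp only [e]
  rw [integral_sub (integrable_finset_sum _ fun D _ => i D _) (i _ _),
    integral_finset_sum _ fun D _ => i D _]
  simp only [integral_const_mul]
  rw [int_U M l z (by simp), if_pos rfl, Finset.sum_congr rfl (g := fun D =>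
    if D = disc l then c D l * Ex (Xl M l z) T else 0) fun D _ => ?_, Finset.sum_ite_eq', cf]
  · split_ifs <;> ring
  · by_cases h : c D l = 0
    · simp [h]
    · rw [int_U M l z (H.sup D l h), mul_ite, mul_zero]

theorem cont_raw (z : ℂ) (l : Fm) : Continuous fun τ : ℍ => τ.im * (F τ l * gau M l τ z) := by
  have := UpperHalfPlane.continuous_im
  have := cont_gau M l z
  have := H.sd.cont l
  fun_prop

theorem term (z : ℍ) (l : Fm) (T : ℝ) : ∫ τ in DT T, τ.im * (F τ l * gau M l τ z) =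
    (∫ τ in DT T, fc M (hh M F S c A) (z, conj (z : ℂ)) l τ) +
      if l ∈ A then cf S c l * Ex (Xl M l z) T else 0 := by
  have e : ∀ τ : ℍ, fc M (hh M F S c A) (z, conj (z : ℂ)) l τ = τ.im * (F τ l * gau M l τ z) -
      {τ : ℍ | 1 < τ.im}.indicator (fun τ => τ.im * (sb M S c A l τ * gau M l τ z)) τ := by
    intro τ
    rw [fc_hh]
    by_cases h : τ ∈ {τ : ℍ | 1 < τ.im}
    · simp only [indicator_of_mem h]; ring
    · simp only [indicator_of_notMem h]; ring
  have k : Continuous fun τ : ℍ => τ.im * (sb M S c A l τ * gau M l τ z) := by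
    have := UpperHalfPlane.continuous_im
    have := cont_gau M l z
    have := cont_sb M S c A l
    fun_prop
  simp only [e]
  rw [integral_sub (int_DT (cont_raw H z l) T) ((int_DT k T).indicator meas_up),
    setIntegral_indicator meas_up, Up_eq, int_sb A H, sub_add_cancel]

theorem bd_F (T : ℝ) : ∃ C : ℝ, ∀ τ ∈ DT T, ∀ l, ‖F τ l‖ ≤ C := by
  obtain ⟨C, h⟩ := H.gr
  refine ⟨|C| * Real.exp (|C| * (T + 2)), fun τ hτ l => (h τ l).trans ?_⟩
  have h1 := fd_im hτ.1
  have h2 : τ.im⁻¹ ≤ 2 := inv_le_of_inv_le₀ two_pos (by linarith)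
  have h3 := hτ.2
  gcongr <;> exact le_abs_self C

theorem dm_raw (z : ℍ) (T : ℝ) : ∃ C : ℝ,
    Dm (DT T) C (π / (2 * M * wt z)) fun l τ => τ.im * (F τ l * gau M l τ z) := by
  obtain ⟨C, h⟩ := bd_F H T
  refine ⟨C, fun l => (cont_raw H z l).measurable, fun τ => by simp [H.zero.1], fun l τ hτ => ?_⟩
  rw [norm_mul, norm_mul, norm_real, Real.norm_of_nonneg τ.im_pos.le, mul_comm C, mul_assoc]
  refine mul_le_mul_of_nonneg_left (mul_le_mul (h τ hτ l) ((gau_le l z M τ.im_pos.le).trans_eq ?_)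
    (norm_nonneg _) ((norm_nonneg _).trans (h τ hτ l))) τ.im_pos.le
  rw [coe_im, mul_div_right_comm]

theorem trunc {z : ℍ} {C t : ℝ} (ht : 0 < t) (d : Dm 𝒟 C t (fc M (hh M F S c A) (z, conj (z : ℂ))))
    (T : ℝ) : ∫ τ in DT T, KK M F z τ = Q (DT T) (fc M (hh M F S c A) (z, conj (z : ℂ))) +
      ∑ l ∈ A, cf S c l * Ex (Xl M l z) T := by
  obtain ⟨C', d'⟩ := dm_raw H z T
  have hM : (0 : ℝ) < M := by exact_mod_cast NeZero.pos M
  have := wt_pos z
  have h1 := d'.sum1 (fun τ h => h.1) (meas_DT T) (by positivity)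
  have h2 := (d.mono fun τ h => h.1).sum2 (fun τ h => h.1) (meas_DT T) ht
  have h3 := hasSum_sum_of_ne_finset_zero (f := fun l => if l ∈ A then cf S c l * Ex (Xl M l z) T else 0)
    (s := A) (L := SummationFilter.unconditional _) fun l hl => if_neg hl
  simp only [term A H, tsum_mul_left] at h1
  rw [Finset.sum_congr rfl fun l hl => if_pos hl] at h3
  exact h1.unique (h2.add h3)

theorem main {G : ℂ → ℂ} (hG : ∀ X : ℝ, 0 < X → Tendsto (Ex X) atTop (𝓝 (G X - (Real.log X : ℝ))))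
    {z : ℍ} {C t : ℝ} (ht : 0 < t) (d : Dm 𝒟 C t (fc M (hh M F S c A) (z, conj (z : ℂ))))
    (hA : ∀ l ∈ A, evq l z ≠ 0) : Tendsto (fun T => ∫ τ in DT T, KK M F z τ) atTop
      (𝓝 (Q 𝒟 (fc M (hh M F S c A) (z, conj (z : ℂ))) +
        ∑ l ∈ A, cf S c l * (G (Xl M l z) - (Real.log (Xl M l z) : ℝ)))) := by
  simp only [trunc A H ht d]
  refine (d.lim ht).add (tendsto_finset_sum _ fun l hl => (hG _ ?_).const_mul _)
  have hM : (0 : ℝ) < M := by exact_mod_cast NeZero.pos M
  have := normSq_pos.2 (hA l hl)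
  have := z.im_pos
  rw [Xl, pz_sq]
  positivity

theorem meas_hh (l : Fm) : Measurable (hh M F S c A l) := by
  have := UpperHalfPlane.continuous_im
  have := UpperHalfPlane.continuous_coe
  exact ((Continuous.measurable (by fun_prop)).mul ((H.sd.cont l).measurable.sub
    ((cont_sb M S c A l).measurable.indicator meas_up))).mul (Continuous.measurable (by fun_prop))

theorem dm_hh {w : ℍ} (hA : ∀ l ∉ A, disc l ∈ S → nq l ≤ 4 * wt w * (pz l w ^ 2 + disc l)) :
    ∃ C : ℝ, Dm 𝒟 C (π / (4 * M * wt w)) (fc M (hh M F S c A) (w, conj (w : ℂ))) := by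
  obtain ⟨C, hC⟩ := bd_F H 1
  obtain ⟨C', h1, h2⟩ := H.pp
  have hM : (0 : ℝ) < M := by exact_mod_cast NeZero.pos M
  have hw := wt_pos w
  refine ⟨|C| + 2 * |C'|, fun l => (meas_hh A H l).mul ?_, fun τ => ?_, fun l τ hτ => ?_⟩
  · have := UpperHalfPlane.continuous_im
    exact Continuous.measurable (by fun_prop)
  · simp [fc_hh, H.zero.1, H.zero.2, sb, cf, indicator]
  have v := τ.im_pos
  have n := nq_nonneg l
  have g : ‖gau M l τ w‖ ≤ Real.exp (-(π / (4 * M * wt w) * τ.im * nq l)) := by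
    refine (gau_le l w M v.le).trans ?_
    rw [coe_im, mul_div_right_comm]
    gcongr
    norm_num
  have a1 := le_abs_self C
  have a2 := le_abs_self C'
  have a3 := abs_nonneg C
  have a4 := abs_nonneg C'
  rw [fc_hh, mul_assoc, norm_mul, norm_real, Real.norm_of_nonneg v.le, mul_comm _ τ.im, mul_assoc]
  refine mul_le_mul_of_nonneg_left ?_ v.le
  by_cases h : τ ∈ {τ : ℍ | 1 < τ.im}
  · rw [indicator_of_mem h, sb, ← sub_add, add_mul, two_mul, ← add_assoc, add_mul _ |C'|]
    refine norm_add_le_of_le ?_ ?_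
    · rw [norm_mul]
      exact mul_le_mul ((h2 τ l (le_of_lt h)).trans (by linarith)) g (norm_nonneg _) (by linarith)
    · rw [cf]
      split_ifs with p q
      · simp only [zero_mul, norm_zero]; positivity
      · have e := eg_eq M l w 0 τ.re τ.im
        simp only [mul_zero, add_zero, Int.cast_zero, zero_mul, ee_zero, one_mul, neg_zero,
          Real.exp_zero, UpperHalfPlane.re_add_im] at e
        rw [mul_assoc, e, norm_mul, norm_real, Real.norm_of_nonneg (Real.exp_pos _).le]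
        refine mul_le_mul ((h1 _ q l).trans a2) (Real.exp_le_exp.2 (neg_le_neg ?_))
          (by positivity) a4
        refine (mul_le_mul_of_nonneg_left (hA l p q) (by positivity)).trans_eq ?_
        rw [Xl]
        field_simp
      · simp only [zero_mul, norm_zero]; positivity
  · rw [indicator_of_notMem h, sub_zero, norm_mul]
    exact mul_le_mul ((hC τ ⟨hτ, not_lt.1 h⟩ l).trans (by linarith)) g (norm_nonneg _) (by linarith)

end Vale.Agent.P004Z.Lf.Lc
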