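import Vale.Agent.P004Z.Lf.Ps
import Vale.Agent.P004Z.Lf.St

/-!
# P004Z, block G4: the mixed model
-/

set_option autoImplicit false
set_option linter.all false

open UpperHalfPlane hiding I
open Complex MeasureTheory Filter Finset
open scoped MatrixGroups Modular Real ComplexConjugate Topology

noncomputable section

namespace Vale.Agent.P004Z.Lf

variable {M : ℕ} [NeZero M] {φ : Fm → ℂ}

theorem M_ne : (M : ℂ) ≠ 0 := Nat.cast_ne_zero.2 (NeZero.ne M)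

theorem M_pos : (0 : ℝ) < M := Nat.cast_pos.2 (NeZero.pos M)

theorem fl_per (h : Per M φ) (a b d i j k : ℤ) :
    fl M φ (a + M * i) (b + 2 * M * j) (d + M * k) = fl M φ a b d := by
  have := M_ne (M := M)
  refine congrArg _ (sum_congr rfl fun c _ => ?_)
  have e := h (a, b, c) (i, j, 0)
  simp only [mul_zero, add_zero] at e
  rw [e, ee_congr (-(c * k)) (y := -(c * d / M)) (by push_cast; field_simp; ring)]

theorem norm_fl {C : ℝ} (h : ∀ l, ‖φ l‖ ≤ C) (a b d : ℤ) : ‖fl M φ a b d‖ ≤ C := by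
  have := M_pos (M := M)
  rw [fl, norm_mul, norm_inv, norm_natCast, inv_mul_le_iff₀ this]
  refine (norm_sum_le_of_le (n := fun _ => C) _ fun j _ => ?_).trans (by simp)
  rw [norm_mul, show -((j : ℂ) * d / M) = ((-(j * d / M) : ℝ) : ℂ) by simp, norm_ee_real, mul_one]
  exact h _

theorem norm_ex (z τ : ℍ) (a b d : ℤ) :
    ‖ex M z τ a b d‖ = Real.exp (-(π * τ.im * (b + 2 * a * z.re) ^ 2 / (2 * M))) := by
  rw [ex, norm_ee, show (4 * M : ℂ) = ((4 * M : ℝ) : ℂ) by simp, neg_im, div_ofReal_im]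
  congr 1
  simp [sq]
  ring

/-- theta series with characteristics -/
def tb (M : ℕ) (φ : Fm → ℂ) (z τ : ℍ) (a d : ℤ) (α β : ℂ) : ℂ :=
  ∑' b : ℤ, fl M φ a b d * (α * (b + 2 * a * z.re) + β) * ex M z τ a b d

theorem tb_T {φ' : Fm → ℂ} (h : ∀ l, φ' l = ee (disc l / (4 * M)) * φ l) (z τ : ℍ) (a d : ℤ)
    (α β : ℂ) : tb M φ' z (ModularGroup.T • τ) a d α β = tb M φ z τ a (a + d) α β := by
  have := M_ne (M := M)
  refine tsum_congr fun b => ?_
  have e1 : fl M φ' a b d = ee (b ^ 2 / (4 * M)) * fl M φ a b (a + d) := by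
    simp only [fl, h]
    rw [mul_left_comm, mul_sum _ _ (ee _)]
    refine congrArg _ (sum_congr rfl fun c _ => ?_)
    rw [mul_right_comm, ← ee_add, mul_left_comm, ← ee_add, mul_comm]
    congr 2
    simp only [disc]
    push_cast
    field_simp
    ring
  rw [e1, mul_assoc (ee _), mul_comm (ee _), mul_assoc _ (ee _), ex, ← ee_add, ex, W.coe_T]
  congr 2
  simp only [map_add, map_one]
  push_cast
  ring

theorem fl_S {φ' : Fm → ℂ} {w : ℂ} (hp : Per M φ) (h : ∀ l, φ' l = w * ft M φ (-l)) (a b d : ℤ) :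
    fl M φ' a b d = w * (((√(2 * M ^ 3 : ℝ) : ℝ) : ℂ)⁻¹ * M) *
      ∑ j ∈ range (2 * M), ee (b * j / (2 * M : ℕ)) * fl M φ (-d) j a := by
  have := M_ne (M := M)
  have e : ∀ j : ℕ, ee (b * j / (2 * M : ℕ)) * fl M φ (-d) j a = ∑ i ∈ range M,
      ee (b * j / (2 * M : ℕ)) * fl M φ i j a * ((M : ℂ)⁻¹ * ∑ c ∈ range M,
        ee (c * (-((i : ℤ) - -d) : ℤ) / M)) := fun j => by
    rw [← pick (L := M) (f := fun i => fl M φ i j a)
      (fun n m => by simpa using fl_per hp n j a m 0 0) (-d), mul_sum]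
    refine sum_congr rfl fun i _ => ?_
    rw [orth]
    simp only [dvd_neg]
    split_ifs <;> simp [this]
  simp only [e]
  simp only [fl, h, ft, mul_sum, sum_mul]
  conv_rhs => rw [sum_comm]
  conv_lhs => rw [sum_comm]; enter [2, i]; rw [sum_comm]
  refine sum_congr rfl fun i _ => sum_congr rfl fun j _ => sum_congr rfl fun c _ =>
    sum_congr rfl fun k _ => ?_
  have e1 : ee (bil (i, j, k) (-(a, b, (c : ℤ))) / (2 * M)) * ee (-(c * d / M)) = ee (b * j / (2 * M : ℕ)) *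
      ee (-(k * a / M)) * ee (c * (-((i : ℤ) - -d) : ℤ) / M) := by
    simp only [← ee_add, bil, Prod.fst_neg, Prod.snd_neg]
    congr 1
    push_cast
    field_simp
    ring
  linear_combination (exp := 1) (M : ℂ)⁻¹ * w * ((√(2 * M ^ 3 : ℝ) : ℝ) : ℂ)⁻¹ * φ (i, j, k) * e1 -
    (M : ℂ)⁻¹ * w * ((√(2 * M ^ 3 : ℝ) : ℝ) : ℂ)⁻¹ * φ (i, j, k) * ee (b * j / (2 * M : ℕ)) *
      ee (-(k * a / M)) * ee (c * (-((i : ℤ) - -d) : ℤ) / M) * mul_inv_cancel₀ this

theorem hw_sq (τ : ℂ) : hw τ ^ 2 = τ / I := by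
  rw [hw, one_div]
  exact cpow_ofNat_inv_pow _ 2

theorem half_pos {A : ℂ} (h : 0 < A.re) : 0 < (A ^ (1 / 2 : ℂ)).re := by
  rw [one_div, cpow_inv_two_re]
  exact Real.sqrt_pos.2 (by positivity)

theorem hw_pos (τ : ℍ) : 0 < (hw τ).re := half_pos (by simpa using τ.im_pos)

theorem hw_mul (τ : ℍ) : hw τ * conj (hw τ) = (‖(τ : ℂ)‖ : ℝ) := by
  rw [mul_conj, normSq_eq_norm_sq, ← norm_pow, hw_sq, norm_div, norm_I, div_one]

theorem re_A (τ : ℍ) : 0 < (I * conj (τ : ℂ) / (2 * M)).re := by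
  have := M_pos (M := M)
  rw [show (2 * M : ℂ) = ((2 * M : ℝ) : ℂ) by simp, div_ofReal_re]
  simpa using div_pos τ.im_pos (by positivity : (0 : ℝ) < 2 * M)

theorem const_S (τ : ℍ) : (((√(2 * M ^ 3 : ℝ) : ℝ) : ℂ)⁻¹ * M) *
    (1 / (I * conj ((ModularGroup.S • τ : ℍ) : ℂ) / (2 * M)) ^ (1 / 2 : ℂ)) = conj (hw τ) := by
  have := M_ne (M := M)
  have h0 := M_pos (M := M)
  have h1 : conj (τ : ℂ) ≠ 0 := by simpa using τ.ne_zero
  refine W.sq_eq ?_ ?_ (by simpa using hw_pos τ)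
  · rw [mul_pow, mul_pow, inv_pow, ← ofReal_pow, Real.sq_sqrt (by positivity), div_pow, one_div 2,
      cpow_ofNat_inv_pow, ← map_pow, hw_sq, W.coe_S]
    simp only [map_neg, map_inv₀, map_div₀, conj_I]
    push_cast
    field_simp
  · rw [← ofReal_inv, ← ofReal_natCast, ← ofReal_mul, re_ofReal_mul, one_div]
    exact mul_nonneg (by positivity) (inv_re_pos (half_pos (re_A _))).le

theorem tb_S {φ' : Fm → ℂ} {w : ℂ} (hp : Per M φ) (h : ∀ l, φ' l = w * ft M φ (-l)) (z τ : ℍ)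
    (a d : ℤ) (α β : ℂ) : tb M φ' z (ModularGroup.S • τ) a d α β =
      w * conj (hw τ) * tb M φ z τ (-d) a (-(α * conj (τ : ℂ))) β := by
  have := M_ne (M := M)
  have h1 : conj (τ : ℂ) ≠ 0 := by simpa using τ.ne_zero
  have : NeZero (2 * M) := ⟨mul_ne_zero two_ne_zero (NeZero.ne M)⟩
  have p := pois (L := 2 * M) (re_A (M := M) (ModularGroup.S • τ))
    (-I * (a * z.re * conj ((ModularGroup.S • τ : ℍ) : ℂ) + d * z.re) / M) α
    (α * (2 * a * z.re) + β) (f := fun j => fl M φ (-d) j a)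
    fun n m => by simpa using fl_per hp (-d) n a 0 m 0
  rw [← const_S (M := M)]
  generalize hσ : conj ((ModularGroup.S • τ : ℍ) : ℂ) = σ at p ⊢
  have e : ∀ b : ℤ, ex M z (ModularGroup.S • τ) a b d =
      cexp (-π * (I * σ / (2 * M)) * b ^ 2 + 2 * π * (-I * (a * z.re * σ + d * z.re) / M) * b) *
        ee (-(a ^ 2 * z.re ^ 2 * σ + a * d * z.re ^ 2) / M) := fun b => by
    rw [ex, ee, ee, ← exp_add, hσ]
    congr 1
    field_simp
    ring
  have p' := congrArg (w * (((√(2 * M ^ 3 : ℝ) : ℝ) : ℂ)⁻¹ * M) *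
    ee (-(a ^ 2 * z.re ^ 2 * σ + a * d * z.re ^ 2) / M) * ·) p
  simp only [← tsum_mul_left] at p'
  simp only [tb, ← tsum_mul_left]
  refine (tsum_congr fun b => ?_).trans (p'.trans (tsum_congr fun k => ?_))
  · rw [fl_S hp h, e]
    ring
  obtain rfl : σ = -(conj (τ : ℂ))⁻¹ := by rw [← hσ, W.coe_S]; simp
  have e1 : ex M z τ (-d) k a = ee (-(a ^ 2 * z.re ^ 2 * -(conj (τ : ℂ))⁻¹ + a * d * z.re ^ 2) / M) *
      cexp (-π * (k / (2 * M : ℕ) - I * (-I * (a * z.re * -(conj (τ : ℂ))⁻¹ + d * z.re) / M)) ^ 2 /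
        (I * -(conj (τ : ℂ))⁻¹ / (2 * M))) := by
    rw [ex, ee, ee, ← exp_add, ← mul_div_assoc I, ← mul_assoc I, mul_neg I I, I_mul_I]
    congr 1
    push_cast
    field_simp
    ring_nf
    simp only [I_sq]
    ring
  rw [e1, show α * (-I * (a * z.re * -(conj (τ : ℂ))⁻¹ + d * z.re) / M + I * (k / (2 * M : ℕ))) /
    (I * -(conj (τ : ℂ))⁻¹ / (2 * M)) + (α * (2 * a * z.re) + β) =
      -(α * conj (τ : ℂ)) * (k + 2 * (-d : ℤ) * z.re) + β by push_cast; field_simp; ring]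
  ring

theorem sum_aff {ψ g : Fm → ℂ} {C t : ℝ} (h : ∀ l, ‖ψ l‖ ≤ C) (ht : 0 < t)
    (hg : ∀ l, ‖g l‖ ≤ Real.exp (-(t * nq l))) (p₀ p₁ p₂ p₃ : ℂ) :
    Summable fun l => ψ l * (p₀ + p₁ * l.1 + p₂ * l.2.1 + p₃ * l.2.2) * g l := by
  have h0 := (norm_nonneg _).trans (h 0)
  refine ((sum_nq 1 ht).mul_left (C * (‖p₀‖ + ‖p₁‖ + ‖p₂‖ + ‖p₃‖))).of_norm_bounded fun l => ?_
  have k : ∀ (p : ℂ) (n : ℤ), (n : ℝ) ^ 2 ≤ nq l → ‖p * n‖ ≤ ‖p‖ * (1 + nq l) := fun p n e => by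
    rw [norm_mul, norm_intCast]
    gcongr
    nlinarith [sq_nonneg (|(n : ℝ)| - 1), sq_abs (n : ℝ), nq_nonneg l]
  have := nq_nonneg l
  rw [norm_mul, norm_mul, pow_one, ← mul_assoc, mul_assoc C]
  gcongr
  · exact h l
  · have h1 := k p₁ l.1 (by unfold nq; nlinarith [sq_nonneg (l.2.1 : ℝ), sq_nonneg (l.2.2 : ℝ)])
    have h2 := k p₂ l.2.1 (by unfold nq; nlinarith [sq_nonneg (l.1 : ℝ), sq_nonneg (l.2.2 : ℝ)])
    have h3 := k p₃ l.2.2 (by unfold nq; nlinarith [sq_nonneg (l.2.1 : ℝ), sq_nonneg (l.1 : ℝ)])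
    refine (norm_add_le_of_le (norm_add_le_of_le (norm_add_le_of_le le_rfl h1) h2) h3).trans ?_
    nlinarith [norm_nonneg p₀]
  · exact hg l

theorem coer {p q r : ℝ} (hp : 0 < p) (hq : 0 < q) (hr : 0 < r) (x u : ℝ) : ∃ t : ℝ, 0 < t ∧
    ∀ a b d : ℝ, t * (a ^ 2 + b ^ 2 + d ^ 2) ≤
      p * a ^ 2 + q * (b + 2 * a * x) ^ 2 + r * (a * u + d) ^ 2 := by
  have h := lt_min hp (lt_min hq hr)
  refine ⟨min p (min q r) / (3 + 8 * x ^ 2 + 2 * u ^ 2), by positivity, fun a b d => ?_⟩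
  have h1 := min_le_left p (min q r)
  have h2 := (min_le_right p (min q r)).trans (min_le_left q r)
  have h3 := (min_le_right p (min q r)).trans (min_le_right q r)
  generalize min p (min q r) = m at *
  refine le_trans (b := m * a ^ 2 + m * (b + 2 * a * x) ^ 2 + m * (a * u + d) ^ 2) ?_ (by gcongr)
  rw [div_mul_eq_mul_div, div_le_iff₀ (by positivity), ← mul_add, ← mul_add, mul_assoc]
  gcongr
  nlinarith [sq_nonneg (b + 4 * a * x), sq_nonneg (2 * a * u + d), sq_nonneg a,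
    sq_nonneg (b + 2 * a * x), sq_nonneg (a * u + d), sq_nonneg (x * (b + 2 * a * x)),
    sq_nonneg (x * (a * u + d)), sq_nonneg (u * (b + 2 * a * x)), sq_nonneg (u * (a * u + d))]

/-- the Gaussian without the factor -/
def g0 (M : ℕ) (z τ : ℍ) (a d : ℤ) : ℝ :=
  Real.exp (-(π * z.im ^ 2 * normSq (a * τ + d : ℂ) / (M * τ.im)))

theorem mix_le (z τ : ℍ) : ∃ t : ℝ, 0 < t ∧ ∀ l : Fm,
    ‖g0 M z τ l.1 l.2.2 * ex M z τ l.1 l.2.1 l.2.2‖ ≤ Real.exp (-(t * nq l)) := by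
  have := M_pos (M := M)
  have := z.im_pos
  have := τ.im_pos
  obtain ⟨t, ht, h⟩ := coer (p := π * z.im ^ 2 * τ.im / M) (q := π * τ.im / (2 * M))
    (r := π * z.im ^ 2 / (M * τ.im)) (by positivity) (by positivity) (by positivity) z.re τ.re
  refine ⟨t, ht, fun l => ?_⟩
  rw [norm_mul, norm_ex, g0, norm_real, Real.norm_of_nonneg (Real.exp_pos _).le, ← Real.exp_add,
    Real.exp_le_exp, ← neg_add, neg_le_neg_iff]
  refine (h _ _ _).trans_eq ?_
  simp only [normSq_apply, add_re, add_im, mul_re, mul_im, intCast_re, intCast_im, coe_re, coe_im]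
  field_simp
  ring

theorem I5 : I ^ 5 = I := by rw [pow_succ, I_pow_four, one_mul]

theorem I6 : I ^ 6 = -1 := by rw [pow_succ, I5, I_mul_I]

theorem hs_congr {ι : Type} {f g : ι → ℂ} {a b : ℂ} (h : HasSum f a) (e : ∀ i, g i = f i)
    (e' : b = a) : HasSum g b := e' ▸ (funext e : g = f) ▸ h

theorem pois_c (hp : Per M φ) (z τ : ℍ) (a b : ℤ) (p q : ℂ) :
    τ.im * ∑' c : ℤ, φ (a, b, c) * (p + q * c) * gau M (a, b, c) τ z =
      z.im * √(M * τ.im) * ∑' d : ℤ, fl M φ a b d * (p + q * (I * (a * conj (τ : ℂ) + d) *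
        z.im ^ 2 / τ.im - (a * normSq z + b * z.re))) * (g0 M z τ a d * ex M z τ a b d) := by
  have hM := M_ne (M := M)
  have h0 := M_pos (M := M)
  have hy := z.im_pos
  have hv := τ.im_pos
  have hy' := ofReal_ne_zero.2 hy.ne'
  have hv' := ofReal_ne_zero.2 hv.ne'
  have p1 := pois (L := M) (A := (τ.im / (M * z.im ^ 2) : ℝ)) (by rw [ofReal_re]; positivity)
    (I * a * conj (τ : ℂ) / M - τ.im / (M * z.im ^ 2) * (a * normSq z + b * z.re)) q p
    (f := fun d => fl M φ a b d) fun n m => by simpa using fl_per hp a b n 0 0 m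
  have e0 : (τ.im : ℂ) * (1 / ((τ.im / (M * z.im ^ 2) : ℝ) : ℂ) ^ (1 / 2 : ℂ)) =
      z.im * √(M * τ.im) := by
    rw [show (1 / 2 : ℂ) = (1 / 2 : ℝ) by simp, ← ofReal_cpow (by positivity), ← Real.sqrt_eq_rpow]
    norm_cast
    rw [← sq_eq_sq₀ (by positivity) (by positivity), mul_pow, mul_pow, div_pow,
      Real.sq_sqrt (by positivity), Real.sq_sqrt (by positivity)]
    field_simp
  have p2 := congrArg (τ.im * cexp (-π * (τ.im / (M * z.im ^ 2)) * (a * normSq z + b * z.re) ^ 2 -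
    2 * π * I * (b ^ 2 * conj (τ : ℂ) / (4 * M))) * ·) p1
  rw [← e0]
  simp only [← tsum_mul_left] at p2 ⊢
  refine (tsum_congr fun c => ?_).trans (p2.trans (tsum_congr fun d => ?_))
  · rw [inv_four (L := M) (f := fun c => φ (a, b, c))
      (fun n m => by simpa using hp (a, b, n) (0, 0, m)) c, gau, ee, ofReal_exp, ← exp_add,
      show 2 * π * I * (-(disc (a, b, c) : ℂ) * conj (τ : ℂ) / (4 * M)) +
        (-π * (τ : ℂ).im * pz (a, b, c) z ^ 2 / M : ℝ) =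
      -π * (τ.im / (M * z.im ^ 2)) * (a * normSq z + b * z.re) ^ 2 -
        2 * π * I * (b ^ 2 * conj (τ : ℂ) / (4 * M)) + (-π * (τ.im / (M * z.im ^ 2) : ℝ) * c ^ 2 +
        2 * π * (I * a * conj (τ : ℂ) / M - τ.im / (M * z.im ^ 2) * (a * normSq z + b * z.re)) * c) by
      simp only [disc, pz, coe_im, coe_re]; push_cast; field_simp; ring, exp_add]
    simp only [fl]
    ring
  have c1 : conj (τ : ℂ) = τ.re - τ.im * I := Complex.ext (by simp) (by simp)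
  have e1 : g0 M z τ a d * ex M z τ a b d = cexp (-π * (τ.im / (M * z.im ^ 2)) *
      (a * normSq z + b * z.re) ^ 2 - 2 * π * I * (b ^ 2 * conj (τ : ℂ) / (4 * M))) *
      cexp (-π * (d / M - I * (I * a * conj (τ : ℂ) / M - τ.im / (M * z.im ^ 2) *
        (a * normSq z + b * z.re))) ^ 2 / (τ.im / (M * z.im ^ 2) : ℝ)) := by
    rw [g0, ex, ee, ofReal_exp, ← exp_add, ← exp_add, c1]
    congr 1
    simp only [normSq_apply, add_re, add_im, mul_re, mul_im, intCast_re, intCast_im, coe_re, coe_im]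
    push_cast
    field_simp
    ring_nf
    simp only [I_sq, I_pow_three, I_pow_four, I5, I6]
    ring
  rw [e1, show p + q * (I * (a * conj (τ : ℂ) + d) * z.im ^ 2 / τ.im - (a * normSq z + b * z.re)) =
    q * (I * a * conj (τ : ℂ) / M - τ.im / (M * z.im ^ 2) * (a * normSq z + b * z.re) + I * (d / M)) /
      (τ.im / (M * z.im ^ 2) : ℝ) + p by push_cast; field_simp; ring]
  ring

/-- reordering -/
def e3 : (ℤ × ℤ) × ℤ ≃ Fm where
  toFun x := (x.1.1, x.2, x.1.2)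
  invFun l := ((l.1, l.2.2), l.2.1)
  left_inv _ := rfl
  right_inv _ := rfl

theorem reord {f g : Fm → ℂ} (hf : Summable f) (hg : Summable g)
    (h : ∀ a b, ∑' c, f (a, b, c) = ∑' d, g (a, b, d)) :
    HasSum (fun v : ℤ × ℤ => ∑' b, g (v.1, b, v.2)) (∑' l, f l) := by
  have s := e3.summable_iff.2 hg
  have k : ∀ {f : Fm → ℂ}, Summable f → ∑' l, f l = ∑' x : ℤ × ℤ, ∑' c, f (x.1, x.2, c) :=
    fun hf => ((Equiv.prodAssoc ℤ ℤ ℤ).tsum_eq _).symm.trans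
      ((Equiv.prodAssoc ℤ ℤ ℤ).summable_iff.2 hf).tsum_prod
  rw [k hf, tsum_congr fun x : ℤ × ℤ => h x.1 x.2, ← k hg]
  exact (e3.hasSum_iff.2 hg.hasSum).prod_fiberwise fun v => (s.prod_factor v).hasSum

theorem mixS (hp : Per M φ) (z τ : ℍ) (p₀ p₁ p₂ p₃ : ℂ) :
    HasSum (fun v : ℤ × ℤ => z.im * gq M z τ v * tb M φ z τ v.1 v.2 (p₂ - p₃ * z.re)
      (p₀ + p₁ * v.1 - 2 * v.1 * z.re * p₂ + p₃ * (I * (v.1 * conj (τ : ℂ) + v.2) * z.im ^ 2 / τ.im -
        v.1 * normSq z + 2 * v.1 * z.re ^ 2)))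
      (τ.im * ∑' l : Fm, φ l * (p₀ + p₁ * l.1 + p₂ * l.2.1 + p₃ * l.2.2) * gau M l τ z) := by
  obtain ⟨C, -, hC⟩ := per_bdd hp
  obtain ⟨t, ht, h⟩ := mix_le (M := M) z τ
  have := M_pos (M := M)
  have := wt_pos z
  have := τ.im_pos
  refine hs_congr (reord ((sum_aff hC (t := π * τ.im / (2 * M * wt z)) (by positivity)
    (fun l => gau_le l z M (τ := τ) τ.im_pos.le) p₀ p₁ p₂ p₃).mul_left (τ.im : ℂ))
    ((sum_aff (fun l : Fm => norm_fl (M := M) hC l.1 l.2.1 l.2.2) ht h p₀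
    (p₁ + p₃ * (I * conj (τ : ℂ) * z.im ^ 2 / τ.im - normSq z)) (p₂ - p₃ * z.re)
    (p₃ * (I * z.im ^ 2 / τ.im))).mul_left (z.im * √(M * τ.im) : ℂ)) fun a b => ?_)
    (fun v => ?_) tsum_mul_left.symm
  · simp only []
    rw [tsum_mul_left, pois_c hp, ← tsum_mul_left]
    exact tsum_congr fun d => by ring
  · simp only [tb, ← tsum_mul_left, gq, g0]
    exact tsum_congr fun b => by push_cast; ring

theorem vm_all {H : ℤ × ℤ → ℍ → ℂ}
    (hS : ∀ a d τ, H (a, d) (ModularGroup.S • τ) = H (-d, a) τ)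
    (hT : ∀ a d τ, H (a, d) (ModularGroup.T • τ) = H (a, a + d) τ) (γ : SL(2, ℤ)) :
    ∀ v τ, H v (γ • τ) = H (vm v γ) τ := by
  have m : ∀ v (a b : SL(2, ℤ)), vm (vm v a) b = vm v (a * b) := fun v a b => by
    simp only [vm, Matrix.SpecialLinearGroup.coe_mul, Matrix.mul_apply, Fin.sum_univ_two]
    exact Prod.ext (by ring) (by ring)
  have o : ∀ v, vm v 1 = v := fun v => by simp [vm]
  refine W.sl_ind (P := fun γ => ∀ v τ, H v (γ • τ) = H (vm v γ) τ) (fun v τ => ?_)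
    (fun v τ => ?_) (fun v τ => by rw [one_smul, o]) (fun a b h h' v τ => by rw [mul_smul, h, h', m])
    (fun a h v τ => by
      have := h (vm v a⁻¹) (a⁻¹ • τ)
      rw [smul_inv_smul, m, inv_mul_cancel, o] at this
      exact this.symm) γ
  · have h1 := hS v.2 (-v.1) (ModularGroup.S • τ)
    rw [W.S_S, neg_neg] at h1
    simpa [vm, ModularGroup.S] using h1.symm
  · simpa [vm, ModularGroup.T] using hT v.1 v.2 τ

theorem gq_T (z τ : ℍ) (a d : ℤ) : gq M z (ModularGroup.T • τ) (a, d) = gq M z τ (a, a + d) := by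
  simp only [gq, W.coe_T, ModularGroup.im_T_smul]
  congr 6
  push_cast
  ring

theorem im_S (τ : ℍ) : (ModularGroup.S • τ).im = τ.im / normSq (τ : ℂ) := by
  rw [← coe_im, W.coe_S, neg_im, inv_im, neg_div, neg_neg, coe_im]

theorem gq_S (z τ : ℍ) (a d : ℤ) :
    gq M z (ModularGroup.S • τ) (a, d) * ‖(τ : ℂ)‖ = gq M z τ (-d, a) := by
  have := M_pos (M := M)
  have := τ.im_pos
  have h := τ.ne_zero
  have h1 := normSq_pos.2 h
  simp only [gq, im_S, W.coe_S]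
  rw [mul_right_comm, show (a : ℂ) * -(τ : ℂ)⁻¹ + d = -(((-d : ℤ) * τ + a) / τ) by
    push_cast; field_simp; ring, normSq_neg, map_div₀, ← mul_div_assoc (M : ℝ),
    Real.sqrt_div' _ h1.le, ← norm_def, div_mul_cancel₀ _ (norm_ne_zero_iff.2 h)]
  congr 3
  field_simp

theorem fl_zero {w : ℂ → ℂ} {F : ℍ → Fm → ℂ} (h : Sd M F w) (τ : ℍ) (b : ℤ) :
    fl M (F τ) 0 b 0 = 0 := by
  simpa [fl, Hd.fa_one, ee_zero, NeZero.ne M] using h.van 1 τ b

theorem H0_eq (F : ℍ → Fm → ℂ) (z : ℍ) (v : ℤ × ℤ) (τ : ℍ) :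
    H0 M F z v τ = z.im * gq M z τ v * tb M (F τ) z τ v.1 v.2 0 1 := by simp [H0, tb]

theorem H1_eq (F : ℍ → Fm → ℂ) (z : ℍ) (v : ℤ × ℤ) (τ : ℍ) : H1 M F z v τ =
    I * gq M z τ v * tb M (F τ) z τ v.1 v.2 (-τ.im) (z.im * (v.1 * τ + v.2)) := by
  simp only [H1, tb, neg_mul, neg_add_eq_sub]

theorem tb_mul (z τ : ℍ) (a d : ℤ) (α β c : ℂ) :
    tb M φ z τ a d (c * α) (c * β) = c * tb M φ z τ a d α β := by
  simp only [tb, ← tsum_mul_left]
  exact tsum_congr fun b => by ring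

theorem mix0 : MIX0 := fun M _ F h z => by
  refine ⟨fun τ => ?_, fun τ => by simp [H0, fl_zero h], vm_all (fun a d τ => ?_) fun a d τ => ?_⟩
  · simpa [H0_eq, KK, th0] using mixS (h.per τ) z τ 1 0 0 0
  · rw [H0_eq, H0_eq, tb_S (h.per τ) (h.S τ), hw_mul, ← gq_S]
    simp only [zero_mul, neg_zero, ofReal_mul]
    ring
  · rw [H0_eq, H0_eq, tb_T (h.T τ), gq_T]

theorem mix1 : MIX1 := fun M _ F h z => by
  have hy := ofReal_ne_zero.2 z.im_ne_zero
  refine ⟨fun τ => ?_, fun τ => by simp [H1, fl_zero h], vm_all (fun a d τ => ?_) fun a d τ => ?_⟩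
  · have hv := ofReal_ne_zero.2 τ.im_ne_zero
    refine hs_congr ((mixS (h.per τ) z τ 0 (conj (z : ℂ) ^ 2 / z.im ^ 2) (conj (z : ℂ) / z.im ^ 2)
      (1 / z.im ^ 2)).mul_left (τ.im : ℂ)) (fun v => ?_) ?_
    · have c1 : conj (z : ℂ) = z.re - z.im * I := Complex.ext (by simp) (by simp)
      have c2 : conj (τ : ℂ) = τ - 2 * τ.im * I := Complex.ext (by simp) (by simp; ring)
      rw [H1_eq, ← tb_mul, ← tb_mul, ← tb_mul, c1, c2, normSq_apply, coe_re, coe_im]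
      congr 1
      · field_simp
        ring
      · push_cast
        field_simp
        ring_nf
        simp only [I_sq]
        ring
    · rw [K1, th1, ← mul_assoc, ← sq]
      exact congrArg _ (tsum_congr fun l => by simp only [evq, coe_im]; ring)
  · have h0 := τ.ne_zero
    rw [H1_eq, H1_eq, tb_S (h.per τ) (h.S τ), neg_mul, mul_assoc (τ : ℂ), hw_mul, ← gq_S,
      show -((τ : ℂ) * ‖(τ : ℂ)‖) = ‖(τ : ℂ)‖ * -τ by ring, mul_assoc _ (-(τ : ℂ)), ← tb_mul, im_S,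
      W.coe_S, show -(τ : ℂ) * -(-((τ.im / normSq (τ : ℂ) : ℝ) : ℂ) * conj (τ : ℂ)) = -τ.im by
        have : conj (τ : ℂ) ≠ 0 := by simpa
        rw [ofReal_div, ← mul_conj]; field_simp,
      show -(τ : ℂ) * (z.im * (a * -(τ : ℂ)⁻¹ + d)) = z.im * ((-d : ℤ) * τ + a) by
        push_cast; field_simp; ring]
    simp only [ofReal_mul]
    ring
  · rw [H1_eq, H1_eq, tb_T (h.T τ), gq_T, ModularGroup.im_T_smul, W.coe_T]
    congr 3
    push_cast
    ring

end Vale.Agent.P004Z.Lf
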