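import Vale.Agent.P004Z.Lf.Po

/-!
# P004Z, block G4: the Poisson formula with periodic coefficients
-/

set_option autoImplicit false
set_option linter.all false

open UpperHalfPlane hiding I
open Complex MeasureTheory Filter Finset
open scoped MatrixGroups Modular Real ComplexConjugate Topology

noncomputable section

namespace Vale.Agent.P004Z.Lf

variable {L : ℕ} [NeZero L]

theorem orth (k : ℤ) : ∑ j ∈ range L, ee (j * k / L) = if (L : ℤ) ∣ k then (L : ℂ) else 0 := by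
  have h : (L : ℂ) ≠ 0 := Nat.cast_ne_zero.2 (NeZero.ne L)
  simp only [mul_div_assoc, ee_pow]
  split_ifs with e
  · simp [(ee_div_eq_one (NeZero.ne L)).2 e]
  · rw [geom_sum_eq (mt (ee_div_eq_one (NeZero.ne L)).1 e), ← ee_pow, mul_div_cancel₀ _ h, ee_int,
      sub_self, zero_div]

theorem pick {f : ℤ → ℂ} (hf : ∀ n m, f (n + L * m) = f n) (k : ℤ) :
    ∑ i ∈ range L, (if (L : ℤ) ∣ i - k then f i else 0) = f k := by
  have h : (0 : ℤ) < L := by exact_mod_cast NeZero.pos L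
  have h0 := Int.emod_nonneg k h.ne'
  have h1 := Int.emod_lt_of_pos k h
  rw [sum_eq_single_of_mem (k % L).toNat (mem_range.2 (by omega)) fun i hi e => if_neg fun d => e ?_,
    Int.toNat_of_nonneg h0, if_pos (Int.dvd_emod_sub_self), ← hf _ (k / L), Int.emod_add_mul_ediv]
  rw [← (Int.emod_emod_of_dvd k (dvd_refl (L : ℤ))), Int.emod_emod_of_dvd k (dvd_refl (L : ℤ)),
    ← Int.emod_eq_emod_iff_emod_sub_eq_zero.2 (Int.emod_eq_zero_of_dvd d),
    Int.emod_eq_of_lt (by omega) (by have := mem_range.1 hi; omega), Int.toNat_natCast]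

theorem bdd_of {f : ℤ → ℂ} (hf : ∀ n m, f (n + L * m) = f n) : ∃ C : ℝ, ∀ k, ‖f k‖ ≤ C :=
  ⟨∑ i ∈ range L, ‖f i‖, fun k => pick hf k ▸ norm_sum_le_of_le _ fun i _ => by
    split_ifs <;> simp⟩

/-- Fourier inversion -/
theorem inv_four {f : ℤ → ℂ} (hf : ∀ n m, f (n + L * m) = f n) (c : ℤ) : f c =
    ∑ d ∈ range L, ee (c * d / L) * ((L : ℂ)⁻¹ * ∑ j ∈ range L, f j * ee (-(j * (d : ℤ) / L))) := by
  have h : (L : ℂ) ≠ 0 := Nat.cast_ne_zero.2 (NeZero.ne L)
  simp only [mul_sum]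
  rw [sum_comm, ← pick hf c]
  refine sum_congr rfl fun j _ => ?_
  have := orth (L := L) (-(j - c))
  simp only [dvd_neg] at this
  rw [show (if (L : ℤ) ∣ j - c then f j else 0) = (L : ℂ)⁻¹ * f j *
    if (L : ℤ) ∣ j - c then (L : ℂ) else 0 by split_ifs <;> field_simp; simp, ← this, mul_sum]
  refine sum_congr rfl fun d _ => ?_
  rw [show ((d : ℕ) : ℂ) * (-((j : ℤ) - c) : ℤ) / L = c * d / L + -(j * (d : ℤ) / L) by
    push_cast; ring, ee_add]
  ring

theorem tsum_res {g : ℤ → ℂ} (h : Summable g) :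
    ∑' k, g k = ∑ j ∈ range L, ∑' m : ℤ, g (j + L * m) := by
  have e := (((Int.divModEquiv L).trans (Equiv.prodComm _ _)).symm.summable_iff.2 h).tsum_prod
  simp only [Function.comp] at e
  rw [← ((Int.divModEquiv L).trans (Equiv.prodComm _ _)).symm.tsum_eq, e, tsum_fintype,
    ← Fin.sum_univ_eq_sum_range fun j => ∑' m : ℤ, g (j + L * m)]
  refine sum_congr rfl fun j _ => tsum_congr fun m => ?_
  simp [Int.divModEquiv, add_comm, mul_comm]

variable {A : ℂ} (hA : 0 < A.re) (B α β : ℂ)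
include hA

theorem term_eq (n : ℤ) : (α * n + β) * cexp (-π * A * n ^ 2 + 2 * π * B * n) =
    α / (2 * π * I) * jacobiTheta₂'_term n (-I * B) (I * A) +
      β * jacobiTheta₂_term n (-I * B) (I * A) := by
  have := ofReal_ne_zero.2 Real.pi_ne_zero
  rw [jacobiTheta₂'_term, jacobiTheta₂_term, show 2 * π * I * n * (-I * B) + π * I * n ^ 2 * (I * A)
    = -π * A * n ^ 2 + 2 * π * B * n by linear_combination (π * n ^ 2 * A - 2 * π * n * B) * I_sq]
  field_simp

theorem sumG : HasSum (fun n : ℤ => (α * n + β) * cexp (-π * A * n ^ 2 + 2 * π * B * n))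
    (α / (2 * π * I) * jacobiTheta₂' (-I * B) (I * A) + β * jacobiTheta₂ (-I * B) (I * A)) := by
  simp only [term_eq hA]
  exact ((hasSum_jacobiTheta₂'_term _ (by simpa)).mul_left _).add
    ((hasSum_jacobiTheta₂_term _ (by simpa)).mul_left _)

theorem inv_re_pos : 0 < A⁻¹.re := by
  rw [inv_re]
  exact div_pos hA (normSq_pos.2 fun e => by simp [e] at hA)

theorem term' (s m : ℂ) : (α * (B + I * (m * s)) / A + β) * cexp (-π * (m * s - I * B) ^ 2 / A) =
    cexp (π * B ^ 2 / A) * ((α * I * s / A * m + (α * B / A + β)) *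
      cexp (-π * (s ^ 2 * A⁻¹) * m ^ 2 + 2 * π * (I * B * s / A) * m)) := by
  rw [mul_left_comm (cexp _), ← exp_add]
  congr 1
  · ring
  · exact congrArg _ (by linear_combination (-π * B ^ 2 / A) * I_sq)

theorem pois0 : ∑' n : ℤ, (α * n + β) * cexp (-π * A * n ^ 2 + 2 * π * B * n) = 1 / A ^ (1 / 2 : ℂ) *
    ∑' m : ℤ, (α * (B + I * m) / A + β) * cexp (-π * (m - I * B) ^ 2 / A) := by
  have h0 : A ≠ 0 := fun e => by simp [e] at hA
  have := ofReal_ne_zero.2 Real.pi_ne_zero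
  have e := fun m : ℤ => term' hA B α β 1 m
  simp only [mul_one, one_pow, one_mul] at e
  simp only [e]
  rw [tsum_mul_left, (sumG hA _ _ _).tsum_eq, (sumG (inv_re_pos hA) _ _ _).tsum_eq,
    jacobiTheta₂'_functional_equation, jacobiTheta₂_functional_equation (-I * B),
    show -I * (I * A) = A by linear_combination -A * I_sq,
    show -1 / (I * A) = I * A⁻¹ by field_simp; simp,
    show -I * B / (I * A) = -(-I * (I * B / A)) by field_simp; linear_combination -B * I_sq,
    jacobiTheta₂'_neg_left, jacobiTheta₂_neg_left,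
    show -π * I * (-I * B) ^ 2 / (I * A) = π * B ^ 2 / A by
      field_simp; linear_combination -B ^ 2 * I_sq]
  field_simp
  linear_combination (-α * jacobiTheta₂' (-(I ^ 2 * B / A)) (I / A) * (A ^ (1 / 2 : ℂ))⁻¹) * I_sq

theorem sum_rhs {f : ℤ → ℂ} (hf : ∀ n m, f (n + L * m) = f n) : Summable fun k : ℤ =>
    f k * ((α * (B + I * (k / L)) / A + β) * cexp (-π * (k / L - I * B) ^ 2 / A)) := by
  obtain ⟨C, hC⟩ := bdd_of hf
  have h : 0 < (((L : ℂ)⁻¹) ^ 2 * A⁻¹).re := by
    have := NeZero.pos L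
    rw [show ((L : ℂ)⁻¹) ^ 2 = (((L : ℝ)⁻¹ ^ 2 : ℝ) : ℂ) by simp, re_ofReal_mul]
    exact mul_pos (by positivity) (inv_re_pos hA)
  simp only [div_eq_mul_inv (_ : ℂ) L, term' hA]
  exact (((sumG h _ _ _).summable.mul_left _).norm.mul_left C).of_norm_bounded fun k => by
    rw [norm_mul]; gcongr; exact hC k

/-- **Poisson** -/
theorem pois {f : ℤ → ℂ} (hf : ∀ n m, f (n + L * m) = f n) :
    ∑' n : ℤ, (∑ j ∈ range L, ee (n * j / L) * f j) *
      ((α * n + β) * cexp (-π * A * n ^ 2 + 2 * π * B * n)) = 1 / A ^ (1 / 2 : ℂ) *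
    ∑' k : ℤ, f k * ((α * (B + I * (k / L)) / A + β) * cexp (-π * (k / L - I * B) ^ 2 / A)) := by
  have h : (L : ℂ) ≠ 0 := Nat.cast_ne_zero.2 (NeZero.ne L)
  have e : ∀ (n : ℤ) (j : ℕ), ee (n * j / L) * f j *
      ((α * n + β) * cexp (-π * A * n ^ 2 + 2 * π * B * n)) =
      f j * ((α * n + β) * cexp (-π * A * n ^ 2 + 2 * π * (B + I * (j / L)) * n)) := fun n j => by
    rw [show -π * A * n ^ 2 + 2 * π * (B + I * (j / L)) * n =
      2 * π * I * (n * j / L) + (-π * A * n ^ 2 + 2 * π * B * n) by ring, exp_add _ (_ + _), ee]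
    ring
  simp only [sum_mul, e]
  rw [Summable.tsum_finsetSum fun j _ => (sumG hA _ _ _).summable.mul_left _,
    tsum_res (L := L) (sum_rhs hA B α β hf), mul_sum]
  refine sum_congr rfl fun j _ => ?_
  simp only [hf, tsum_mul_left]
  rw [pois0 hA, mul_left_comm]
  congr 3
  funext m
  push_cast
  rw [add_div, mul_div_cancel_left₀ _ h]
  congr 2
  · ring
  · rw [show (m : ℂ) - I * (B + I * (j / L)) = j / L + m - I * B by linear_combination -(j / L) * I_sq]

end Vale.Agent.P004Z.Lf
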