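import Vale.Agent.P004Z.Lf.Mix
import Vale.Agent.P004Z.Lf.Ms

/-!
# P004Z, block G4: the terms on the strip
-/

set_option autoImplicit false
set_option linter.all false

open UpperHalfPlane hiding I
open Complex MeasureTheory Filter Set
open scoped MatrixGroups Modular Real ComplexConjugate Topology

noncomputable section

namespace Vale.Agent.P004Z.Lf

variable {M : ℕ} [NeZero M] {F : ℍ → Fm → ℂ} {cp : Fm → ℂ}

theorem cont_fl (h : ∀ l, Continuous fun τ => F τ l) (a b d : ℤ) :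
    Continuous fun τ => fl M (F τ) a b d := by
  unfold fl
  fun_prop

theorem cont_ex (z : ℍ) (a b d : ℤ) : Continuous fun τ => ex M z τ a b d := by
  unfold ex
  fun_prop

theorem cont_gq (z : ℍ) (v : ℤ × ℤ) : Continuous fun τ => gq M z τ v := by
  have := UpperHalfPlane.continuous_im
  have := continuous_normSq
  unfold gq
  fun_prop (disch := exact fun τ => mul_ne_zero M_pos.ne' (im_ne_zero τ))

theorem gq_zero (z τ : ℍ) (n : ℤ) : gq M z τ (0, n) =
    √M * √τ.im * Real.exp (-(π * z.im ^ 2 * n ^ 2 / M / τ.im)) := by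
  simp [gq, sq (n : ℝ), div_div]

/-- the integral over the real part -/
theorem strip_u (h : ∀ l, Continuous fun τ => F τ l) (z : ℍ) (b n : ℤ) {v : ℝ} (hv : 0 < v)
    (hc : ∀ j : ℤ, co M F (0, b, j) v = cp (0, b, j)) :
    ∫ u in Ico (0 : ℝ) 1, fl M (F (pt u v)) 0 b n * ex M z (pt u v) 0 b n =
      ch M cp b n / M * ee (-(n * z.re * b / M)) * Real.exp (-(π * b ^ 2 / M * v)) := by
  have := M_ne (M := M)
  have e : ∀ u, ex M z (pt u v) 0 b n = ee (-(((b ^ 2 : ℤ) : ℂ) * (pt u v : ℂ) / (4 * M))) *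
      (ee (-(n * z.re * b / M)) * Real.exp (-(π * b ^ 2 / M * v))) := fun u => by
    rw [ex, ee, ee, ee, ofReal_exp, ← exp_add, ← exp_add, pt_coe u hv]
    congr 1
    simp only [map_add, map_mul, conj_ofReal, conj_I]
    push_cast
    field_simp
    ring_nf
    simp only [I_sq]
    ring
  have := cont_pt hv
  simp only [e, fl, ch, Finset.mul_sum, Finset.sum_mul, Finset.sum_div]
  rw [integral_Ico_eq_integral_Ioc, ← intervalIntegral.integral_of_le zero_le_one,
    intervalIntegral.integral_finset_sum fun j _ => Continuous.intervalIntegrable (by fun_prop) _ _]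
  refine Finset.sum_congr rfl fun j _ => ?_
  simp only [← hc, co, div_eq_mul_inv (_ : ℂ) M, ← intervalIntegral.integral_mul_const]
  refine intervalIntegral.integral_congr fun u _ => ?_
  simp only [disc, mul_zero, zero_mul, sub_zero]
  ring

theorem im_le (γ : SL(2, ℤ)) (τ : ℍ) : (γ • τ).im ≤ max τ.im τ.im⁻¹ := by
  have h := τ.im_pos
  have e : (γ • τ).im = τ.im / normSq (γ 1 0 * τ + γ 1 1 : ℂ) :=
    ModularGroup.im_smul_eq_div_normSq γ τ
  rw [e, div_le_iff₀ (normSq_pos.2 (Hd.den_ne γ τ)), normSq_apply]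
  simp only [add_re, add_im, mul_re, mul_im, intCast_re, intCast_im, coe_re, coe_im, zero_mul,
    sub_zero, add_zero]
  have h1 := le_max_left τ.im τ.im⁻¹
  have h2 := le_max_right τ.im τ.im⁻¹
  rcases eq_or_ne (γ 1 0) 0 with c | c
  · have d := Hd.det' γ
    rw [c, mul_zero, sub_zero] at d
    rcases Int.eq_one_or_neg_one_of_mul_eq_one' d with ⟨-, d⟩ | ⟨-, d⟩ <;> simp [c, d]
  · have : (1 : ℝ) ≤ (γ 1 0 : ℝ) ^ 2 := by exact_mod_cast (one_le_sq_iff_one_le_abs _).2 (Int.one_le_abs c)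
    calc τ.im = τ.im⁻¹ * (1 * τ.im ^ 2) := by field_simp
      _ ≤ _ := by gcongr; nlinarith [mul_self_nonneg (γ 1 0 * τ.re + γ 1 1 : ℝ), sq_nonneg τ.im]

theorem split3 {a : ℕ × ℤ → ℂ} (h : Summable a) : ∑' p, a p =
    ∑' n, a (n, 0) + ∑' p : ℕ × ℕ, (a (p.1, -(p.2 + 1)) + a (p.1, p.2 + 1)) := by
  have s0 : Summable fun n => a (n, 0) := h.comp_injective (Prod.mk_left_injective 0)
  have s1 : Summable fun p : ℕ × ℕ => a (p.1, -(p.2 + 1)) :=
    h.comp_injective (i := fun p : ℕ × ℕ => (p.1, -((p.2 : ℤ) + 1))) fun p q e =>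
      Prod.ext (Prod.mk.inj e).1 (by have := (Prod.mk.inj e).2; omega)
  have s2 : Summable fun p : ℕ × ℕ => a (p.1, p.2 + 1) :=
    h.comp_injective (i := fun p : ℕ × ℕ => (p.1, (p.2 : ℤ) + 1)) fun p q e =>
      Prod.ext (Prod.mk.inj e).1 (by have := (Prod.mk.inj e).2; omega)
  have s3 := s1.add s2
  rw [h.tsum_prod, s3.tsum_prod, ← s0.tsum_add s3.prod]
  refine tsum_congr fun n => ?_
  have e1 : Summable fun k : ℕ => a (n, -(k + 1)) := s1.prod_factor n
  have e2 : Summable fun k : ℕ => a (n, k + 1) := s2.prod_factor n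
  rw [tsum_of_add_one_of_neg_add_one (f := fun b => a (n, b)) e2 e1]
  simp only [e1.tsum_add e2]
  ring

end Vale.Agent.P004Z.Lf
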