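import Vale.Agent.P004Z.Lf.Wx

/-! # P004Z, block G4: integrals along rays -/

open UpperHalfPlane hiding I
open Complex MeasureTheory Filter Set CongruenceSubgroup
open scoped MatrixGroups Modular Real ComplexConjugate Topology ModularForm

noncomputable section

namespace Vale.Agent.P004Z.Lf.Wx

open P004N (S2)

/-- primitives on the upper half plane -/
theorem prim {f : ℂ → ℂ} (h : DifferentiableOn ℂ f {z | 0 < z.im}) :
    ∃ P : ℂ → ℂ, ∀ z : ℂ, 0 < z.im → HasDerivAt P (f z) z := by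
  have n1 : ∀ w ∈ Metric.ball (0 : ℂ) 1, 1 - w ≠ 0 := fun w hw e => by
    rw [sub_eq_zero] at e
    simp [← e] at hw
  obtain ⟨Q, hQ⟩ := DifferentiableOn.isExactOn_ball (c := 0) (r := 1)
    (f := fun w => f (I * (1 + w) / (1 - w)) * (2 * I / (1 - w) ^ 2)) (by
      refine (h.comp (f := fun w => I * (1 + w) / (1 - w))
        (DifferentiableOn.div (by fun_prop) (by fun_prop) n1) fun w hw => ?_).mul
        (DifferentiableOn.div (by fun_prop) (by fun_prop) fun w hw => pow_ne_zero _ (n1 w hw))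
      have a := normSq_pos.2 (n1 w hw)
      have b : normSq w < 1 := by
        rw [normSq_eq_norm_sq]
        exact pow_lt_one₀ (norm_nonneg _) (by simpa using hw) two_ne_zero
      rw [normSq_apply] at b
      rw [mem_ofPred_eq, div_im, ← sub_div]
      refine div_pos ?_ a
      simp
      nlinarith)
  refine ⟨fun z => Q ((z - I) / (z + I)), fun z hz => ?_⟩
  have n : z + I ≠ 0 := fun e => by
    have := congrArg Complex.im e
    simp at this
    linarith
  have m : (z - I) / (z + I) ∈ Metric.ball (0 : ℂ) 1 := by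
    rw [mem_ball_zero_iff, norm_div, div_lt_one (norm_pos_iff.2 n),
      ← sq_lt_sq₀ (norm_nonneg _) (norm_nonneg _), ← normSq_eq_norm_sq, ← normSq_eq_norm_sq]
    simp [normSq_apply]
    nlinarith
  refine ((hQ _ m).comp z (((hasDerivAt_id z).sub_const I).div
    ((hasDerivAt_id z).add_const I) n)).congr_deriv ?_
  have e : 1 - (z - I) / (z + I) = 2 * I / (z + I) := by
    field_simp
    ring
  have e' : I * (1 + (z - I) / (z + I)) / (2 * I / (z + I)) = z := by
    field_simp
    ring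
  simp only [id, e, e']
  field_simp
  ring

theorem ray_im {y : ℝ} (h : 0 < y) (t : ℝ) : 0 < ((y : ℂ) * (t + I)).im := by simpa using h

/-- the integral along a ray does not depend on the ray -/
theorem ray {f : ℂ → ℂ} (h : DifferentiableOn ℂ f {z | 0 < z.im}) {C : ℝ}
    (hb : ∀ y t : ℝ, 0 < y → ‖f (y * (t + I))‖ ≤ C * (1 + t ^ 2) * (1 + y ^ 2)⁻¹)
    (h0 : ∫ y in Ioi (0 : ℝ), f (I * y) = 0) (t : ℝ) :
    ∫ y in Ioi (0 : ℝ), f (y * (t + I)) = 0 := by
  obtain ⟨P, hP⟩ := prim h
  have C0 : 0 ≤ C := by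
    have := (norm_nonneg _).trans (hb 1 0 one_pos)
    norm_num at this
    exact this
  have i : ∀ t : ℝ, IntegrableOn (fun y : ℝ => f (y * (t + I))) (Ioi 0) := fun t =>
    (integrable_inv_one_add_sq.const_mul (C * (1 + t ^ 2))).integrableOn.mono'
      ((h.continuousOn.comp (f := fun y : ℝ => (y : ℂ) * (t + I)) (by fun_prop)
        fun y hy => ray_im hy t).aestronglyMeasurable measurableSet_Ioi)
      (ae_restrict_of_forall_mem measurableSet_Ioi fun y hy => hb y t hy)
  have d : ∀ (t y : ℝ), 0 < y →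
      HasDerivAt (fun y : ℝ => P (y * (t + I))) (f (y * (t + I)) * (t + I)) y := fun t y hy => by
    simpa using ((hP _ (ray_im hy t)).comp (y : ℂ)
      ((hasDerivAt_id (y : ℂ)).mul_const (t + I))).comp_ofReal
  let D : ℝ → ℂ := fun y => P (y * (t + I)) - P (y * ((0 : ℝ) + I))
  have b : ∀ y : ℝ, 0 ≤ y → ‖D y‖ ≤ C * (1 + t ^ 2) * |t| * (y * (1 + y ^ 2)⁻¹) := by
    intro y hy
    rcases hy.eq_or_lt with rfl | hy
    · simp [D]
    have := intervalIntegral.integral_eq_sub_of_hasDerivAt (a := 0) (b := t)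
      (f := fun u : ℝ => P (y * (u + I))) (f' := fun u : ℝ => f (y * (u + I)) * y)
      (fun u _ => by
        simpa using ((hP _ (ray_im hy u)).comp (u : ℂ)
          (((hasDerivAt_id (u : ℂ)).add_const I).const_mul (y : ℂ))).comp_ofReal)
      (((h.continuousOn.comp_continuous (f := fun u : ℝ => (y : ℂ) * (u + I)) (by fun_prop)
        fun u => ray_im hy u).mul continuous_const).intervalIntegrable _ _)
    simp only [D]
    rw [← this]
    refine (intervalIntegral.norm_integral_le_of_norm_le_const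
      (C := C * (1 + t ^ 2) * (1 + y ^ 2)⁻¹ * y) fun u hu => ?_).trans_eq (by simp; ring)
    have a : u ^ 2 ≤ t ^ 2 := sq_le_sq.2 (by
      simpa using abs_sub_left_of_mem_uIcc (uIoc_subset_uIcc hu))
    rw [norm_mul, norm_real, Real.norm_of_nonneg hy.le]
    gcongr
    exact (hb y u hy).trans (by gcongr)
  have k : 0 ≤ C * (1 + t ^ 2) * |t| := by positivity
  have e := integral_Ioi_of_hasDerivAt_of_tendsto (f := D) (a := 0) (m := 0)
    (f' := fun y => f (y * (t + I)) * (t + I) - f (y * ((0 : ℝ) + I)) * ((0 : ℝ) + I)) (by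
      have z : D 0 = 0 := by simp [D]
      rw [ContinuousWithinAt, z]
      refine squeeze_zero_norm' (eventually_mem_nhdsWithin.mono fun y hy => b y hy) ?_
      refine tendsto_nhdsWithin_of_tendsto_nhds (Continuous.tendsto' ?_ _ _ (by simp))
      exact continuous_const.mul (continuous_id.mul (Continuous.inv₀ (by fun_prop)
        fun y => by positivity)))
    (fun y hy => (d t y hy).sub (d 0 y hy)) (((i t).mul_const _).sub ((i 0).mul_const _)) (by
      refine squeeze_zero_norm' (a := fun y => C * (1 + t ^ 2) * |t| * y⁻¹) ?_ ?_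
      · filter_upwards [eventually_gt_atTop 0] with y hy
        refine (b y hy.le).trans (mul_le_mul_of_nonneg_left ?_ k)
        rw [← div_eq_mul_inv, inv_eq_one_div, div_le_div_iff₀ (by positivity) hy]
        nlinarith
      · simpa using (tendsto_inv_atTop_zero (𝕜 := ℝ)).const_mul (C * (1 + t ^ 2) * |t|))
  rw [integral_sub ((i t).mul_const _) ((i 0).mul_const _), integral_mul_const,
    integral_mul_const] at e
  simp only [ofReal_zero, zero_add, mul_comm _ I, h0, D] at e
  have n : (t : ℂ) + I ≠ 0 := fun e => by simpa using congrArg Complex.im e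
  simpa [n] using e

/-- the measure `dy / y` -/
def n1 : Measure ℝ := (volume.restrict (Ioi 0)).withDensity fun y => ENNReal.ofReal (1 / y)

instance : SFinite n1 := by unfold n1; infer_instance

theorem meas_n1 : Measurable fun y : ℝ => ENNReal.ofReal (1 / y) := by fun_prop

theorem n1_ae : ∀ᵐ y ∂n1, 0 < y :=
  (withDensity_absolutelyContinuous _ _).ae_le (ae_restrict_mem measurableSet_Ioi)

theorem int_n1 (g : ℝ → ℂ) : ∫ y, y * g y ∂n1 = ∫ y in Ioi 0, g y := by
  rw [n1, integral_withDensity_eq_integral_toReal_smul meas_n1 (by simp)]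
  refine setIntegral_congr_fun measurableSet_Ioi fun y hy => ?_
  have : (y : ℂ) ≠ 0 := ofReal_ne_zero.2 (ne_of_gt hy)
  simp only [ENNReal.toReal_ofReal (one_div_nonneg.2 (le_of_lt hy)), real_smul]
  push_cast
  field_simp

theorem intg_n1 : Integrable (fun y : ℝ => y * (1 + y ^ 2)⁻¹) n1 := by
  rw [n1, integrable_withDensity_iff_integrable_smul' meas_n1 (by simp)]
  refine integrable_inv_one_add_sq.integrableOn.congr_fun (fun y hy => ?_) measurableSet_Ioi
  have : y ≠ 0 := ne_of_gt hy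
  simp only [ENNReal.toReal_ofReal (one_div_nonneg.2 (le_of_lt hy)), smul_eq_mul]
  field_simp

theorem mp_ray (s : ℝ) :
    MeasurePreserving (fun p : ℝ × ℝ => pt (p.1 * p.2 - s) p.1) (n1.prod volume) volume := by
  have m : Measurable fun p : ℝ × ℝ => (p.1, p.1 * p.2 - s) := by fun_prop
  refine mp_pt.comp (f := fun p : ℝ × ℝ => (p.1, p.1 * p.2 - s)) ⟨m, Measure.ext fun A hA => ?_⟩
  rw [Measure.map_apply m hA, Measure.prod_apply (m hA), Measure.prod_apply hA, n1, nu,
    lintegral_withDensity_eq_lintegral_mul _ meas_n1 (measurable_measure_prodMk_left (m hA)),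
    lintegral_withDensity_eq_lintegral_mul _ meas_den (measurable_measure_prodMk_left hA)]
  refine setLIntegral_congr_fun measurableSet_Ioi fun y hy => ?_
  have y0 : 0 < y := hy
  have : Prod.mk y ⁻¹' ((fun p : ℝ × ℝ => (p.1, p.1 * p.2 - s)) ⁻¹' A) =
      (y * ·) ⁻¹' ((· + -s) ⁻¹' (Prod.mk y ⁻¹' A)) := rfl
  simp only [Pi.mul_apply, this]
  rw [Real.volume_preimage_mul_left y0.ne', measure_preimage_add_right, ← mul_assoc,
    ← ENNReal.ofReal_mul (by positivity), abs_of_pos (inv_pos.2 y0)]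
  congr 2
  field_simp

variable {N : ℕ} {G : ℍ → ℂ}

theorem bot (hN : 0 < N) (h : S2 N G) (g : SL(2, ℤ)) : ∃ C : ℝ, 0 ≤ C ∧ ∀ z : ℍ,
    ‖G z‖ * z.im ^ 2 ≤ C * normSq (g 1 0 * z + g 1 1 : ℂ) := by
  obtain ⟨C, c, hC, hc, e⟩ := cusp hN h g⁻¹
  obtain ⟨-, D, hD⟩ := W2.bq hN h
  refine ⟨C * (Real.exp c * Nat.factorial 2 / c ^ 2) + |D|, by positivity, fun z => ?_⟩
  have y0 := z.im_pos
  have n := normSq_pos.2 (Hd.den_ne g z)
  have a := norm_sl G g⁻¹ (g • z)
  have i : (g • z).im = z.im / normSq (g 1 0 * z + g 1 1 : ℂ) := by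
    rw [ModularGroup.im_smul_eq_div_normSq, ModularGroup.denom_apply]
  rw [inv_smul_smul] at a
  have y1 := (g • z).im_pos
  have b : ‖G z‖ * z.im * (g • z).im ≤ C * (Real.exp c * Nat.factorial 2 / c ^ 2) + |D| := by
    rcases le_total (1 / 2) (g • z).im with k | k
    · refine le_add_of_le_of_nonneg ?_ (abs_nonneg _)
      rw [← a]
      calc _ ≤ C * Real.exp (-(c * (g • z).im)) * (1 + (g • z).im) * (1 + (g • z).im) := by
            gcongr
            · exact e _ k
            · linarith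
            · linarith
        _ = C * ((1 + (g • z).im) ^ 2 * Real.exp (-(c * (g • z).im))) := by ring
        _ ≤ _ := by gcongr; exact pow_exp 2 hc y1.le
    · refine le_add_of_nonneg_of_le (by positivity) ?_
      have := (hD z).trans (le_abs_self D)
      have := abs_nonneg D
      nlinarith
  rw [i, ← mul_div_assoc, div_le_iff₀ n] at b
  nlinarith

theorem pv {u v : ℤ} (h : u ≠ 0 ∨ v ≠ 0) :
    ∃ d x y a b : ℤ, d ≠ 0 ∧ u = x * d ∧ v = y * d ∧ a * x + b * y = 1 := by
  have p : 0 < u.gcd v := Int.gcd_pos_iff.2 h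
  obtain ⟨x, y, h1, h2, h3⟩ := Int.exists_gcd_one p
  obtain ⟨a, b, e⟩ := Int.isCoprime_iff_gcd_eq_one.2 h1
  exact ⟨_, x, y, a, b, by exact_mod_cast p.ne', h2, h3, e⟩

theorem pt_ray {y : ℝ} (h : 0 < y) (t s : ℝ) : (pt (y * t - s) y : ℂ) = y * (t + I) - s := by
  rw [pt_coe _ h]
  push_cast
  ring

theorem ray_le (hN : 0 < N) (h : S2 N G) {δ : ℕ} (hδ : 0 < δ) (j : ℤ) : ∃ C : ℝ, 0 ≤ C ∧
    ∀ y t : ℝ, 0 < y → ‖G (pt (y * t - j / δ) y)‖ ≤ C * (1 + t ^ 2) * (1 + y ^ 2)⁻¹ := by
  obtain ⟨d, c, e, a, b, d0, h1, h2, h3⟩ := pv (u := δ) (v := j) (.inl (by omega))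
  obtain ⟨C, hC, k⟩ := bot hN h (Hd.mk b (-a) c e (by linarith))
  obtain ⟨D, hD, k'⟩ := bot hN h 1
  refine ⟨C * δ ^ 2 + D, by positivity, fun y t hy => ?_⟩
  have k1 := k (pt (y * t - j / δ) y)
  have k2 := k' (pt (y * t - j / δ) y)
  rw [pt_im _ hy] at k1 k2
  have δ0 : (δ : ℂ) ≠ 0 := Nat.cast_ne_zero.2 hδ.ne'
  have q : (d : ℂ) * (c * (pt (y * t - j / δ) y : ℂ) + e) = δ * y * (t + I) := by
    have a1 : (δ : ℂ) = c * d := by exact_mod_cast h1
    have a2 : (j : ℂ) = e * d := by exact_mod_cast h2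
    have a3 : (δ : ℂ) * (j / δ) = j := by field_simp
    rw [pt_ray hy]
    push_cast
    linear_combination (j / δ - y * (t + I) : ℂ) * a1 - a2 - a3
  have q' := congrArg normSq q
  have d1 : (1 : ℝ) ≤ d * d := by
    have : 0 < d * d := mul_self_pos.2 d0
    exact_mod_cast this
  simp only [map_mul, normSq_intCast, normSq_natCast, normSq_ofReal] at q'
  have q2 : normSq ((t : ℂ) + I) = 1 + t ^ 2 := by simp [normSq_apply]; ring
  rw [q2] at q'
  change _ ≤ C * normSq (c * (pt (y * t - j / δ) y : ℂ) + e) at k1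
  have k3 : ‖G (pt (y * t - j / δ) y)‖ * y ^ 2 ≤ C * δ ^ 2 * (1 + t ^ 2) * y ^ 2 := by
    refine k1.trans ?_
    rw [show C * δ ^ 2 * (1 + t ^ 2) * y ^ 2 = C * (δ * δ * (y * y) * (1 + t ^ 2)) by ring, ← q']
    exact mul_le_mul_of_nonneg_left (le_mul_of_one_le_left (normSq_nonneg _) d1) hC
  have k4 := le_of_mul_le_mul_right k3 (by positivity)
  rw [← div_eq_mul_inv, le_div_iff₀ (by positivity)]
  simp at k2
  nlinarith [mul_nonneg hD (sq_nonneg t)]

end Vale.Agent.P004Z.Lf.Wx
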