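import Vale.Agent.P004Z.Lf.Po
import Vale.Agent.P004Z.Lf.Ms
import Vale.Agent.P004Z.W2.Pet

/-! # P004Z, block G4: majorants against cusp forms, series of functions of `pz` -/

open UpperHalfPlane hiding I
open Complex MeasureTheory Filter Set CongruenceSubgroup
open scoped MatrixGroups Modular Real ComplexConjugate Topology ModularForm

noncomputable section

namespace Vale.Agent.P004Z.Lf.Wx

open P004N (S2)

theorem sl_ap (G : ℍ → ℂ) (g : SL(2, ℤ)) (z : ℍ) :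
    (G ∣[(2 : ℤ)] g) z = G (g • z) / (g 1 0 * z + g 1 1) ^ 2 := by
  rw [ModularForm.SL_slash_apply, ModularGroup.denom_apply, zpow_neg, zpow_two, div_eq_mul_inv, sq]

theorem norm_sl (G : ℍ → ℂ) (g : SL(2, ℤ)) (z : ℍ) :
    ‖(G ∣[(2 : ℤ)] g) z‖ * z.im = ‖G (g • z)‖ * (g • z).im := by
  rw [sl_ap, ModularGroup.im_smul_eq_div_normSq, ModularGroup.denom_apply, norm_div, norm_pow,
    normSq_eq_norm_sq]
  ring

/-- decay of cusp forms -/
theorem cusp {N : ℕ} (hN : 0 < N) {G : ℍ → ℂ} (h : S2 N G) (g : SL(2, ℤ)) :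
    ∃ C c : ℝ, 0 ≤ C ∧ 0 < c ∧ ∀ z : ℍ, 1 / 2 ≤ z.im →
      ‖(G ∣[(2 : ℤ)] g) z‖ ≤ C * Real.exp (-(c * z.im)) := by
  obtain ⟨C, hC⟩ := ((h.zero g).exp_decay_atImInfty (Nat.cast_pos.2 hN) (P004N.T3.per h g)
    (P004N.T3.mdiff_slash h g) (P004N.T3.bdd_slash h g)).bound
  obtain ⟨A, hA⟩ := (atImInfty_mem _).1 hC
  obtain ⟨-, D, hD⟩ := W2.bq hN h
  have hc : (0 : ℝ) < 2 * π / N := by positivity
  refine ⟨|C| + 2 * |D| * Real.exp (2 * π / N * A), 2 * π / N, by positivity, hc, fun z hz => ?_⟩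
  have e0 := Real.exp_pos (-(2 * π / N * z.im))
  rw [add_mul]
  rcases le_total A z.im with k | k
  · have := hA z k
    rw [Set.mem_ofPred_eq, Real.norm_of_nonneg (Real.exp_pos _).le,
      show -2 * π * z.im / N = -(2 * π / N * z.im) by ring] at this
    refine this.trans (le_add_of_le_of_nonneg ?_ (by positivity))
    exact mul_le_mul_of_nonneg_right (le_abs_self C) e0.le
  · refine le_add_of_nonneg_of_le (by positivity) ?_
    have h1 := hD (g • z)
    rw [← norm_sl] at h1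
    have h2 : 1 ≤ Real.exp (2 * π / N * A) * Real.exp (-(2 * π / N * z.im)) := by
      rw [← Real.exp_add]
      exact Real.one_le_exp (by nlinarith)
    have h3 := le_abs_self D
    have h4 := norm_nonneg ((G ∣[(2 : ℤ)] g) z)
    have h5 := abs_nonneg D
    rw [mul_assoc]
    nlinarith

/-- the sum of the majorants -/
def ms (t : ℝ) (z : ℍ) : ℝ := ∑' l, Real.exp (-(t * mj l z))

theorem mj_le {t W : ℝ} (ht : 0 ≤ t) {z : ℍ} (hW : wt z ≤ W) (l : Fm) :
    Real.exp (-(t * mj l z)) ≤ Real.exp (-(t / W * nq l)) := by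
  have h0 := wt_pos z
  rw [Real.exp_le_exp, neg_le_neg_iff, div_mul_eq_mul_div, div_le_iff₀ (h0.trans_le hW), mul_assoc]
  refine mul_le_mul_of_nonneg_left ((nq_le l z).trans ?_) ht
  rw [mul_comm]
  exact mul_le_mul_of_nonneg_left hW (mj_nonneg l z)

theorem sum0 {t : ℝ} (ht : 0 < t) : Summable fun l => Real.exp (-(t * nq l)) := by
  simpa using sum_nq 0 ht

theorem ms_sum {t : ℝ} (ht : 0 < t) (z : ℍ) : Summable fun l => Real.exp (-(t * mj l z)) :=
  (sum0 (div_pos ht (wt_pos z))).of_nonneg_of_le (fun _ => (Real.exp_pos _).le)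
    (mj_le ht.le le_rfl)

theorem ms_nonneg (t : ℝ) (z : ℍ) : 0 ≤ ms t z := tsum_nonneg fun _ => (Real.exp_pos _).le

theorem ms_le {t : ℝ} (ht : 0 < t) : ∃ C : ℝ, 0 ≤ C ∧ ∀ z, ms t z ≤ C * wt z ^ 3 := by
  obtain ⟨C, hC, h⟩ := sum_nq_le 0
  have h1 : 0 < min t 1 := lt_min ht one_pos
  refine ⟨C / min t 1 ^ 3, by positivity, fun z => ?_⟩
  have h0 := wt_pos z
  have h2 : 1 ≤ wt z := by
    have : 0 ≤ (z.im ^ 2)⁻¹ := by positivity
    have : 1 ≤ (1 + z.re ^ 2) ^ 2 := one_le_pow₀ (by nlinarith)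
    rw [wt]
    nlinarith [sq_nonneg z.im]
  have h3 := h (min t 1 / wt z) (by positivity) ((div_le_one h0).2 ((min_le_right _ _).trans h2))
  simp only [pow_zero, one_mul, zero_add] at h3
  refine le_trans ((ms_sum ht z).tsum_le_tsum (fun l => ?_) (sum0 (by positivity)))
    (h3.trans_eq (by field_simp))
  refine le_trans ?_ (mj_le h1.le le_rfl l)
  rw [Real.exp_le_exp, neg_le_neg_iff]
  exact mul_le_mul_of_nonneg_right (min_le_left _ _) (mj_nonneg l z)

/-- the majorant against a cusp form -/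
theorem key {N : ℕ} (hN : 0 < N) {G : ℍ → ℂ} (h : S2 N G) (g : SL(2, ℤ)) {t : ℝ} (ht : 0 < t) :
    ∃ C c : ℝ, 0 ≤ C ∧ 0 < c ∧ ∀ z : ℍ, |z.re| ≤ 1 / 2 → 1 / 2 ≤ z.im →
      (1 + z.im) * ms t z * ‖(G ∣[(2 : ℤ)] g) z‖ ≤ C * Real.exp (-(c * z.im)) := by
  obtain ⟨C, c, hC, hc, e⟩ := cusp hN h g
  obtain ⟨D, hD, f⟩ := ms_le ht
  refine ⟨D * 40 ^ 3 * C * (Real.exp (c / 2) * Nat.factorial 7 / (c / 2) ^ 7), c / 2,
    by positivity, by positivity, fun z h1 h2 => ?_⟩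
  have y0 := z.im_pos
  have w : wt z ≤ 40 * (1 + z.im) ^ 2 := by
    have a : (z.im ^ 2)⁻¹ ≤ 4 := by
      rw [inv_le_comm₀ (by positivity) (by norm_num)]
      nlinarith
    have b : z.re ^ 2 ≤ 1 / 4 := by nlinarith [abs_le.1 h1]
    have b' : (1 + z.re ^ 2) ^ 2 ≤ 2 := by nlinarith [sq_nonneg z.re]
    rw [wt]
    have : 0 ≤ (z.im ^ 2)⁻¹ := by positivity
    nlinarith [sq_nonneg z.im]
  have p := pow_exp 7 (half_pos hc) y0.le
  have q : Real.exp (-(c * z.im)) = Real.exp (-(c / 2 * z.im)) * Real.exp (-(c / 2 * z.im)) := by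
    rw [← Real.exp_add]
    congr 1
    ring
  calc (1 + z.im) * ms t z * ‖(G ∣[(2 : ℤ)] g) z‖
      ≤ (1 + z.im) * (D * (40 * (1 + z.im) ^ 2) ^ 3) * (C * Real.exp (-(c * z.im))) := by
        have := wt_pos z
        have := ms_nonneg t z
        gcongr
        · exact (f z).trans (by gcongr)
        · exact e z h2
    _ = D * 40 ^ 3 * C * ((1 + z.im) ^ 7 * Real.exp (-(c / 2 * z.im))) *
          Real.exp (-(c / 2 * z.im)) := by rw [q]; ring
    _ ≤ _ := by gcongr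

/-- the action as an equivalence -/
def faE (g : SL(2, ℤ)) : Fm ≃ Fm where
  toFun l := fa l g
  invFun l := fa l g⁻¹
  left_inv l := Hd.fa_inv l g
  right_inv l := by simpa using Hd.fa_inv l g⁻¹

theorem mj_fa (l : Fm) (g : SL(2, ℤ)) (z : ℍ) : mj (fa l g) z = mj l (g • z) := by
  rw [mj, mj, Hd.disc_fa, Hd.pz_fa]

theorem ms_inv (t : ℝ) (g : SL(2, ℤ)) (z : ℍ) : ms t (g • z) = ms t z := by
  rw [ms, ms, ← (faE g).tsum_eq fun l => Real.exp (-(t * mj l z))]
  exact tsum_congr fun l => by rw [← mj_fa]; rfl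

theorem evq_le (l : Fm) (z : ℍ) : ‖evq l z‖ ≤ z.im * (1 + mj l z) := by
  have y0 := z.im_pos
  have h := pz_sq l z
  have m := mj_nonneg l z
  refine abs_le_of_sq_le_sq' ?_ (by positivity) |>.2
  rw [eq_div_iff (by positivity), normSq_eq_norm_sq] at h
  rw [← h, mul_pow, mul_comm]
  refine mul_le_mul_of_nonneg_left ?_ (by positivity)
  rw [mj] at m ⊢
  nlinarith [sq_nonneg (pz l z)]

theorem one_mj {t : ℝ} (ht : 0 < t) (l : Fm) (z : ℍ) :
    (1 + mj l z) * Real.exp (-(2 * t * mj l z)) ≤ Real.exp t / t * Real.exp (-(t * mj l z)) := by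
  have := pow_exp 1 ht (mj_nonneg l z)
  rw [show -(2 * t * mj l z) = -(t * mj l z) + -(t * mj l z) by ring, Real.exp_add, ← mul_assoc]
  refine mul_le_mul_of_nonneg_right ?_ (Real.exp_pos _).le
  simpa using this

/-- the derivative of `pz` -/
def dp (l : Fm) (z : ℂ) : ℂ →L[ℝ] ℝ :=
  ((evq l z).im / z.im ^ 2) • reCLM + (-(evq l z).re / z.im ^ 2) • imCLM

theorem pz_der (l : Fm) {z : ℂ} (h : z.im ≠ 0) : HasFDerivAt (pz l) (dp l z) z := by
  have r := reCLM.hasFDerivAt (x := z)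
  have i := imCLM.hasFDerivAt (x := z)
  have := ((((r.mul r).add (i.mul i)).const_mul (l.1 : ℝ)).add (r.const_mul (l.2.1 : ℝ))).add_const
    (l.2.2 : ℝ) |>.mul ((hasDerivAt_inv h).comp_hasFDerivAt z i)
  refine (this.congr_fderiv ?_).congr_of_eventuallyEq (Eventually.of_forall fun w => ?_)
  · ext w
    simp [dp, evq, sq]
    field_simp
    ring
  · simp [pz, normSq_apply, div_eq_mul_inv]

theorem norm_dp (l : Fm) (z : ℂ) : ‖dp l z‖ ≤ 2 * ‖evq l z‖ / z.im ^ 2 := by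
  refine (norm_add_le _ _).trans ?_
  rw [norm_smul, norm_smul, reCLM_norm, imCLM_norm, norm_div, norm_div, norm_neg,
    Real.norm_of_nonneg (sq_nonneg z.im), mul_one, mul_one, ← add_div, two_mul]
  gcongr
  · exact abs_im_le_norm _
  · exact abs_re_le_norm _

theorem cont_evq (l : Fm) : Continuous (evq l) := by unfold evq; fun_prop

theorem cont_pz (l : Fm) : ContinuousOn (pz l) {z | 0 < z.im} := fun _ h =>
  (pz_der l (ne_of_gt h)).continuousAt.continuousWithinAt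

theorem cont_dp (l : Fm) : ContinuousOn (dp l) {z | 0 < z.im} := by
  have := cont_evq l
  have a : ContinuousOn (fun z => (evq l z).im / z.im ^ 2) {z : ℂ | 0 < z.im} :=
    ContinuousOn.div (by fun_prop) (by fun_prop) fun z h => pow_ne_zero _ (ne_of_gt h)
  have b : ContinuousOn (fun z => -(evq l z).re / z.im ^ 2) {z : ℂ | 0 < z.im} :=
    ContinuousOn.div (by fun_prop) (by fun_prop) fun z h => pow_ne_zero _ (ne_of_gt h)
  exact (a.fun_smul continuousOn_const).add (b.fun_smul continuousOn_const)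

/-- uniform bounds near a point -/
theorem near {w : ℂ} (hw : 0 < w.im) : ∃ r W : ℝ, 0 < r ∧ 0 < W ∧ ∀ z ∈ Metric.ball w r,
    ∃ h : 0 < z.im, wt ⟨z, h⟩ ≤ W ∧ z.im ≤ W ∧ z.im⁻¹ ≤ W := by
  let f : ℂ → ℝ := fun z => 4 * (1 + z.re ^ 2) ^ 2 * (1 + z.im ^ 2 + (z.im ^ 2)⁻¹) + z.im + z.im⁻¹
  have c : ContinuousAt f w := by
    have := hw.ne'
    have := pow_ne_zero 2 hw.ne'
    fun_prop (disch := assumption)
  obtain ⟨r, hr, e⟩ := Metric.eventually_nhds_iff_ball.1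
    ((c.eventually_lt_const (lt_add_one _)).and
      (continuous_im.continuousAt.eventually_const_lt hw))
  refine ⟨r, f w + 1, hr, by positivity, fun z hz => ⟨(e z hz).2, ?_⟩⟩
  have h1 := (e z hz).1
  have h2 := (e z hz).2
  have h3 := wt_pos ⟨z, h2⟩
  have h4 := inv_pos.2 h2
  have h5 : f z = wt ⟨z, h2⟩ + z.im + z.im⁻¹ := rfl
  refine ⟨?_, ?_, ?_⟩ <;> linarith

end Vale.Agent.P004Z.Lf.Wx
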